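import Vale.Agent.P046.Flags.Spec
import Vale.Agent.P046.Codeg

/-!
# Shared algebra of the observables

Stationarity of the averages, sizes from `Good`, and the one step change of a mean over flags.
-/

namespace Vale.Agent.P046.Flags

open Finset Chain

variable {n : ℕ}

/-! ### Means -/

lemma card_mul_mean {α : Type*} (A : Finset α) (z : α → ℝ) :
    (A.card : ℝ) * FlagDrift.mean A z = ∑ a ∈ A, z a := by
  rcases A.eq_empty_or_nonempty with rfl | h
  · simp
  · have h0 : (A.card : ℝ) ≠ 0 := by exact_mod_cast h.card_pos.ne'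
    rw [FlagDrift.mean]
    field_simp

lemma mean_congr {α : Type*} {A : Finset α} {z z' : α → ℝ} (h : ∀ a ∈ A, z a = z' a) :
    FlagDrift.mean A z = FlagDrift.mean A z' := by
  rw [FlagDrift.mean, FlagDrift.mean, sum_congr rfl h]

lemma mean_sub_const {α : Type*} {A : Finset α} (hA : A.Nonempty) (z : α → ℝ) (c : ℝ) :
    FlagDrift.mean A (fun a => z a - c) = FlagDrift.mean A z - c := by
  have h0 : (A.card : ℝ) ≠ 0 := by exact_mod_cast hA.card_pos.ne'
  simp only [FlagDrift.mean, sum_sub_distrib, sum_const, nsmul_eq_mul]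
  field_simp

lemma mean_linear {α : Type*} (A : Finset α) (z z' : α → ℝ) (c c' : ℝ) :
    FlagDrift.mean A (fun a => c * z a + c' * z' a) =
      c * FlagDrift.mean A z + c' * FlagDrift.mean A z' := by
  simp only [FlagDrift.mean, sum_add_distrib, ← mul_sum]
  ring

lemma abs_mean_le {α : Type*} {A : Finset α} {z : α → ℝ} {B : ℝ} (hB : 0 ≤ B)
    (h : ∀ a ∈ A, |z a| ≤ B) : |FlagDrift.mean A z| ≤ B := by
  rcases A.eq_empty_or_nonempty with rfl | hA
  · simpa [FlagDrift.mean] using hB
  · have h0 : (0 : ℝ) < A.card := by exact_mod_cast hA.card_pos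
    rw [FlagDrift.mean, abs_div, abs_of_pos h0, div_le_iff₀ h0, mul_comm]
    refine (abs_sum_le_sum_abs _ _).trans ((sum_le_sum h).trans_eq ?_)
    rw [sum_const, nsmul_eq_mul]

/-! ### Sides -/

lemma mem_triangles_iff {E : St n} {t : Finset (Fin n)} :
    t ∈ triangles E ↔ t.card = 3 ∧ sides t ⊆ E := by
  simp [triangles]

lemma card_erase_sides {E : St n} {t e : Finset (Fin n)} (ht : t ∈ triangles E)
    (he : e ∈ sides t) : ((sides t).erase e).card = 2 := by
  rw [card_erase_of_mem he, card_sides ht]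

lemma mem_of_triAt {E : St n} {e t : Finset (Fin n)} (ht : t ∈ triAt E e) :
    t ∈ triangles E ∧ e ∈ sides t := mem_filter.1 ht

lemma mem_of_triV {E : St n} {b : Fin n} {t : Finset (Fin n)} (ht : t ∈ triV E b) :
    t ∈ triangles E ∧ b ∈ t := mem_filter.1 ht

lemma sides_sub {E : St n} {t g : Finset (Fin n)} (ht : t ∈ triangles E) (hg : g ∈ sides t) :
    g ∈ E := (mem_triangles_iff.1 ht).2 hg

/-- The opposite side of `b` in a triangle at `b`. -/
lemma filter_opposite {E : St n} {t : Finset (Fin n)} {b : Fin n} (ht : t ∈ triangles E)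
    (hb : b ∈ t) : (sides t).filter (fun g => b ∉ g) = {t.erase b} := by
  have h3 := (mem_triangles_iff.1 ht).1
  have hc : (t.erase b).card = 2 := by rw [card_erase_of_mem hb, h3]
  ext g
  simp only [sides, mem_filter, mem_powersetCard, mem_singleton]
  constructor
  · rintro ⟨⟨hsub, hg⟩, hbg⟩
    exact eq_of_subset_of_card_le (subset_erase.2 ⟨hsub, hbg⟩) (by omega)
  · rintro rfl
    exact ⟨⟨erase_subset _ _, hc⟩, notMem_erase _ _⟩

lemma card_spokes {E : St n} {t : Finset (Fin n)} {b : Fin n} (ht : t ∈ triangles E)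
    (hb : b ∈ t) : ((sides t).filter fun g => b ∈ g).card = 2 := by
  have h := card_filter_add_card_filter_not (s := sides t) (fun g => b ∈ g)
  rw [filter_opposite ht hb, card_sides ht, card_singleton] at h
  omega

/-- The sum of a two-variable function over edge-triangle incidences. -/
lemma sum_triAt (E : St n) (F : Finset (Fin n) → Finset (Fin n) → ℝ) :
    ∑ e ∈ E, ∑ t ∈ triAt E e, F e t = ∑ t ∈ triangles E, ∑ e ∈ sides t, F e t := by
  simp only [triAt, sum_filter]
  rw [sum_comm]
  refine sum_congr rfl fun t ht => ?_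
  rw [← sum_filter, filter_mem_eq_inter, inter_eq_right.2 (mem_triangles_iff.1 ht).2]

/-- The incidences at the edges through `b`. -/
lemma sum_triV (E : St n) (b : Fin n) (F : Finset (Fin n) → Finset (Fin n) → ℝ) :
    ∑ e ∈ E.filter (fun g => b ∈ g), ∑ t ∈ triAt E e, F e t =
      ∑ t ∈ triV E b, ∑ e ∈ (sides t).filter (fun g => b ∈ g), F e t := by
  rw [sum_filter]
  calc ∑ e ∈ E, (if b ∈ e then ∑ t ∈ triAt E e, F e t else 0)
      = ∑ e ∈ E, ∑ t ∈ triAt E e, (if b ∈ e then F e t else 0) := by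
        refine sum_congr rfl fun e _ => ?_
        split_ifs <;> simp
    _ = ∑ t ∈ triangles E, ∑ e ∈ sides t, (if b ∈ e then F e t else 0) := sum_triAt E _
    _ = _ := by
        rw [triV, sum_filter]
        refine sum_congr rfl fun t _ => ?_
        rw [← sum_filter]
        split_ifs with hb
        · rfl
        · rw [filter_false_of_mem (s := sides t) (fun g hg hbg => hb ((mem_powersetCard.1 hg).1 hbg)),
            sum_empty]

/-! ### Stationarity -/

lemma card_mul_avgE (E : St n) (f : Finset (Fin n) → ℝ) (e : Finset (Fin n)) :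
    ((triAt E e).card : ℝ) * avgE E f e = ∑ t ∈ triAt E e, (∑ g ∈ (sides t).erase e, f g) / 2 :=
  card_mul_mean _ _

lemma sum_sides_avgE (E : St n) (f : Finset (Fin n) → ℝ) :
    ∑ t ∈ triangles E, ∑ e ∈ sides t, avgE E f e = ∑ t ∈ triangles E, ∑ e ∈ sides t, f e := by
  rw [← sum_triAt E (fun e _ => avgE E f e),
    sum_congr rfl fun e _ => (by rw [sum_const, nsmul_eq_mul, card_mul_avgE] :
      ∑ _t ∈ triAt E e, avgE E f e = ∑ t ∈ triAt E e, (∑ g ∈ (sides t).erase e, f g) / 2),
    sum_triAt E (fun e t => (∑ g ∈ (sides t).erase e, f g) / 2)]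
  refine sum_congr rfl fun t ht => ?_
  rw [← sum_div, sum_congr rfl fun e he => sum_erase_eq_sub he, sum_sub_distrib, sum_const,
    card_sides ht, nsmul_eq_mul]
  push_cast
  ring

/-- The global mean is stationary for the averaging. -/
lemma avgG_avgE (E : St n) (f : Finset (Fin n) → ℝ) : avgG E (avgE E f) = avgG E f := by
  simp only [avgG, FlagDrift.mean, ← sum_div, sum_sides_avgE]

/-- The average of the second order average. -/
lemma avgG_vv (i : ℕ) (E : St n) : avgG E (vv i E) = vG i E := by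
  simp only [avgG, vG, FlagDrift.mean, ← sum_div]
  rw [← sum_triAt E (fun e _ => vv i E e),
    sum_congr rfl fun e _ => (by rw [sum_const, nsmul_eq_mul, vv, card_mul_mean] :
      ∑ _t ∈ triAt E e, vv i E e = ∑ t ∈ triAt E e, phi i E e t),
    sum_triAt E (fun e t => phi i E e t)]

/-- The spoke mean of the averaging is half spokes, half opposite sides. -/
lemma avgS_avgE (E : St n) (f : Finset (Fin n) → ℝ) (b : Fin n) :
    avgS E (avgE E f) b = (avgS E f b + avgO E f b) / 2 := by
  have key : ∑ t ∈ triV E b, (∑ g ∈ (sides t).filter (fun g => b ∈ g), avgE E f g) / 2 =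
      ∑ t ∈ triV E b, ((∑ g ∈ (sides t).filter (fun g => b ∈ g), f g) / 2 +
        ∑ g ∈ (sides t).filter (fun g => b ∉ g), f g) / 2 := by
    rw [← sum_div, ← sum_triV E b (fun e _ => avgE E f e),
      sum_congr rfl fun e _ => (by rw [sum_const, nsmul_eq_mul, card_mul_avgE] :
        ∑ _t ∈ triAt E e, avgE E f e = ∑ t ∈ triAt E e, (∑ g ∈ (sides t).erase e, f g) / 2),
      sum_triV E b (fun e t => (∑ g ∈ (sides t).erase e, f g) / 2), sum_div]
    refine sum_congr rfl fun t ht => ?_
    obtain ⟨htE, hb⟩ := mem_of_triV ht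
    have hs := (sum_filter_add_sum_filter_not (sides t) (fun g => b ∈ g) f).symm
    rw [← sum_div, sum_congr rfl fun e he => sum_erase_eq_sub (mem_filter.1 he).1,
      sum_sub_distrib, sum_const, card_spokes htE hb, nsmul_eq_mul, hs]
    push_cast
    ring
  simp only [avgS, avgO, FlagDrift.mean]
  rw [key, ← add_div, ← sum_add_distrib, ← sum_div]
  ring

lemma avgE_sub_const {E : St n} {e : Finset (Fin n)} (h : (triAt E e).Nonempty)
    (f : Finset (Fin n) → ℝ) (c : ℝ) : avgE E (fun g => f g - c) e = avgE E f e - c := by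
  simp only [avgE]
  rw [← mean_sub_const h]
  refine mean_congr fun t ht => ?_
  obtain ⟨htE, he⟩ := mem_of_triAt ht
  rw [sum_sub_distrib, sum_const, card_erase_sides htE he, nsmul_eq_mul]
  push_cast
  ring

lemma avgS_sub_const {E : St n} {b : Fin n} (h : (triV E b).Nonempty)
    (f : Finset (Fin n) → ℝ) (c : ℝ) : avgS E (fun g => f g - c) b = avgS E f b - c := by
  simp only [avgS]
  rw [← mean_sub_const h]
  refine mean_congr fun t ht => ?_
  obtain ⟨htE, hb⟩ := mem_of_triV ht
  rw [sum_sub_distrib, sum_const, card_spokes htE hb, nsmul_eq_mul]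
  push_cast
  ring

lemma avgO_sub_const {E : St n} {b : Fin n} (h : (triV E b).Nonempty)
    (f : Finset (Fin n) → ℝ) (c : ℝ) : avgO E (fun g => f g - c) b = avgO E f b - c := by
  simp only [avgO]
  rw [← mean_sub_const h]
  refine mean_congr fun t ht => ?_
  obtain ⟨htE, hb⟩ := mem_of_triV ht
  rw [filter_opposite htE hb, sum_singleton, sum_singleton]

/-- The second centred average is the average of the first. -/
lemma wc_eq_avgE (i : ℕ) {E : St n} {e : Finset (Fin n)} (h : (triAt E e).Nonempty) :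
    wc i E e = avgE E (zc i E) e :=
  ((avgE_sub_const h (zz i E) (avgG E (yy i E))).trans (by
    rw [wc, ww, show avgG E (zz i E) = avgG E (yy i E) from avgG_avgE E (yy i E)])).symm

lemma uc_eq_avgS (i : ℕ) {E : St n} {b : Fin n} (h : (triV E b).Nonempty) :
    uc i E b = avgS E (wc i E) b := (avgS_sub_const h _ _).symm

lemma oc_eq_avgO (i : ℕ) {E : St n} {b : Fin n} (h : (triV E b).Nonempty) :
    oc i E b = avgO E (wc i E) b := (avgO_sub_const h _ _).symm

/-! ### Sizes -/

section Sizes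

variable {P : Env} {i : ℕ} {E : St n}

lemma Small.mu_pos (hs : Small n P i) : 0 < mu n i := lt_of_lt_of_le (by norm_num) hs.mu_big

lemma Small.mm_ge (hs : Small n P i) : 6 ≤ mm n i := by
  have : ((3 * i + 6 : ℕ) : ℝ) ≤ (n.choose 2 : ℝ) := by exact_mod_cast hs.room
  push_cast at this
  rw [mm]
  linarith

lemma Small.pp_pos (hs : Small n P i) : 0 < pp n i := by
  have h := hs.mm_ge
  have h2 : (0 : ℝ) < (n.choose 2 : ℝ) := by
    rw [mm] at h
    linarith [(Nat.cast_nonneg i : (0 : ℝ) ≤ (i : ℝ))]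
  exact div_pos (by linarith) h2

lemma Small.pp_le_one (hs : Small n P i) : pp n i ≤ 1 := by
  have h := hs.mm_ge
  rw [pp]
  refine div_le_one_of_le₀ ?_ (Nat.cast_nonneg _)
  rw [mm]
  linarith [(Nat.cast_nonneg i : (0 : ℝ) ≤ (i : ℝ))]

lemma Small.mu_le_np (hs : Small n P i) : mu n i ≤ n * pp n i :=
  mul_le_mul_of_nonneg_left (by rw [pow_two]; exact mul_le_of_le_one_left hs.pp_pos.le hs.pp_le_one)
    (Nat.cast_nonneg n)

lemma card_eq_mm (h : Size i E) : (E.card : ℝ) = mm n i := by
  have : ((E.card + 3 * i : ℕ) : ℝ) = (n.choose 2 : ℝ) := by exact_mod_cast h.2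
  push_cast at this
  rw [mm]
  linarith

lemma triAt_near (hs : Small n P i) (hg : Good P i E) {e : Finset (Fin n)} (he : e ∈ E) :
    |((triAt E e).card : ℝ) - mu n i| ≤ P.y i * mu n i := by
  have h := hg.y e he
  have hmu := hs.mu_pos
  rw [yy, div_sub_one hmu.ne', abs_div, abs_of_pos hmu, div_le_iff₀ hmu] at h
  exact h

lemma triAt_card_bounds (hs : Small n P i) (hg : Good P i E) {e : Finset (Fin n)} (he : e ∈ E) :
    99 / 100 * mu n i ≤ ((triAt E e).card : ℝ) ∧
      ((triAt E e).card : ℝ) ≤ 101 / 100 * mu n i := by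
  have h := abs_le.1 (triAt_near hs hg he)
  have h2 : P.y i * mu n i ≤ 1 / 100 * mu n i :=
    mul_le_mul_of_nonneg_right hs.y1 hs.mu_pos.le
  constructor <;> linarith

lemma triAt_nonempty (hs : Small n P i) (hg : Good P i E) {e : Finset (Fin n)} (he : e ∈ E) :
    (triAt E e).Nonempty := by
  rw [← card_pos]
  have h := (triAt_card_bounds hs hg he).1
  have := hs.mu_pos
  exact_mod_cast (show (0 : ℝ) < ((triAt E e).card : ℝ) by linarith)

lemma triangles_ne_empty (hs : Small n P i) (hg : Good P i E) : triangles E ≠ ∅ := by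
  have h1 := card_eq_mm hg.size
  have h2 := hs.mm_ge
  have hE : E.Nonempty := card_pos.1 (by exact_mod_cast (show (0 : ℝ) < (E.card : ℝ) by linarith))
  obtain ⟨e, he⟩ := hE
  obtain ⟨t, ht⟩ := triAt_nonempty hs hg he
  exact (nonempty_iff_ne_empty.1 ⟨t, (mem_of_triAt ht).1⟩)

lemma abs_gg_le (hs : Small n P i) (hg : Good P i E) : |gg i E| ≤ P.y i := by
  have hM : (0 : ℝ) < E.card := by rw [card_eq_mm hg.size]; linarith [hs.mm_ge]
  have hden : (0 : ℝ) < (E.card : ℝ) * mu n i := mul_pos hM hs.mu_pos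
  have h3 : 3 * ((triangles E).card : ℝ) - (E.card : ℝ) * mu n i =
      ∑ e ∈ E, (((triAt E e).card : ℝ) - mu n i) := by
    rw [sum_sub_distrib, sum_const, nsmul_eq_mul, ← Codeg.sum_deg E]
    rfl
  rw [gg, div_sub_one hden.ne', h3, abs_div, abs_of_pos hden, div_le_iff₀ hden]
  refine (abs_sum_le_sum_abs _ _).trans ((sum_le_sum fun e he => triAt_near hs hg he).trans_eq ?_)
  rw [sum_const, nsmul_eq_mul]
  ring

lemma one_add_gg_bounds (hs : Small n P i) (hg : Good P i E) :
    99 / 100 ≤ 1 + gg i E ∧ 1 + gg i E ≤ 101 / 100 := by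
  have h := abs_le.1 (abs_gg_le hs hg)
  have := hs.y1
  constructor <;> linarith

/-- The normalisation of a step. -/
noncomputable def rate (i : ℕ) (E : St n) : ℝ := mm n i / (3 * ((triangles E).card : ℝ))

lemma rate_eq (hs : Small n P i) (hg : Good P i E) :
    rate i E = 1 / (mu n i * (1 + gg i E)) := by
  have hQ : (0 : ℝ) < (triangles E).card := by
    exact_mod_cast card_pos.2 (nonempty_iff_ne_empty.2 (triangles_ne_empty hs hg))
  have hM := hs.mm_ge
  have hmu := hs.mu_pos
  rw [rate, gg, card_eq_mm hg.size]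
  field_simp
  ring

lemma rate_nonneg (hs : Small n P i) : 0 ≤ rate i E :=
  div_nonneg (by linarith [hs.mm_ge]) (mul_nonneg (by norm_num) (Nat.cast_nonneg _))

lemma rate_mul_mu_le (hs : Small n P i) (hg : Good P i E) : rate i E * mu n i ≤ 100 / 99 := by
  have hmu := hs.mu_pos
  have h := (one_add_gg_bounds hs hg).1
  rw [rate_eq hs hg, one_div, mul_inv, mul_comm, ← mul_assoc, mul_inv_cancel₀ hmu.ne', one_mul,
    inv_le_comm₀ (by linarith) (by norm_num)]
  norm_num
  linarith

/-- The edges at a vertex. -/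
lemma card_edges_at (hsize : Size i E) (b : Fin n) :
    (E.filter fun g => b ∈ g).card = degV E b := by
  rw [degV]
  symm
  refine card_bij (fun c _ => ({b, c} : Finset (Fin n))) (fun c hc => ?_) (fun c hc d hd h => ?_)
    (fun g hg => ?_)
  · simp only [mem_filter, mem_univ, true_and] at hc ⊢
    exact ⟨hc, by simp⟩
  · have hcb : c ≠ b := by
      rintro rfl
      have := (mem_powersetCard.1 (hsize.1 (mem_filter.1 hc).2)).2
      simp at this
    have : c ∈ ({b, d} : Finset (Fin n)) := h ▸ (by simp)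
    simpa [hcb] using this
  · obtain ⟨hgE, hb⟩ := mem_filter.1 hg
    have hc2 := (mem_powersetCard.1 (hsize.1 hgE)).2
    obtain ⟨c, hc⟩ := card_eq_one.1 (show (g.erase b).card = 1 by rw [card_erase_of_mem hb, hc2])
    have hgc : ({b, c} : Finset (Fin n)) = g := by rw [← insert_erase hb, hc]
    exact ⟨c, mem_filter.2 ⟨mem_univ _, hgc.symm ▸ hgE⟩, hgc⟩

lemma two_mul_card_triV (E : St n) (b : Fin n) :
    2 * ((triV E b).card : ℝ) = ∑ e ∈ E.filter (fun g => b ∈ g), ((triAt E e).card : ℝ) := by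
  have h := sum_triV E b (fun _ _ => (1 : ℝ))
  simp only [sum_const, nsmul_eq_mul, mul_one] at h
  rw [h, mul_comm, ← nsmul_eq_mul, ← sum_const]
  refine sum_congr rfl fun t ht => ?_
  obtain ⟨htE, hb⟩ := mem_of_triV ht
  rw [card_spokes htE hb]
  norm_num

variable {eta : ℕ → ℝ}

lemma triV_card_ge (hs : Small n P i) (hg : GoodI P eta i E) (he : eta i ≤ 1 / 100) (b : Fin n) :
    12 / 25 * (n * pp n i * mu n i) ≤ ((triV E b).card : ℝ) := by
  have h2 := two_mul_card_triV E b
  have hlow : (degV E b : ℝ) * (99 / 100 * mu n i) ≤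
      ∑ e ∈ E.filter (fun g => b ∈ g), ((triAt E e).card : ℝ) := by
    rw [← card_edges_at hg.good.size b, ← nsmul_eq_mul, ← sum_const]
    exact sum_le_sum fun e he => (triAt_card_bounds hs hg.good (mem_filter.1 he).1).1
  have hnp : (0 : ℝ) ≤ n * pp n i := le_trans hs.mu_pos.le hs.mu_le_np
  have hd := (abs_le.1 (hg.deg b)).1
  have hd' : eta i * (n * pp n i) ≤ 1 / 100 * (n * pp n i) := mul_le_mul_of_nonneg_right he hnp
  have hmu := hs.mu_pos
  nlinarith

lemma triV_nonempty (hs : Small n P i) (hg : GoodI P eta i E) (he : eta i ≤ 1 / 100) (b : Fin n) :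
    (triV E b).Nonempty := by
  rw [← card_pos]
  have h := triV_card_ge hs hg he b
  have := mul_pos (lt_of_lt_of_le hs.mu_pos hs.mu_le_np) hs.mu_pos
  exact_mod_cast (show (0 : ℝ) < ((triV E b).card : ℝ) by linarith)

end Sizes

/-! ### One step -/

/-- The increment as a sum over the steps keeping the root. -/
lemma inc_eq_sum {R : St n} {E : St n} (hR : R ⊆ E) (hne : triangles E ≠ ∅)
    (f : ℕ → St n → ℝ) (i : ℕ) :
    inc R f i E = rate i E *
      ∑ t ∈ FlagDrift.steps R E, (f (i + 1) (E \ sides t) - f i E) := by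
  have e : ∀ (a b : ℝ), mm n i / 3 * (a / b) = mm n i / (3 * b) * a := fun a b => by ring
  rw [inc, avg, if_neg hne, rate, FlagDrift.steps, sum_filter, e]
  congr 1
  refine sum_congr rfl fun t _ => ?_
  by_cases h : Disjoint R (sides t)
  · rw [if_pos (subset_sdiff.2 ⟨hR, h⟩), if_pos h]
  · rw [if_neg fun h' => h (subset_sdiff.1 h').2, if_neg h]

/-- The steps avoiding a larger set give the increment up to the jumps at that set. -/
lemma rate_sum_sub_inc_le {P : Env} {i : ℕ} {E : St n} (hs : Small n P i) (hg : Good P i E)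
    {g : Finset (Fin n)} {S : St n} (hgS : g ∈ S) (hSE : S ⊆ E) (hS : S.card ≤ 3)
    (f : ℕ → St n → ℝ) {J : ℝ} (hJ0 : 0 ≤ J) (hJ : JumpLE {g} f i E J) :
    |rate i E * (∑ t ∈ FlagDrift.steps S E, (f (i + 1) (E \ sides t) - f i E))
        - inc {g} f i E| ≤ 4 * J := by
  have hgE : ({g} : St n) ⊆ E := singleton_subset_iff.2 (hSE hgS)
  have hsub : FlagDrift.steps S E ⊆ FlagDrift.steps {g} E := fun t ht => by
    obtain ⟨h1, h2⟩ := mem_filter.1 ht
    exact mem_filter.2 ⟨h1, disjoint_of_subset_left (singleton_subset_iff.2 hgS) h2⟩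
  rw [inc_eq_sum hgE (triangles_ne_empty hs hg) f i, ← mul_sub, abs_mul,
    abs_of_nonneg (rate_nonneg hs), ← sum_sdiff hsub, sub_add_eq_sub_sub_swap, sub_self, zero_sub,
    abs_neg]
  have hcnt : ((FlagDrift.steps {g} E \ FlagDrift.steps S E).card : ℝ) ≤
      3 * (101 / 100 * mu n i) := by
    have hsub2 : FlagDrift.steps {g} E \ FlagDrift.steps S E ⊆
        (triangles E).filter fun t => ¬ Disjoint (sides t) S := fun t ht => by
      obtain ⟨h1, h2⟩ := mem_sdiff.1 ht
      exact mem_filter.2 ⟨(mem_filter.1 h1).1, fun hd => h2 (mem_filter.2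
        ⟨(mem_filter.1 h1).1, hd.symm⟩)⟩
    refine le_trans (by exact_mod_cast card_le_card hsub2) ((FlagDrift.hit_upper E S).trans ?_)
    refine (sum_le_sum (g := fun _ => 101 / 100 * mu n i)
      fun e he => (triAt_card_bounds hs hg (hSE he)).2).trans ?_
    rw [sum_const, nsmul_eq_mul]
    exact mul_le_mul_of_nonneg_right (by exact_mod_cast hS) (by linarith [hs.mu_pos])
  have hbound : |∑ t ∈ FlagDrift.steps {g} E \ FlagDrift.steps S E,
      (f (i + 1) (E \ sides t) - f i E)| ≤ 3 * (101 / 100 * mu n i) * J := by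
    refine (abs_sum_le_sum_abs _ _).trans ((sum_le_sum (g := fun _ => J) fun t ht => ?_).trans ?_)
    · obtain ⟨h1, h2⟩ := mem_filter.1 (mem_sdiff.1 ht).1
      exact hJ t h1 (subset_sdiff.2 ⟨hgE, h2⟩)
    · rw [sum_const, nsmul_eq_mul]
      exact mul_le_mul_of_nonneg_right hcnt hJ0
  refine (mul_le_mul_of_nonneg_left hbound (rate_nonneg hs)).trans ?_
  have := rate_mul_mu_le hs hg
  nlinarith

/-- The change of a mean over flags: the mean of the changes, up to covariance and cross term. -/
theorem abs_inc_mean_sub_le {ι : Type*} [DecidableEq ι] (U : Finset ι) (req : ι → St n)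
    {R : St n} {i : ℕ} {E : St n} (hR : R ⊆ E) (hne : triangles E ≠ ∅) (hr : 0 ≤ rate i E)
    (f : ℕ → St n → ℝ) (z : ℕ → St n → ι → ℝ) (hA : (FlagDrift.flags U req E).Nonempty)
    (hf0 : f i E = FlagDrift.mean (FlagDrift.flags U req E) (z i E))
    (hf1 : ∀ t ∈ FlagDrift.steps R E, f (i + 1) (E \ sides t) =
      FlagDrift.mean (FlagDrift.flags U req (E \ sides t)) (z (i + 1) (E \ sides t)))
    {B J H H0 Hd L : ℝ} (hJ0 : 0 ≤ J) (hL0 : 0 ≤ L)
    (hlost : ∀ t ∈ FlagDrift.steps R E, ((FlagDrift.lost U req E t).card : ℝ) ≤ L)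
    (hLD : 2 * L ≤ ((FlagDrift.flags U req E).card : ℝ))
    (hB : ∀ a ∈ FlagDrift.flags U req E,
      |z i E a - FlagDrift.mean (FlagDrift.flags U req E) (z i E)| ≤ B)
    (hJ : ∀ a ∈ FlagDrift.flags U req E, ∀ t ∈ FlagDrift.steps R E,
      a ∉ FlagDrift.lost U req E t → |z (i + 1) (E \ sides t) a - z i E a| ≤ J)
    (hHd : ∀ a ∈ FlagDrift.flags U req E,
      |(FlagDrift.hits (FlagDrift.steps R E) (FlagDrift.lost U req E) a : ℝ) - H0| ≤ Hd)
    (hH : ∀ a ∈ FlagDrift.flags U req E,
      (FlagDrift.hits (FlagDrift.steps R E) (FlagDrift.lost U req E) a : ℝ) ≤ H) :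
    |inc R f i E - FlagDrift.mean (FlagDrift.flags U req E) (fun a => rate i E *
        ∑ t ∈ (FlagDrift.steps R E).filter (fun t => a ∉ FlagDrift.lost U req E t),
          (z (i + 1) (E \ sides t) a - z i E a))| ≤
      rate i E * (Hd * B + 2 * H * J +
        2 * H * L * B / (FlagDrift.flags U req E).card) := by
  set A := FlagDrift.flags U req E with hAdef
  set T := FlagDrift.steps R E with hT
  set l := FlagDrift.lost U req E with hl
  set z' : Finset (Fin n) → ι → ℝ := fun t => z (i + 1) (E \ sides t) with hz'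
  have hD : (0 : ℝ) < A.card := by exact_mod_cast hA.card_pos
  have hsub : ∀ t ∈ T, l t ⊆ A := fun t _ => filter_subset _ _
  have hlt : ∀ t ∈ T, (l t).card < A.card := fun t ht => by
    have h1 := hlost t ht
    exact_mod_cast (show ((l t).card : ℝ) < A.card by linarith)
  have hid := FlagDrift.sum_mean_change T A l (z i E) z' hA hsub hlt
  have hinc : inc R f i E = rate i E *
      ∑ t ∈ T, (FlagDrift.mean (A \ l t) (z' t) - FlagDrift.mean A (z i E)) := by
    rw [inc_eq_sum hR hne f i]
    congr 1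
    refine sum_congr rfl fun t ht => ?_
    rw [hf1 t ht, hf0, FlagDrift.flags_sdiff]
  have hmain : FlagDrift.mean A (fun a => rate i E *
      ∑ t ∈ T.filter (fun t => a ∉ l t), (z' t a - z i E a)) = rate i E *
      ((∑ a ∈ A, ∑ t ∈ T.filter (fun t => a ∉ l t), (z' t a - z i E a)) / A.card) := by
    rw [FlagDrift.mean, ← mul_sum, mul_div_assoc]
  rw [hinc, hid, hmain, ← mul_sub, abs_mul, abs_of_nonneg hr]
  refine mul_le_mul_of_nonneg_left ?_ hr
  set h : ι → ℝ := fun a => (FlagDrift.hits T l a : ℝ) with hh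
  have hcov : |(∑ a ∈ A, (h a - FlagDrift.mean A h) * (z i E a - FlagDrift.mean A (z i E)))
      / A.card| ≤ Hd * B := by
    have hrw : ∑ a ∈ A, (h a - FlagDrift.mean A h) * (z i E a - FlagDrift.mean A (z i E)) =
        ∑ a ∈ A, (h a - H0) * (z i E a - FlagDrift.mean A (z i E)) := by
      simp only [sub_mul, sum_sub_distrib, ← mul_sum, FlagDrift.sum_sub_mean A (z i E) hA]
      ring
    rw [hrw, abs_div, abs_of_pos hD, div_le_iff₀ hD]
    refine (abs_sum_le_sum_abs _ _).trans ((sum_le_sum (g := fun _ => Hd * B) fun a ha => ?_).trans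
      (le_of_eq (by rw [sum_const, nsmul_eq_mul]; ring)))
    rw [abs_mul]
    exact mul_le_mul (hHd a ha) (hB a ha) (abs_nonneg _)
      ((abs_nonneg _).trans (hHd a ha))
  have hsum : ∑ t ∈ T, ((l t).card : ℝ) ≤ A.card * H := by
    have e : ∑ t ∈ T, ((l t).card : ℝ) = ∑ a ∈ A, h a := by
      simp only [hh, FlagDrift.hits, card_filter, Nat.cast_sum]
      rw [sum_comm]
      refine sum_congr rfl fun t ht => ?_
      rw [← Nat.cast_sum, ← card_filter, filter_mem_eq_inter,
        inter_eq_right.2 (hsub t ht)]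
    rw [e, ← nsmul_eq_mul, ← sum_const]
    exact sum_le_sum hH
  have hcross : |FlagDrift.cross T A l (z i E) z'| ≤ 2 * H * J + 2 * H * L * B / A.card := by
    refine (FlagDrift.abs_cross_le T A l (z i E) z' hA hB hsub fun t ht => ?_).trans ?_
    · have h1 := hlost t ht
      exact_mod_cast (show 2 * ((l t).card : ℝ) ≤ A.card by linarith)
    · have hB0 : 0 ≤ B := by
        obtain ⟨a, ha⟩ := hA
        exact (abs_nonneg _).trans (hB a ha)
      have hterm : ∀ t ∈ T, ((l t).card : ℝ) * ((∑ a ∈ A \ l t, |z' t a - z i E a|) +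
          (l t).card * B) ≤ ((l t).card : ℝ) * (A.card * J + L * B) := by
        intro t ht
        refine mul_le_mul_of_nonneg_left (add_le_add ?_ ?_) (Nat.cast_nonneg _)
        · refine (sum_le_sum (g := fun _ => J) fun a ha => ?_).trans ?_
          · obtain ⟨h1, h2⟩ := mem_sdiff.1 ha
            exact hJ a h1 t ht h2
          · rw [sum_const, nsmul_eq_mul]
            exact mul_le_mul_of_nonneg_right (by exact_mod_cast card_le_card sdiff_subset) hJ0
        · exact mul_le_mul_of_nonneg_right (hlost t ht) hB0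
      refine (mul_le_mul_of_nonneg_left ((sum_le_sum hterm).trans_eq (sum_mul _ _ _).symm)
        (by positivity)).trans ((mul_le_mul_of_nonneg_left (mul_le_mul_of_nonneg_right hsum
          (by positivity)) (by positivity)).trans_eq ?_)
      field_simp
  rw [abs_le]
  have c1 := abs_le.1 hcov
  have c2 := abs_le.1 hcross
  constructor <;> linarith [c1.1, c1.2, c2.1, c2.2]

/-- The linear form of the drift of the first averaged deviation. -/
def DriftZLin : Prop := ∃ C : ℝ, 1 ≤ C ∧ ∀ (n i : ℕ) (P : Env) (E : St n),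
  Small n P i → Good P i E → ∀ e ∈ E,
  |inc {e} (fun k F => zc k F e) i E + 2 / (1 + gg i E) * wc i E e| ≤ C * (P.v i + err P n i)

end Vale.Agent.P046.Flags
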