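import Vale.Agent.P046.Flags.OppIncidence

/-!
# The Gram matrix of the centred incidence of vertices and opposite edges
-/

namespace Vale.Agent.P046.Flags

open Finset Chain

variable {n : ℕ}

/-- Half of the mean count of triangles at a vertex times two. -/
noncomputable def vTri (n i : ℕ) : ℝ := (n:ℝ) ^ 2 * pp n i ^ 3 / 2

/-- The density of the incidence. -/
noncomputable def dens (n i : ℕ) : ℝ := vTri n i / mm n i

/-- The joint tolerance. -/
noncomputable def tol (P : Env) (eta : ℕ → ℝ) (n i : ℕ) : ℝ := eta i + P.y i + 1 / mu n i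

variable {P : Env} {eta : ℕ → ℝ} {i : ℕ} {E : St n}

lemma vTri_eq (n i : ℕ) : vTri n i = n * pp n i * mu n i / 2 := by rw [vTri, mu]; ring

lemma vTri_pos (hs : Small n P i) : 0 < vTri n i := by
  rw [vTri_eq]
  have := hs.mu_pos
  have := lt_of_lt_of_le hs.mu_pos hs.mu_le_np
  positivity

lemma eta_nonneg (hs : Small n P i) (hg : GoodI P eta i E) : 0 ≤ eta i := by
  have hdeg := (abs_nonneg _).trans (hg.deg ⟨0, by have := hs.n_big; omega⟩)
  exact nonneg_of_mul_nonneg_left hdeg (lt_of_lt_of_le hs.mu_pos hs.mu_le_np)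

lemma one_div_le_tol (hs : Small n P i) (hg : GoodI P eta i E) :
    1 / mu n i ≤ tol P eta n i := by
  have := eta_nonneg hs hg
  have := hs.y0
  rw [tol]
  linarith

lemma tol_pos (hs : Small n P i) (hg : GoodI P eta i E) : 0 < tol P eta n i :=
  lt_of_lt_of_le (by have := hs.mu_pos; positivity) (one_div_le_tol hs hg)

lemma tol_le (hs : Small n P i) (he : eta i ≤ 1 / 100) : tol P eta n i ≤ 3 / 100 := by
  have : 1 / mu n i ≤ 1 / 100 := one_div_le_one_div_of_le (by norm_num) hs.mu_big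
  rw [tol]
  linarith [hs.y1]

/-- Triangles at a vertex. -/
lemma triV_near (hs : Small n P i) (hg : GoodI P eta i E) (he : eta i ≤ 1 / 100) (b : Fin n) :
    |((triV E b).card : ℝ) - vTri n i| ≤ 2 * tol P eta n i * vTri n i := by
  set d : ℝ := (degV E b : ℝ)
  set U : ℝ := ∑ e ∈ E.filter (fun g => b ∈ g), ((triAt E e).card : ℝ) with hU
  have h2 : 2 * ((triV E b).card : ℝ) = U := two_mul_card_triV E b
  have hμ := hs.mu_pos
  set μ := mu n i
  have hnp : 0 < (n:ℝ) * pp n i := lt_of_lt_of_le hμ hs.mu_le_np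
  have hb : |U - d * μ| ≤ d * (P.y i * μ) := by
    simp only [hU, d]
    rw [← card_edges_at hg.good.size b, ← nsmul_eq_mul, ← nsmul_eq_mul, ← sum_const, ← sum_const,
      ← sum_sub_distrib]
    exact (abs_sum_le_sum_abs _ _).trans
      (sum_le_sum fun e he => triAt_near hs hg.good (mem_filter.1 he).1)
  have hd : |d - n * pp n i| ≤ eta i * (n * pp n i) := hg.deg b
  set N := (n:ℝ) * pp n i
  have hη := eta_nonneg hs hg
  have hd2 : d ≤ 101 / 100 * N := by
    linarith [(abs_le.1 hd).2, mul_le_mul_of_nonneg_right he hnp.le]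
  have key : |U - N * μ| ≤ (eta i + 101 / 100 * P.y i) * (N * μ) := by
    have e1 := abs_sub_le U (d * μ) (N * μ)
    have e2 : |d * μ - N * μ| ≤ eta i * N * μ := by
      rw [← sub_mul, abs_mul, abs_of_pos hμ]
      exact mul_le_mul_of_nonneg_right hd hμ.le
    have e3 : d * (P.y i * μ) ≤ 101 / 100 * N * (P.y i * μ) :=
      mul_le_mul_of_nonneg_right hd2 (mul_nonneg hs.y0 hμ.le)
    linarith
  have ht : eta i + 101 / 100 * P.y i ≤ 2 * tol P eta n i := by
    have h0 : 0 ≤ 1 / μ := by positivity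
    rw [tol]
    linarith [hs.y0]
  have hv : vTri n i = N * μ / 2 := vTri_eq n i
  have := mul_le_mul_of_nonneg_right ht (mul_nonneg hnp.le hμ.le)
  have hk := abs_le.1 key
  rw [hv, abs_le]
  constructor <;> linarith

/-- The number of edges against `n ^ 2 p`. -/
lemma mm_eq (hs : Small n P i) : mm n i = pp n i * ((n:ℝ) * ((n:ℝ) - 1) / 2) := by
  have : (0:ℝ) < n.choose 2 := by
    have h := Nat.choose_pos (show 2 ≤ n by have := hs.n_big; omega)
    exact_mod_cast h
  rw [← Nat.cast_choose_two, pp, div_mul_cancel₀ _ this.ne']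

/-- The product of density and count. -/
lemma dens_mul_vTri (hs : Small n P i) (hg : GoodI P eta i E) :
    (n:ℝ) ^ 2 * pp n i ^ 5 / 2 ≤ dens n i * vTri n i ∧
      dens n i * vTri n i ≤ (1 + 2 * tol P eta n i) * ((n:ℝ) ^ 2 * pp n i ^ 5 / 2) := by
  have hn : (100:ℝ) ≤ n := by exact_mod_cast hs.n_big
  have hn1 : 0 < (n:ℝ) - 1 := by linarith
  have hp := hs.pp_pos
  set S := (n:ℝ) ^ 2 * pp n i ^ 5 / 2 with hS
  have hS0 : 0 ≤ S := by positivity
  have e : dens n i * vTri n i = (n:ℝ) / ((n:ℝ) - 1) * S := by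
    rw [dens, mm_eq hs, vTri, hS]; field_simp
  have hnμ : mu n i ≤ n :=
    hs.mu_le_np.trans (mul_le_of_le_one_right (by linarith) hs.pp_le_one)
  have h1 : 1 / (n:ℝ) ≤ tol P eta n i :=
    (one_div_le_one_div_of_le hs.mu_pos hnμ).trans (one_div_le_tol hs hg)
  have h2 : 1 ≤ tol P eta n i * n := by
    have := mul_le_mul_of_nonneg_right h1 (show (0:ℝ) ≤ n by linarith)
    rwa [one_div, inv_mul_cancel₀ (by linarith)] at this
  have ht := tol_pos hs hg
  have r1 : 1 ≤ (n:ℝ) / ((n:ℝ) - 1) := by rw [le_div_iff₀ hn1]; linarith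
  have r2 : (n:ℝ) / ((n:ℝ) - 1) ≤ 1 + 2 * tol P eta n i := by
    rw [div_le_iff₀ hn1]
    have := mul_le_mul_of_nonneg_left hn ht.le
    linarith
  rw [e]
  exact ⟨le_mul_of_one_le_left hS0 r1, mul_le_mul_of_nonneg_right r2 hS0⟩

lemma dens_le_two (hs : Small n P i) : dens n i ≤ 2 := by
  have hn : (100:ℝ) ≤ n := by exact_mod_cast hs.n_big
  have hp := hs.pp_pos
  have hm : 0 < mm n i := by linarith [hs.mm_ge]
  rw [dens, div_le_iff₀ hm, mm_eq hs, vTri]
  have hp2 : pp n i ^ 2 ≤ 1 := pow_le_one₀ hp.le hs.pp_le_one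
  have h1 : (n:ℝ) ^ 2 * pp n i ^ 2 ≤ (n:ℝ) ^ 2 := mul_le_of_le_one_right (sq_nonneg _) hp2
  have h2 : (n:ℝ) ^ 2 ≤ 2 * ((n:ℝ) * ((n:ℝ) - 1)) := by nlinarith
  calc (n:ℝ) ^ 2 * pp n i ^ 3 / 2 = pp n i * ((n:ℝ) ^ 2 * pp n i ^ 2) / 2 := by ring
    _ ≤ pp n i * (2 * ((n:ℝ) * ((n:ℝ) - 1))) / 2 := by
        have := mul_le_mul_of_nonneg_left (h1.trans h2) hp.le
        linarith
    _ = _ := by ring

/-- The row sums of the Gram matrix. -/
theorem gram_row_le (hs : Small n P i) (hg : GoodI P eta i E) (he : eta i ≤ 1 / 100) (b : Fin n) :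
    ∑ b' : Fin n, |∑ g ∈ E, (opp E b g - dens n i) * (opp E b' g - dens n i)| ≤
      12 * tol P eta n i * ((n:ℝ) ^ 3 * pp n i ^ 5) := by
  have hE := hg.good.size.1
  have hp := hs.pp_pos
  set δ := tol P eta n i with hδ
  have hδ0 : 0 < δ := tol_pos hs hg
  have hδ1 : δ ≤ 3 / 100 := tol_le hs he
  set κ := dens n i with hκ
  set T0 := vTri n i with hT0
  have hT0p : 0 < T0 := vTri_pos hs
  have hm0 : 0 < mm n i := by linarith [hs.mm_ge]
  have hκ0 : 0 ≤ κ := div_nonneg hT0p.le hm0.le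
  have e3 : κ ^ 2 * mm n i = κ * T0 := by rw [hκ, hT0, dens]; field_simp
  set T : Fin n → ℝ := fun c => ((triV E c).card : ℝ) with hT
  have hopp : ∀ c, ∑ g ∈ E, opp E c g = T c := fun c => by simpa using sum_opp hE c fun _ => 1
  have hexp : ∀ b', ∑ g ∈ E, (opp E b g - κ) * (opp E b' g - κ) =
      ∑ g ∈ E, opp E b g * opp E b' g - κ * (T b + T b') + κ * T0 := by
    intro b'
    rw [← e3, ← hopp b, ← hopp b', ← card_eq_mm hg.good.size, mul_add, mul_sum, mul_sum,
      mul_comm (κ ^ 2), ← nsmul_eq_mul, ← sum_const, ← sum_add_distrib, ← sum_sub_distrib,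
      ← sum_add_distrib]
    exact sum_congr rfl fun g _ => by ring
  set S := (n:ℝ) ^ 2 * pp n i ^ 5 / 2 with hS
  have hS0 : 0 ≤ S := by positivity
  obtain ⟨k1, k2⟩ := dens_mul_vTri hs hg
  rw [← hκ, ← hT0, ← hS] at k1 k2
  have hTc : ∀ c, |κ * T c - κ * T0| ≤ κ * (2 * δ * T0) := fun c => by
    rw [← mul_sub, abs_mul, abs_of_nonneg hκ0]
    exact mul_le_mul_of_nonneg_left (triV_near hs hg he c) hκ0
  have hdiag : |∑ g ∈ E, (opp E b g - κ) * (opp E b g - κ)| ≤ 12 * T0 := by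
    rw [hexp b]
    have e : ∑ g ∈ E, opp E b g * opp E b g = T b := by
      rw [← hopp b]
      refine sum_congr rfl fun g _ => ?_
      simp only [opp]; split_ifs <;> simp
    rw [e]
    have h := abs_le.1 (triV_near hs hg he b)
    have h2 : 2 * δ * T0 ≤ 6 / 100 * T0 := mul_le_mul_of_nonneg_right (by linarith) hT0p.le
    have h' := abs_le.1 (hTc b)
    have h3 := mul_le_mul_of_nonneg_right (dens_le_two hs) hT0p.le
    have h4 := mul_le_mul_of_nonneg_left h2 hκ0
    have h5 : 0 ≤ κ * T0 := mul_nonneg hκ0 hT0p.le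
    simp only [hT] at h' ⊢
    rw [abs_le]
    constructor <;> linarith
  have hoff : ∀ b', b ≠ b' → |∑ g ∈ E, (opp E b g - κ) * (opp E b' g - κ)| ≤ 11 * δ * S := by
    intro b' hbb
    rw [hexp b']
    have hC := abs_le.1 (hg.pair b b' hbb)
    have e2 := two_mul_sum_opp_opp hE hbb
    have eS : (n:ℝ) ^ 2 * pp n i ^ 5 = 2 * S := by rw [hS]; ring
    rw [eS, ← e2] at hC
    have h := abs_le.1 (hTc b)
    have h' := abs_le.1 (hTc b')
    have k5 : κ * (2 * δ * T0) ≤ 2 * δ * (2 * S) := by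
      calc κ * (2 * δ * T0) = 2 * δ * (κ * T0) := by ring
        _ ≤ 2 * δ * ((1 + 2 * δ) * S) := mul_le_mul_of_nonneg_left k2 (by linarith)
        _ ≤ _ := mul_le_mul_of_nonneg_left
            (mul_le_mul_of_nonneg_right (by linarith) hS0) (by linarith)
    have k8 : eta i * S ≤ δ * S := by
      refine mul_le_mul_of_nonneg_right ?_ hS0
      have := hs.mu_pos
      have : 0 ≤ 1 / mu n i := by positivity
      rw [hδ, tol]
      linarith [hs.y0]
    rw [abs_le]
    constructor <;> linarith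
  rw [← sum_erase_add _ _ (mem_univ b)]
  refine (add_le_add (sum_le_sum (g := fun _ => 11 * δ * S)
    fun b' hb' => hoff b' (ne_of_mem_erase hb').symm) hdiag).trans ?_
  rw [sum_const, nsmul_eq_mul]
  have hc : (((univ : Finset (Fin n)).erase b).card : ℝ) ≤ n := by
    exact_mod_cast (card_le_univ _).trans (by simp)
  have h1 := mul_le_mul_of_nonneg_right hc (show (0:ℝ) ≤ 11 * δ * S by positivity)
  set V := (n:ℝ) ^ 3 * pp n i ^ 5 with hV
  have hV0 : 0 ≤ V := by positivity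
  have h3 := mul_le_mul_of_nonneg_right (one_div_le_tol hs hg) hV0
  have h4 : 1 / mu n i * V = 2 * T0 := by
    rw [hV, hT0, vTri, mu]
    have : (n:ℝ) ≠ 0 := by have := hs.n_big; positivity
    field_simp
  rw [h4, ← hδ] at h3
  have h5 : (n:ℝ) * (11 * δ * S) = 11 / 2 * (δ * V) := by rw [hS, hV]; ring
  have h6 : 0 ≤ δ * V := mul_nonneg hδ0.le hV0
  linarith

end Vale.Agent.P046.Flags
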