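import Vale.Agent.P046.Flags.ContractLink
import Vale.Agent.P046.Flags.OppGram

/-!
# Contraction of the opposite-side averaging, and the proof of `Spec.Contract`
-/

namespace Vale.Agent.P046.Flags

open Finset Chain

variable {n : ℕ} {P : Env} {eta : ℕ → ℝ} {i : ℕ} {E : St n}

/-- The two ways of normalising a functional agree up to the tolerance. -/
lemma coeff_near (hs : Small n P i) (hg : GoodI P eta i E) (he : eta i ≤ 1 / 100) (b : Fin n)
    {g : Finset (Fin n)} (hgE : g ∈ E) :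
    |dens n i / ((triV E b).card : ℝ) - ((triAt E g).card : ℝ) / (3 * (triangles E).card)| ≤
      7 * tol P eta n i / mm n i := by
  set δ := tol P eta n i with hδ
  have hδ1 : δ ≤ 3 / 100 := tol_le hs he
  have hδ0 : 0 < δ := tol_pos hs hg
  have hm0 : 0 < mm n i := by linarith [hs.mm_ge]
  have hμ := hs.mu_pos
  have hT0 := vTri_pos hs
  have hb := abs_le.1 (triV_near hs hg he b)
  rw [← hδ] at hb
  have hy := abs_le.1 (triAt_near hs hg.good hgE)
  have hgg := abs_le.1 (abs_gg_le hs hg.good)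
  have hgg' := one_add_gg_bounds hs hg.good
  have hQ : 3 * ((triangles E).card : ℝ) = mm n i * (mu n i * (1 + gg i E)) := by
    rw [gg, card_eq_mm hg.good.size]; field_simp; ring
  set T := ((triV E b).card : ℝ)
  set c := ((triAt E g).card : ℝ)
  set T0 := vTri n i with hT0def
  have hden : 0 < mu n i * (1 + gg i E) := mul_pos hμ (by linarith)
  have hd2 := mul_le_mul_of_nonneg_right hδ1 hT0.le
  have hTp : 0 < T := by linarith
  have e : dens n i / T - c / (3 * (triangles E).card) =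
      (T0 / T - c / (mu n i * (1 + gg i E))) / mm n i := by
    rw [hQ, dens, ← hT0def]; field_simp
  rw [e, abs_div, abs_of_pos hm0]
  refine div_le_div_of_nonneg_right ?_ hm0.le
  have hyd : P.y i ≤ δ := by
    have := eta_nonneg hs hg
    have : 0 ≤ 1 / mu n i := by positivity
    rw [hδ, tol]
    linarith
  have q1 : T0 / T ≤ 1 + 3 * δ := by
    rw [div_le_iff₀ hTp]
    have := mul_le_mul_of_nonneg_left hb.1 (show (0:ℝ) ≤ 1 + 3 * δ by linarith)
    have := mul_le_mul_of_nonneg_left hd2 hδ0.le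
    have := mul_nonneg hδ0.le hT0.le
    linarith
  have q2 : 1 - 3 * δ ≤ T0 / T := by
    rw [le_div_iff₀ hTp]
    have := mul_le_mul_of_nonneg_left hb.2 (show (0:ℝ) ≤ 1 - 3 * δ by linarith)
    have := mul_nonneg hδ0.le (mul_nonneg hδ0.le hT0.le)
    have := mul_nonneg hδ0.le hT0.le
    linarith
  have q3 : c / (mu n i * (1 + gg i E)) ≤ 1 + 3 * δ := by
    rw [div_le_iff₀ hden]
    have h : 1 + P.y i ≤ (1 + 3 * δ) * (1 + gg i E) := by
      have := mul_le_mul_of_nonneg_left hgg.1 (show (0:ℝ) ≤ 1 + 3 * δ by linarith)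
      have := mul_le_mul_of_nonneg_left (hyd.trans hδ1) hδ0.le
      linarith
    have := mul_le_mul_of_nonneg_left h hμ.le
    linarith
  have q4 : 1 - 3 * δ ≤ c / (mu n i * (1 + gg i E)) := by
    rw [le_div_iff₀ hden]
    have h : (1 - 3 * δ) * (1 + gg i E) ≤ 1 - P.y i := by
      have := mul_le_mul_of_nonneg_left hgg.2 (show (0:ℝ) ≤ 1 - 3 * δ by linarith)
      have := mul_nonneg hδ0.le hs.y0
      linarith
    have := mul_le_mul_of_nonneg_left h hμ.le
    linarith
  rw [abs_le]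
  constructor <;> linarith

/-- Comparison with the centred incidence. -/
lemma abs_avgO_sub_le (hs : Small n P i) (hg : GoodI P eta i E) (he : eta i ≤ 1 / 100)
    (F : Finset (Fin n) → ℝ) (b : Fin n) :
    |avgO E F b - avgG E F| ≤ 10 / 9 / vTri n i * |∑ g ∈ E, (opp E b g - dens n i) * F g|
      + 7 * tol P eta n i / mm n i * ∑ g ∈ E, |F g| := by
  have hT0 := vTri_pos hs
  set T := ((triV E b).card : ℝ) with hT
  have hTl : 9 / 10 * vTri n i ≤ T := by
    linarith [(abs_le.1 (triV_near hs hg he b)).1,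
      mul_le_mul_of_nonneg_right (tol_le hs he) hT0.le]
  have hTp : 0 < T := by linarith
  set R := ∑ g ∈ E, (opp E b g - dens n i) * F g with hR
  have e1 : avgO E F b - avgG E F = R / T + ∑ g ∈ E,
      (dens n i / T - ((triAt E g).card : ℝ) / (3 * (triangles E).card)) * F g := by
    rw [avgO_eq hg.good.size.1, avgG_eq, hR, sum_div, sum_div, sum_div, ← sum_sub_distrib,
      ← sum_add_distrib, ← hT]
    exact sum_congr rfl fun g _ => by ring
  rw [e1]
  refine (abs_add_le _ _).trans (add_le_add ?_ ?_)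
  · rw [abs_div, abs_of_pos hTp, div_le_iff₀ hTp]
    have h := mul_le_mul_of_nonneg_left hTl
      (show 0 ≤ 10 / 9 / vTri n i * |R| by positivity)
    refine le_trans (le_of_eq ?_) h
    field_simp
  · rw [mul_sum]
    refine (abs_sum_le_sum_abs _ _).trans (sum_le_sum fun g hgE => ?_)
    rw [abs_mul]
    exact mul_le_mul_of_nonneg_right (coeff_near hs hg he b hgE) (abs_nonneg _)

/-- The mean square of the opposite averaging. -/
lemma opp_sq_le (hs : Small n P i) (hg : GoodI P eta i E) (he : eta i ≤ 1 / 100)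
    (F : Finset (Fin n) → ℝ) :
    ∑ b : Fin n, (n * pp n i) * (avgO E F b - avgG E F) ^ 2 ≤
      400 * tol P eta n i * ∑ g ∈ E, F g ^ 2 := by
  set δ := tol P eta n i with hδ
  have hδ0 : 0 < δ := tol_pos hs hg
  have hδ1 : δ ≤ 3 / 100 := tol_le hs he
  have hp := hs.pp_pos
  have hn : (100:ℝ) ≤ n := by exact_mod_cast hs.n_big
  have hm0 : 0 < mm n i := by linarith [hs.mm_ge]
  have hnp : 0 < (n:ℝ) * pp n i := mul_pos (by linarith) hp
  have hT0 := vTri_pos hs
  set N2 := ∑ g ∈ E, F g ^ 2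
  have hN2 : 0 ≤ N2 := sum_nonneg fun _ _ => sq_nonneg _
  have hL1 : (∑ g ∈ E, |F g|) ^ 2 ≤ mm n i * N2 := by
    have := sq_sum_le_card_mul_sum_sq (s := E) (f := fun g => |F g|)
    simpa [card_eq_mm hg.good.size, sq_abs] using this
  set a := 10 / 9 / vTri n i with ha
  set c := 7 * δ / mm n i with hc
  have hb : ∀ b, (avgO E F b - avgG E F) ^ 2 ≤
      2 * a ^ 2 * (∑ g ∈ E, (opp E b g - dens n i) * F g) ^ 2
        + 2 * c ^ 2 * (mm n i * N2) := by
    intro b
    rw [← sq_abs (avgO E F b - avgG E F)]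
    refine (pow_le_pow_left₀ (abs_nonneg _) (abs_avgO_sub_le hs hg he F b) 2).trans
      (add_sq_le.trans ?_)
    rw [mul_pow, mul_pow, sq_abs, ← ha, ← hδ, ← hc]
    have := mul_le_mul_of_nonneg_left hL1 (sq_nonneg c)
    linarith
  have hV : 0 ≤ 12 * δ * ((n:ℝ) ^ 3 * pp n i ^ 5) := by positivity
  have hgram := sum_sq_mul_le E (fun b g => opp E b g - dens n i) hV (gram_row_le hs hg he) F
  calc ∑ b : Fin n, (n * pp n i) * (avgO E F b - avgG E F) ^ 2
      ≤ ∑ b : Fin n, (n * pp n i) * (2 * a ^ 2 *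
          (∑ g ∈ E, (opp E b g - dens n i) * F g) ^ 2 + 2 * c ^ 2 * (mm n i * N2)) :=
        sum_le_sum fun b _ => mul_le_mul_of_nonneg_left (hb b) hnp.le
    _ = n * pp n i * (2 * a ^ 2) * (∑ b : Fin n, (∑ g ∈ E, (opp E b g - dens n i) * F g) ^ 2)
        + (n:ℝ) * (n * pp n i * (2 * c ^ 2 * (mm n i * N2))) := by
        simp only [mul_add, sum_add_distrib, sum_const, card_univ, Fintype.card_fin, nsmul_eq_mul]
        congr 1
        rw [mul_sum univ]
        exact sum_congr rfl fun b _ => by ring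
    _ ≤ n * pp n i * (2 * a ^ 2) * (12 * δ * ((n:ℝ) ^ 3 * pp n i ^ 5) * N2)
        + (n:ℝ) * (n * pp n i * (2 * c ^ 2 * (mm n i * N2))) := by
        exact add_le_add (mul_le_mul_of_nonneg_left hgram (by positivity)) le_rfl
    _ ≤ _ := by
        have a1 : n * pp n i * (2 * a ^ 2) * (12 * δ * ((n:ℝ) ^ 3 * pp n i ^ 5) * N2) =
            9600 / 81 * (δ * N2) := by
          rw [ha, vTri]
          have : (n:ℝ) ≠ 0 := by linarith
          field_simp; ring
        have a2 : (n:ℝ) * (n * pp n i * (2 * c ^ 2 * (mm n i * N2))) =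
            98 * (δ ^ 2 * N2) * ((n:ℝ) ^ 2 * pp n i / mm n i) := by
          rw [hc]; field_simp; ring
        have a3 : (n:ℝ) ^ 2 * pp n i / mm n i ≤ 9 / 4 := by
          rw [div_le_iff₀ hm0, mm_eq hs]
          have : (n:ℝ) ^ 2 ≤ 9 / 4 * ((n:ℝ) * ((n:ℝ) - 1) / 2) := by nlinarith
          have := mul_le_mul_of_nonneg_left this hp.le
          linarith
        have a4 : δ ^ 2 * N2 ≤ δ * N2 := by
          refine mul_le_mul_of_nonneg_right ?_ hN2
          rw [pow_two]
          exact mul_le_of_le_one_left hδ0.le (by linarith)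
        have a5 : 0 ≤ δ * N2 := mul_nonneg hδ0.le hN2
        have a6 := mul_le_mul a4 a3 (by positivity) a5
        rw [a1, a2]
        linarith

/-- The centred opposite averaging as a linear map. -/
noncomputable def oppMap (hE : E ⊆ complete n) : (Finset (Fin n) → ℝ) →ₗ[ℝ] (Fin n → ℝ) where
  toFun F b := avgO E F b - avgG E F
  map_add' F G := by
    funext b
    simp only [Pi.add_apply, avgO_eq hE, avgG_eq, mul_add, sum_add_distrib]
    ring
  map_smul' c F := by
    funext b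
    simp only [Pi.smul_apply, smul_eq_mul, RingHom.id_apply, avgO_eq hE, avgG_eq,
      mul_left_comm _ c, ← mul_sum]
    ring

/-- The sup bound. -/
lemma abs_oppMap_le (F : Finset (Fin n) → ℝ) (B : ℝ) (hB : ∀ x, |F x| ≤ B) (b : Fin n) :
    |avgO E F b - avgG E F| ≤ 2 * B := by
  have hB0 : 0 ≤ B := (abs_nonneg _).trans (hB ∅)
  have h1 : |avgO E F b| ≤ B := abs_mean_le hB0 fun t ht => by
    rw [filter_opposite (mem_of_triV ht).1 (mem_of_triV ht).2, sum_singleton]
    exact hB _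
  have h2 : |avgG E F| ≤ B := abs_mean_le hB0 fun t ht => by
    rw [abs_div, abs_of_pos (show (0:ℝ) < 3 by norm_num), div_le_iff₀ (by norm_num)]
    refine (abs_sum_le_sum_abs _ _).trans ((sum_le_sum fun g _ => hB g).trans_eq ?_)
    rw [sum_const, card_sides ht, nsmul_eq_mul]
    push_cast
    ring
  linarith [abs_sub (avgO E F b) (avgG E F)]

/-- The second half of the contraction. -/
theorem opp_contract {A : ℝ} (hs : Small n P i) (hg : GoodI P eta i E) (he : eta i ≤ 1 / 100)
    (hA0 : 0 ≤ A) (hA1 : A ≤ 1) (hA : 400 * (eta i + P.y i + 1 / mu n i) ≤ A ^ 3)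
    {p : ℕ} (hp : 3 ≤ p) (f : Finset (Fin n) → ℝ) :
    n * pp n i * ∑ b : Fin n, |avgO E f b - avgG E f| ^ p
      ≤ 2 * 8 ^ p * A ^ 2 * ∑ e ∈ E, |f e| ^ p := by
  have hnp : 0 ≤ (n:ℝ) * pp n i := le_trans hs.mu_pos.le hs.mu_le_np
  have h2 : ∀ F : Finset (Fin n) → ℝ,
      ∑ b : Fin n, (n * pp n i) * (oppMap hg.good.size.1 F b) ^ 2 ≤
        A ^ 2 * ∑ g : Finset (Fin n), (if g ∈ E then (1:ℝ) else 0) * F g ^ 2 := fun F => by
    simp only [ite_mul, one_mul, zero_mul, sum_ite_mem, univ_inter]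
    exact (opp_sq_le hs hg he F).trans (mul_le_mul_of_nonneg_right
      (hA.trans (pow_le_pow_of_le_one hA0 hA1 (by norm_num)))
      (sum_nonneg fun _ _ => sq_nonneg _))
  have key := marcinkiewicz (oppMap hg.good.size.1) (fun g => if g ∈ E then (1:ℝ) else 0)
    (fun _ => n * pp n i) (fun g => by split_ifs <;> norm_num) (fun _ => hnp) two_pos h2
    (fun F B hB b => abs_oppMap_le F B hB b) hp f
  simp only [ite_mul, one_mul, zero_mul, sum_ite_mem, univ_inter, ← mul_sum] at key
  refine key.trans (mul_le_mul_of_nonneg_right ?_ (sum_nonneg fun _ _ => by positivity))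
  have h8 : (8:ℝ) ^ p = 4 ^ p * 2 ^ p := by rw [← mul_pow]; norm_num
  have h2p : (2:ℝ) ^ (p - 2) ≤ 2 ^ p := pow_le_pow_right₀ (by norm_num) (Nat.sub_le p 2)
  rw [h8]
  have := mul_le_mul_of_nonneg_left h2p (show (0:ℝ) ≤ 2 * 4 ^ p * A ^ 2 by positivity)
  linarith

/-- Contraction of the centred averaging operators. -/
theorem contract : Spec.Contract := by
  refine ⟨400, by norm_num, fun n i P eta E A hs hg he hA0 hA1 hA j f hj => ?_⟩
  have hp : 3 ≤ 2 * j := by omega
  have hnn : 0 ≤ eta i + P.y i + 1 / mu n i := (tol_pos hs hg).le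
  have h16 : (8:ℝ) ^ (2 * j) ≤ 16 ^ (2 * j) := pow_le_pow_left₀ (by norm_num) (by norm_num) _
  have hA2 : 0 ≤ A ^ 2 * ∑ e ∈ E, |f e| ^ (2 * j) :=
    mul_nonneg (sq_nonneg A) (sum_nonneg fun _ _ => by positivity)
  have h8 : 4 * (8:ℝ) ^ (2 * j) ≤ 400 * 16 ^ (2 * j) :=
    mul_le_mul (by norm_num) h16 (by positivity) (by norm_num)
  have h9 := mul_le_mul_of_nonneg_right h8 hA2
  have h10 : 0 ≤ 2 * (8:ℝ) ^ (2 * j) * (A ^ 2 * ∑ e ∈ E, |f e| ^ (2 * j)) :=
    mul_nonneg (by positivity) hA2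
  constructor
  · have h := edge_contract hs hg he (A := A) (by linarith) hp f
    simp only [(even_two_mul j).pow_abs] at h h9 h10 ⊢
    linarith
  · have h := opp_contract hs hg he hA0 hA1 hA hp f
    simp only [(even_two_mul j).pow_abs] at h h9 h10 ⊢
    linarith

end Vale.Agent.P046.Flags
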