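import Vale.Agent.P046.Flags.Basic
import Vale.Agent.P046.Contract.Graph

/-!
# Contraction of the averaging at an edge minus its two vertex means
-/

namespace Vale.Agent.P046.Flags

open Finset Chain Matrix Vale.Agent.P046.Contract

variable {n : ℕ}

lemma ne_of_pair_mem {E : St n} (hE : E ⊆ complete n) {a b : Fin n} (h : {a, b} ∈ E) : a ≠ b := by
  rintro rfl
  have := (mem_powersetCard.1 (hE h)).2
  simp at this

lemma pair_ne {a b d : Fin n} (hbd : b ≠ d) : ({a, b} : Finset (Fin n)) ≠ {a, d} := by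
  refine fun h => hbd ?_
  have : b ∈ ({a, d} : Finset (Fin n)) := h ▸ (by simp)
  have h' : d ∈ ({a, b} : Finset (Fin n)) := h.symm ▸ (by simp)
  simp only [mem_insert, mem_singleton] at this h'
  rcases this with rfl | h1
  · rcases h' with rfl | h2
    · rfl
    · exact h2.symm
  · exact h1

/-- The sides of a triangle with three given vertices. -/
lemma sides_triple {a b d : Fin n} (hab : a ≠ b) (had : a ≠ d) (hbd : b ≠ d) :
    sides ({a, b, d} : Finset (Fin n)) = {{a, b}, {a, d}, {b, d}} := by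
  have h3 : ({a, b, d} : Finset (Fin n)).card = 3 := by simp [hab, had, hbd]
  refine (eq_of_subset_of_card_le ?_ ?_).symm
  · intro g hg
    simp only [mem_insert, mem_singleton] at hg
    rw [sides, mem_powersetCard]
    rcases hg with rfl | rfl | rfl
    · exact ⟨by simp, card_pair hab⟩
    · exact ⟨by simp [insert_subset_iff], card_pair had⟩
    · exact ⟨by simp, card_pair hbd⟩
  · have e1 : ({a, b} : Finset (Fin n)) ≠ {a, d} := pair_ne hbd
    have e2 : ({a, b} : Finset (Fin n)) ≠ {b, d} := by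
      rw [Finset.pair_comm a b]; exact pair_ne had
    have e3 : ({a, d} : Finset (Fin n)) ≠ {b, d} := by
      rw [Finset.pair_comm a d, Finset.pair_comm b d]; exact pair_ne hab
    simp [sides, h3, e1, e2, e3]

/-- The triangles at an edge are its flags. -/
lemma triAt_eq_image {E : St n} (hE : E ⊆ complete n) {a b : Fin n} (hab : {a, b} ∈ E) :
    triAt E {a, b} = (Contract.flags E a b).image fun d => ({a, b, d} : Finset (Fin n)) := by
  have hne := ne_of_pair_mem hE hab
  ext t
  constructor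
  · intro ht
    obtain ⟨htE, he⟩ := mem_of_triAt ht
    obtain ⟨h3, hs⟩ := mem_triangles_iff.1 htE
    have hsub : ({a, b} : Finset (Fin n)) ⊆ t := (mem_powersetCard.1 he).1
    obtain ⟨d, hd⟩ := card_eq_one.1
      (show (t \ {a, b}).card = 1 by rw [card_sdiff_of_subset hsub, h3, card_pair hne])
    have hd' : d ∈ t \ {a, b} := hd ▸ mem_singleton_self d
    simp only [mem_sdiff, mem_insert, mem_singleton, not_or] at hd'
    have htd : t = {a, b, d} := by
      symm
      refine eq_of_subset_of_card_le ?_ ?_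
      · simp only [insert_subset_iff, singleton_subset_iff]
        exact ⟨hsub (by simp), hsub (by simp), hd'.1⟩
      · rw [h3]; simp [hne, Ne.symm hd'.2.1, Ne.symm hd'.2.2]
    subst htd
    rw [sides_triple hne (Ne.symm hd'.2.1) (Ne.symm hd'.2.2)] at hs
    refine mem_image.2 ⟨d, ?_, rfl⟩
    simp [Contract.flags, hs (show ({a, d} : Finset (Fin n)) ∈ _ by simp),
      hs (show ({b, d} : Finset (Fin n)) ∈ _ by simp)]
  · intro ht
    obtain ⟨d, hd, rfl⟩ := mem_image.1 ht
    simp only [Contract.flags, mem_filter, mem_univ, true_and] at hd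
    have h1 := ne_of_pair_mem hE hd.1
    have h2 := ne_of_pair_mem hE hd.2
    refine mem_filter.2 ⟨mem_triangles_iff.2 ⟨by simp [hne, h1, h2], ?_⟩, ?_⟩
    · rw [sides_triple hne h1 h2]
      simp [insert_subset_iff, hab, hd.1, hd.2]
    · rw [sides_triple hne h1 h2]; simp

lemma triple_injOn {E : St n} (hE : E ⊆ complete n) (a b : Fin n) :
    Set.InjOn (fun d => ({a, b, d} : Finset (Fin n))) ↑(Contract.flags E a b) := by
  intro d hd d' hd' h
  simp only [Contract.flags, coe_filter, mem_univ, true_and] at hd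
  have h1 := ne_of_pair_mem hE hd.1
  have h2 := ne_of_pair_mem hE hd.2
  have : d ∈ ({a, b, d'} : Finset (Fin n)) := by
    have h0 : d ∈ ({a, b, d} : Finset (Fin n)) := by simp
    simpa only [h] using h0
  simpa [h1.symm, h2.symm] using this

lemma card_triAt_eq {E : St n} (hE : E ⊆ complete n) {a b : Fin n} (hab : {a, b} ∈ E) :
    (triAt E {a, b}).card = (Contract.flags E a b).card := by
  rw [triAt_eq_image hE hab, card_image_of_injOn (triple_injOn hE a b)]

/-- The edge average splits into the two pivot averages. -/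
lemma avgE_pair {E : St n} (hE : E ⊆ complete n) {a b : Fin n} (hab : {a, b} ∈ E)
    (f : Finset (Fin n) → ℝ) :
    avgE E f {a, b} = (pivAvg E (fun x y => f {x, y}) a b
      + pivAvg E (fun x y => f {x, y}) b a) / 2 := by
  have hne := ne_of_pair_mem hE hab
  rw [avgE, FlagDrift.mean, triAt_eq_image hE hab, card_image_of_injOn (triple_injOn hE a b),
    sum_image (triple_injOn hE a b), pivAvg, pivAvg, flags_comm E b a, ← add_div,
    ← sum_add_distrib, ← sum_div]
  rw [div_right_comm]
  congr 2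
  refine sum_congr rfl fun d hd => ?_
  simp only [Contract.flags, mem_filter, mem_univ, true_and] at hd
  have h1 := ne_of_pair_mem hE hd.1
  have h2 := ne_of_pair_mem hE hd.2
  rw [sides_triple hne h1 h2, erase_insert (by
    have e1 : ({a, b} : Finset (Fin n)) ≠ {a, d} := pair_ne h2
    have e2 : ({a, b} : Finset (Fin n)) ≠ {b, d} := by
      rw [Finset.pair_comm a b]; exact pair_ne h1
    simp [e1, e2]), sum_pair (by
    rw [Finset.pair_comm a d, Finset.pair_comm b d]; exact pair_ne hne)]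

/-- The sum over edges at a vertex is the sum over neighbours. -/
lemma sum_edges_at {E : St n} (hE : E ⊆ complete n) (b : Fin n) (F : Finset (Fin n) → ℝ) :
    ∑ g ∈ E.filter (fun g => b ∈ g), F g = ∑ c ∈ nbr E b, F {b, c} := by
  symm
  refine sum_bij (fun c _ => ({b, c} : Finset (Fin n))) (fun c hc => ?_) (fun c hc d hd h => ?_)
    (fun g hg => ?_) (fun _ _ => rfl)
  · exact mem_filter.2 ⟨mem_nbr.1 hc, by simp⟩
  · have hbc := ne_of_pair_mem hE (mem_nbr.1 hc)
    have : c ∈ ({b, d} : Finset (Fin n)) := h ▸ (by simp)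
    simpa [hbc.symm] using this
  · obtain ⟨hgE, hb⟩ := mem_filter.1 hg
    have hc2 := (mem_powersetCard.1 (hE hgE)).2
    obtain ⟨c, hc⟩ := card_eq_one.1 (show (g.erase b).card = 1 by rw [card_erase_of_mem hb, hc2])
    have hgc : ({b, c} : Finset (Fin n)) = g := by rw [← insert_erase hb, hc]
    exact ⟨c, mem_nbr.2 (hgc.symm ▸ hgE), hgc⟩

/-- The spoke mean is the stationary mean at the pivot. -/
lemma avgS_eq_pivProj {E : St n} (hE : E ⊆ complete n) (f : Finset (Fin n) → ℝ) (b : Fin n) :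
    avgS E f b = pivProj E (fun x y => f {x, y}) b := by
  have h1 : ∑ e ∈ E.filter (fun g => b ∈ g), ((triAt E e).card : ℝ) * f e =
      ∑ c ∈ nbr E b, ((Contract.flags E b c).card : ℝ) * f {b, c} := by
    rw [sum_edges_at hE]
    exact sum_congr rfl fun c hc => by rw [card_triAt_eq hE (mem_nbr.1 hc)]
  have h2 : ∑ t ∈ triV E b, ∑ g ∈ (sides t).filter (fun g => b ∈ g), f g =
      ∑ c ∈ nbr E b, ((Contract.flags E b c).card : ℝ) * f {b, c} := by
    rw [← sum_triV E b (fun e _ => f e), ← h1]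
    simp [mul_comm]
  have h3 : 2 * ((triV E b).card : ℝ) = ∑ c ∈ nbr E b, ((Contract.flags E b c).card : ℝ) := by
    rw [two_mul_card_triV, sum_edges_at hE]
    exact sum_congr rfl fun c hc => by rw [card_triAt_eq hE (mem_nbr.1 hc)]
  rw [avgS, FlagDrift.mean, ← sum_div, h2, div_div, h3, pivProj]

/-- Ordered pairs against edges. -/
lemma sum_sum_nbr {E : St n} (hE : E ⊆ complete n) (F : Fin n → Finset (Fin n) → ℝ) :
    ∑ b, ∑ c ∈ nbr E b, F b {b, c} = ∑ e ∈ E, ∑ b ∈ e, F b e := by
  simp only [← sum_edges_at hE _ (F _), sum_filter]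
  rw [sum_comm]
  refine sum_congr rfl fun e _ => ?_
  rw [← sum_filter, filter_mem_eq_inter, univ_inter]

/-- The walks of length three of the link, counted with backtracking, against `W3`. -/
lemma linkWalks_near (E : St n) (b x y : Fin n) (hbx : {b, x} ∈ E) (hby : {b, y} ∈ E) :
    (W3 E b x y : ℝ) ≤ linkWalks E b x y ∧
      (linkWalks E b x y : ℝ) ≤ W3 E b x y +
        (if y ∈ Contract.flags E b x then
          ((Contract.flags E b x).card : ℝ) + (Contract.flags E b y).card else 0) := by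
  set S := ((Contract.flags E b x ×ˢ Contract.flags E b y).filter
    fun q => ({q.1, q.2} : Finset (Fin n)) ∈ E) with hS
  have hW : W3 E b x y = (S.filter fun q => q.1 ≠ y ∧ q.2 ≠ x).card := by
    rw [W3, hS, filter_filter]
    congr 1
    ext q
    simp [Contract.flags, Finset.pair_comm q.2 y]
    tauto
  have hsplit := card_filter_add_card_filter_not (s := S) (fun q => q.1 ≠ y ∧ q.2 ≠ x)
  have hbad : ((S.filter fun q => ¬ (q.1 ≠ y ∧ q.2 ≠ x)).card : ℝ) ≤
      if y ∈ Contract.flags E b x then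
        ((Contract.flags E b x).card : ℝ) + (Contract.flags E b y).card else 0 := by
    split_ifs with hy
    · have hsub : (S.filter fun q => ¬ (q.1 ≠ y ∧ q.2 ≠ x)) ⊆
          (Contract.flags E b y).image (fun q => (y, q)) ∪
            (Contract.flags E b x).image (fun q => (q, x)) := by
        rintro ⟨p, q⟩ hq
        simp only [mem_filter, hS, mem_product, not_and_or, not_not] at hq
        rcases hq.2 with h | h
        · exact mem_union_left _ (mem_image.2 ⟨q, hq.1.1.2, by rw [h]⟩)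
        · exact mem_union_right _ (mem_image.2 ⟨p, hq.1.1.1, by rw [h]⟩)
      have h := (card_le_card hsub).trans ((card_union_le _ _).trans
        (add_le_add card_image_le card_image_le))
      rw [add_comm]
      exact_mod_cast h
    · rw [filter_eq_empty_iff.2]
      · simp
      rintro ⟨p, q⟩ hq
      simp only [mem_filter, hS, mem_product] at hq
      simp only [not_not]
      constructor
      · rintro rfl
        exact hy hq.1.1
      · rintro rfl
        refine hy ?_
        simp only [Contract.flags, mem_filter, mem_univ, true_and] at hq ⊢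
        exact ⟨hby, by rw [Finset.pair_comm]; exact hq.1.2.2⟩
  have hl : linkWalks E b x y = S.card := rfl
  constructor
  · rw [hW, hl]; exact_mod_cast card_filter_le _ _
  · rw [hl, ← hsplit, hW]
    push_cast
    linarith

/-- Absolute row sums of the centred cube of a walk, from summed walk counts. -/
theorem row_cube_sum_le {X : Type*} [Fintype X] [DecidableEq X] [Nonempty X] (adj : Matrix X X ℝ)
    (h0 : ∀ x y, 0 ≤ adj x y) {D ε η : ℝ} (hD : 0 < D) (hε0 : 0 ≤ ε) (hε : ε ≤ 1 / 8)
    (hdeg : ∀ x, |(∑ z, adj x z) - D| ≤ ε * D) (x : X)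
    (hwalk : ∑ y, |(∑ a, ∑ b, adj x a * adj a b * adj b y) / D ^ 3 - 1 / Fintype.card X| ≤ η) :
    ∑ y, |centred (walk adj ^ 3) (fun z => ∑ w, adj z w) x y| ≤ 2 * η + 8 * ε := by
  set π : X → ℝ := fun x => ∑ z, adj x z with hπdef
  have hl : 0 < (1 - ε) * D := mul_pos (by linarith) hD
  have hlo : ∀ x, (1 - ε) * D ≤ π x := fun x => by
    have := (abs_le.1 (hdeg x)).1; simp only [hπdef]; linarith
  have hhi : ∀ x, π x ≤ (1 + ε) * D := fun x => by
    have := (abs_le.1 (hdeg x)).2; simp only [hπdef]; linarith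
  have hπ : ∀ x, 0 < π x := fun x => hl.trans_le (hlo x)
  have hZ : 0 < ∑ z, π z := sum_pos (fun x _ => hπ x) univ_nonempty
  set N : ℝ := (Fintype.card X : ℝ) with hN
  have hN0 : 0 < N := by rw [hN]; exact_mod_cast Fintype.card_pos
  set W : X → ℝ := fun y => ∑ a, ∑ b, adj x a * adj a b * adj b y with hW
  have hW0 : ∀ y, 0 ≤ W y := fun y => sum_nonneg fun a _ => sum_nonneg fun b _ =>
    mul_nonneg (mul_nonneg (h0 _ _) (h0 _ _)) (h0 _ _)
  have hk : ∀ y, |(walk adj ^ 3) x y - W y / D ^ 3| ≤ 5 * ε * (W y / D ^ 3) := by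
    intro y
    have hup : (walk adj ^ 3) x y ≤ W y / ((1 - ε) * D) ^ 3 := by
      simp only [hW]
      rw [walk_cube, sum_div]
      refine sum_le_sum fun a _ => ?_
      rw [sum_div]
      refine sum_le_sum fun b _ => div_le_div_of_nonneg_left
        (mul_nonneg (mul_nonneg (h0 _ _) (h0 _ _)) (h0 _ _)) (by positivity) ?_
      calc ((1 - ε) * D) ^ 3 = (1 - ε) * D * ((1 - ε) * D) * ((1 - ε) * D) := by ring
        _ ≤ π x * π a * π b :=
            mul_le_mul (mul_le_mul (hlo x) (hlo a) hl.le (hπ x).le) (hlo b) hl.le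
              (mul_nonneg (hπ x).le (hπ a).le)
    have hdn : W y / ((1 + ε) * D) ^ 3 ≤ (walk adj ^ 3) x y := by
      simp only [hW]
      rw [walk_cube, sum_div]
      refine sum_le_sum fun a _ => ?_
      rw [sum_div]
      refine sum_le_sum fun b _ => div_le_div_of_nonneg_left
        (mul_nonneg (mul_nonneg (h0 _ _) (h0 _ _)) (h0 _ _))
        (mul_pos (mul_pos (hπ x) (hπ a)) (hπ b)) ?_
      have h1 : 0 ≤ (1 + ε) * D := by positivity
      calc π x * π a * π b ≤ (1 + ε) * D * ((1 + ε) * D) * ((1 + ε) * D) :=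
            mul_le_mul (mul_le_mul (hhi x) (hhi a) (hπ a).le h1) (hhi b) (hπ b).le
              (mul_nonneg h1 h1)
        _ = _ := by ring
    rw [mul_pow, ← div_div, div_right_comm] at hup hdn
    have hV : 0 ≤ W y / D ^ 3 := div_nonneg (hW0 y) (by positivity)
    have p0 : (0:ℝ) < (1 - ε) ^ 3 := pow_pos (by linarith) 3
    have p1 : W y / D ^ 3 / (1 - ε) ^ 3 ≤ (1 + 5 * ε) * (W y / D ^ 3) := by
      rw [div_le_iff₀ p0]
      have h3 : 1 - 3 * ε + 2 * ε ^ 2 ≤ (1 - ε) ^ 3 := by
        nlinarith [mul_nonneg (sq_nonneg ε) (show (0:ℝ) ≤ 1 - ε by linarith)]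
      have h5 : 1 ≤ (1 + 5 * ε) * (1 - ε) ^ 3 := by
        nlinarith [mul_nonneg hε0 (show (0:ℝ) ≤ 2 - 13 * ε + 10 * ε ^ 2 by nlinarith),
          mul_le_mul_of_nonneg_left h3 (show (0:ℝ) ≤ 1 + 5 * ε by linarith)]
      nlinarith [mul_le_mul_of_nonneg_left h5 hV]
    have p2 : (1 - 5 * ε) * (W y / D ^ 3) ≤ W y / D ^ 3 / (1 + ε) ^ 3 := by
      rw [le_div_iff₀ (by positivity)]
      have h4 : (1 + ε) ^ 3 ≤ 1 + 4 * ε := by
        nlinarith [mul_nonneg hε0 (show (0:ℝ) ≤ 1 - 3 * ε - ε ^ 2 by nlinarith)]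
      have h5 : (1 - 5 * ε) * (1 + ε) ^ 3 ≤ 1 :=
        (mul_le_mul_of_nonneg_left h4 (by linarith)).trans (by nlinarith)
      nlinarith [mul_le_mul_of_nonneg_left h5 hV]
    rw [abs_le]
    constructor <;> linarith
  have hst : ∀ y, |π y / (∑ z, π z) - 1 / N| ≤ 3 * ε * (1 / N) := by
    intro y
    have hZlo : N * ((1 - ε) * D) ≤ ∑ z, π z := by
      calc N * ((1 - ε) * D) = ∑ _z : X, (1 - ε) * D := by simp [hN, sum_const, card_univ]
        _ ≤ _ := sum_le_sum fun z _ => hlo z
    have hZhi : ∑ z, π z ≤ N * ((1 + ε) * D) := by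
      calc ∑ z, π z ≤ ∑ _z : X, (1 + ε) * D := sum_le_sum fun z _ => hhi z
        _ = _ := by simp [hN, sum_const, card_univ]
    have p1 : π y / (∑ z, π z) ≤ (1 + 3 * ε) * (1 / N) := by
      refine (div_le_div₀ (mul_pos (by linarith) hD).le (hhi y) (mul_pos hN0 hl) hZlo).trans ?_
      rw [div_le_iff₀ (mul_pos hN0 hl)]
      field_simp
      nlinarith
    have p2 : (1 - 3 * ε) * (1 / N) ≤ π y / (∑ z, π z) := by
      refine le_trans ?_ (div_le_div₀ (hπ y).le (hlo y) hZ hZhi)
      rw [le_div_iff₀ (by positivity)]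
      field_simp
      nlinarith
    rw [abs_le]
    constructor <;> linarith
  have hsumN : ∑ _y : X, (1 / N) = 1 := by
    rw [sum_const, card_univ, nsmul_eq_mul, mul_one_div, div_self hN0.ne']
  have hsumV : ∑ y, W y / D ^ 3 ≤ 1 + η := by
    calc ∑ y, W y / D ^ 3 ≤ ∑ y, (|W y / D ^ 3 - 1 / N| + 1 / N) :=
          sum_le_sum fun y _ => by linarith [le_abs_self (W y / D ^ 3 - 1 / N)]
      _ ≤ η + 1 := by rw [sum_add_distrib, hsumN]; linarith [hwalk]
      _ = _ := add_comm _ _
  calc ∑ y, |centred (walk adj ^ 3) π x y|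
      ≤ ∑ y, (5 * ε * (W y / D ^ 3) + |W y / D ^ 3 - 1 / N| + 3 * ε * (1 / N)) := by
        refine sum_le_sum fun y _ => ?_
        simp only [centred, Matrix.of_apply]
        have h1 := abs_sub_le ((walk adj ^ 3) x y) (W y / D ^ 3) (π y / ∑ z, π z)
        have h2 := abs_sub_le (W y / D ^ 3) (1 / N) (π y / ∑ z, π z)
        rw [abs_sub_comm (1 / N) (π y / ∑ z, π z)] at h2
        linarith [hk y, hst y]
    _ ≤ 5 * ε * (1 + η) + η + 3 * ε := by
        rw [sum_add_distrib, sum_add_distrib, ← mul_sum, ← mul_sum, hsumN]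
        have := mul_le_mul_of_nonneg_left hsumV (show (0:ℝ) ≤ 5 * ε by linarith)
        linarith [hwalk]
    _ ≤ _ := by
        have hη0 : 0 ≤ η := (sum_nonneg fun _ _ => abs_nonneg _).trans hwalk
        nlinarith [mul_le_mul_of_nonneg_right hε hη0]

/-- Contraction at one pivot of the link walk, allowing backtracking. -/
theorem pivot_contract {P : Env} {eta : ℕ → ℝ} {i : ℕ} {E : St n} {A : ℝ} (hs : Small n P i)
    (hg : GoodI P eta i E) (he : eta i ≤ 1 / 100)
    (hA : 12 * (eta i + P.y i + 1 / mu n i) ≤ A ^ 3)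
    {p : ℕ} (hp : 3 ≤ p) (z : Fin n → Fin n → ℝ) (b : Fin n) :
    ∑ c ∈ nbr E b, |pivCentred E z b c| ^ p ≤ 4 * 8 ^ p * A ^ 2 * ∑ c ∈ nbr E b, |z b c| ^ p := by
  rcases (nbr E b).eq_empty_or_nonempty with h0 | h0
  · simp [h0]
  have hne : Nonempty ↥(nbr E b) := h0.coe_sort
  have hE := hg.good.size.1
  have hμ := hs.mu_pos
  set μ := mu n i with hμdef
  set s := nbr E b with hsdef
  have hnp : 0 < (n:ℝ) * pp n i := lt_of_lt_of_le hμ hs.mu_le_np
  have hS : 0 < (n:ℝ) ^ 2 * pp n i ^ 5 := by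
    have := hs.pp_pos
    have : (0:ℝ) < n := by exact_mod_cast (show 0 < n by have := hs.n_big; omega)
    positivity
  have hη0 : 0 ≤ eta i := by
    by_contra hlt
    have := (abs_nonneg _).trans (hg.deg b)
    exact absurd this (not_le.2 (mul_neg_of_neg_of_pos (not_le.1 hlt) hnp))
  have hfl : ∀ c ∈ s, |((Contract.flags E b c).card : ℝ) - μ| ≤ P.y i * μ := fun c hc => by
    rw [← card_triAt_eq hE (mem_nbr.1 hc)]
    exact triAt_near hs hg.good (mem_nbr.1 hc)
  let adj : Matrix ↥s ↥s ℝ := Matrix.of fun x y =>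
    if ({(x : Fin n), (y : Fin n)} : Finset (Fin n)) ∈ E then 1 else 0
  have hfs : ∀ x : Fin n, Contract.flags E b x =
      s.filter fun y => ({x, y} : Finset (Fin n)) ∈ E := by
    intro x; ext y; simp [mem_flags, hsdef]
  have hrowsum : ∀ (x : ↥s) (F : Fin n → ℝ),
      ∑ y : ↥s, adj x y * F y = ∑ y ∈ Contract.flags E b x, F y := by
    intro x F
    rw [hfs, sum_filter,
      ← sum_coe_sort s fun y : Fin n => if ({(x : Fin n), y} : Finset (Fin n)) ∈ E then F y else 0]
    simp [adj]
  have hrow : ∀ x : ↥s, ∑ y, adj x y = ((Contract.flags E b x).card : ℝ) := by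
    intro x
    simpa using hrowsum x fun _ => 1
  have hsym : ∀ x y, adj x y = adj y x := fun x y => by
    simp only [adj, Matrix.of_apply, Finset.pair_comm]
  have h0' : ∀ x y, 0 ≤ adj x y := fun x y => by
    simp only [adj, Matrix.of_apply]; split_ifs <;> norm_num
  have hw : ∀ x y : ↥s, ∑ a, ∑ c, adj x a * adj a c * adj c y = (linkWalks E b x y : ℝ) := by
    intro x y
    have h1 : ∀ a : ↥s, ∑ c, adj x a * adj a c * adj c y = adj x a *
        ∑ c ∈ Contract.flags E b y,
          if ({(a : Fin n), c} : Finset (Fin n)) ∈ E then (1:ℝ) else 0 := by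
      intro a
      rw [← hrowsum y fun c => if ({(a : Fin n), c} : Finset (Fin n)) ∈ E then (1:ℝ) else 0,
        mul_sum]
      refine sum_congr rfl fun c _ => ?_
      rw [hsym y c]
      simp only [adj, Matrix.of_apply]
      ring
    rw [sum_congr rfl fun a _ => h1 a, hrowsum x fun a => ∑ c ∈ Contract.flags E b y,
      if ({a, c} : Finset (Fin n)) ∈ E then (1:ℝ) else 0,
      ← sum_product', linkWalks, sum_boole]
  have hy1 : P.y i ≤ 1 / 8 := by linarith [hs.y1]
  have hdeg' : ∀ x : ↥s, |(∑ y, adj x y) - μ| ≤ P.y i * μ := fun x => by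
    rw [hrow]; exact hfl x x.2
  have hN : (s.card : ℝ) = (degV E b : ℝ) := rfl
  have hwalk : ∀ x : ↥s, ∑ y, |(∑ a, ∑ c, adj x a * adj a c * adj c y) / μ ^ 3
      - 1 / Fintype.card ↥s| ≤ 4 * eta i + 3 / μ := by
    intro x
    set N : ℝ := (s.card : ℝ) with hNdef
    have hN0 : 0 < N := by rw [hNdef]; exact_mod_cast h0.card_pos
    have hd := abs_le.1 (hg.deg b)
    rw [← hN] at hd
    have hN2 : N ≤ 101 / 100 * (n * pp n i) := by
      linarith [mul_le_mul_of_nonneg_right he hnp.le]
    have hcube : μ ^ 3 = (n:ℝ) ^ 2 * pp n i ^ 5 * (n * pp n i) := by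
      rw [hμdef, mu]; ring
    have hterm : ∀ y : ↥s, |(linkWalks E b x y : ℝ) / μ ^ 3 - 1 / N| ≤
        3 * eta i * (1 / N) + (if (y : Fin n) ∈ Contract.flags E b x then 101 / 50 * μ else 0)
          / μ ^ 3 := by
      intro y
      obtain ⟨l1, l2⟩ := linkWalks_near E b x y (mem_nbr.1 x.2) (mem_nbr.1 y.2)
      have hw3 := abs_le.1 (hg.walk b x y (mem_nbr.1 x.2) (mem_nbr.1 y.2))
      have hex : (if (y : Fin n) ∈ Contract.flags E b x then
          ((Contract.flags E b x).card : ℝ) + (Contract.flags E b y).card else 0) ≤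
          (if (y : Fin n) ∈ Contract.flags E b x then 101 / 50 * μ else 0) := by
        split_ifs
        · have := (abs_le.1 (hfl x x.2)).2
          have := (abs_le.1 (hfl y y.2)).2
          linarith [mul_le_mul_of_nonneg_right hs.y1 hμ.le]
        · exact le_rfl
      have hex0 : 0 ≤ (if (y : Fin n) ∈ Contract.flags E b x then 101 / 50 * μ else 0) := by
        split_ifs <;> linarith
      generalize (if (y : Fin n) ∈ Contract.flags E b x then 101 / 50 * μ else 0) = X at hex hex0 ⊢
      have hμ3 : 0 < μ ^ 3 := pow_pos hμ 3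
      have a1 : (1 - 3 * eta i) * (1 / N) ≤ (W3 E b x y : ℝ) / μ ^ 3 := by
        rw [le_div_iff₀ hμ3, hcube]
        have : (1 - 3 * eta i) * (1 / N) * (n * pp n i) ≤ 1 - eta i := by
          rw [mul_one_div, div_mul_eq_mul_div, div_le_iff₀ hN0]
          nlinarith
        nlinarith [mul_le_mul_of_nonneg_left this hS.le]
      have a2 : (W3 E b x y : ℝ) / μ ^ 3 ≤ (1 + 3 * eta i) * (1 / N) := by
        rw [div_le_iff₀ hμ3, hcube]
        have : 1 + eta i ≤ (1 + 3 * eta i) * (1 / N) * (n * pp n i) := by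
          rw [mul_one_div, div_mul_eq_mul_div, le_div_iff₀ hN0]
          nlinarith
        nlinarith [mul_le_mul_of_nonneg_left this hS.le]
      have a3 : (linkWalks E b x y : ℝ) / μ ^ 3 ≤ (W3 E b x y : ℝ) / μ ^ 3 + X / μ ^ 3 := by
        rw [← add_div]
        exact div_le_div_of_nonneg_right (by linarith) hμ3.le
      have a4 := div_le_div_of_nonneg_right l1 hμ3.le
      have a5 : 0 ≤ X / μ ^ 3 := div_nonneg hex0 hμ3.le
      rw [abs_le]
      constructor <;> linarith
    rw [Fintype.card_coe]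
    simp only [hw]
    refine (sum_le_sum fun y _ => hterm y).trans ?_
    have eN : ∑ _y : ↥s, 3 * eta i * (1 / N) = 3 * eta i := by
      rw [sum_const, card_univ, Fintype.card_coe, nsmul_eq_mul, hNdef]
      field_simp
    rw [sum_add_distrib, eN, ← sum_div,
      sum_coe_sort s fun y => if y ∈ Contract.flags E b x then 101 / 50 * μ else 0, sum_ite_mem,
      inter_eq_right.2 (by rw [hfs]; exact filter_subset _ _), sum_const, nsmul_eq_mul]
    have h3 : ((Contract.flags E b x).card : ℝ) * (101 / 50 * μ) / μ ^ 3 ≤ 3 / μ := by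
      rw [div_le_div_iff₀ (pow_pos hμ 3) hμ]
      have hF : ((Contract.flags E b x).card : ℝ) ≤ 101 / 100 * μ := by
        linarith [(abs_le.1 (hfl x x.2)).2, mul_le_mul_of_nonneg_right hs.y1 hμ.le]
      nlinarith [mul_le_mul_of_nonneg_right hF (show (0:ℝ) ≤ μ ^ 2 by positivity)]
    linarith
  have hπ : ∀ x : ↥s, 0 < ∑ y, adj x y := fun x => by
    have := (abs_le.1 (hdeg' x)).1
    linarith [mul_le_mul_of_nonneg_right hy1 hμ.le]
  have hA' : ∀ x, ∑ y, |centred (walk adj ^ 3) (fun z => ∑ w, adj z w) x y| ≤ A ^ 3 := fun x => by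
    refine (row_cube_sum_le adj h0' hμ hs.y0 hy1 hdeg' x (hwalk x)).trans ?_
    have : 3 / μ = 3 * (1 / μ) := by ring
    have : 0 ≤ 1 / μ := by positivity
    linarith [hs.y0]
  have key := norm_centred_le (walk adj) (fun z => ∑ w, adj z w) (fun x => (hπ x).le)
    (sum_pos (fun x _ => hπ x) univ_nonempty) (fun x y => by
      simp only [walk, Matrix.of_apply]
      rw [mul_div_cancel₀ _ (hπ x).ne', mul_div_cancel₀ _ (hπ y).ne', hsym])
    (fun x y => div_nonneg (h0' x y) (hπ x).le) (fun x => by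
      simp only [walk, Matrix.of_apply, ← sum_div]
      exact div_self (hπ x).ne') hA' hp (fun x : ↥s => z b x)
  have e : ∀ x : ↥s, (centred (walk adj) (fun y => ∑ w, adj y w) *ᵥ fun y : ↥s => z b y) x
      = pivCentred E z b x := by
    intro x
    rw [centred_walk_mulVec, hrowsum x (z b)]
    simp only [hrow]
    rw [sum_coe_sort s fun y => ((Contract.flags E b y).card : ℝ) * z b y,
      sum_coe_sort s fun y => ((Contract.flags E b y).card : ℝ)]
    rfl
  simp only [e] at key
  have := unweighted_le univ (fun x : ↥s => ∑ y, adj x y) (fun x => |pivCentred E z b x| ^ p)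
    (fun x => |z b x| ^ p) hμ hy1 (by positivity) (fun x _ => hdeg' x)
    (fun _ _ => by positivity) (fun _ _ => by positivity) key
  rw [sum_coe_sort s fun x => |pivCentred E z b x| ^ p,
    sum_coe_sort s fun x => |z b x| ^ p] at this
  linarith

/-- The first half of the contraction. -/
theorem edge_contract {P : Env} {eta : ℕ → ℝ} {i : ℕ} {E : St n} {A : ℝ} (hs : Small n P i)
    (hg : GoodI P eta i E) (he : eta i ≤ 1 / 100)
    (hA : 12 * (eta i + P.y i + 1 / mu n i) ≤ A ^ 3)
    {p : ℕ} (hp : 3 ≤ p) (f : Finset (Fin n) → ℝ) :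
    ∑ e ∈ E, |avgE E f e - (∑ b ∈ e, avgS E f b) / 2| ^ p
      ≤ 4 * 8 ^ p * A ^ 2 * ∑ e ∈ E, |f e| ^ p := by
  have hE := hg.good.size.1
  set z : Fin n → Fin n → ℝ := fun x y => f {x, y} with hz
  -- pointwise: half of the two pivot terms
  have hpt : ∀ e ∈ E, |avgE E f e - (∑ b ∈ e, avgS E f b) / 2| ^ p ≤
      (∑ b ∈ e, ∑ c ∈ e.erase b, |pivCentred E z b c| ^ p) / 2 := by
    intro e he
    obtain ⟨a, b, hab, rfl⟩ := card_eq_two.1 (mem_powersetCard.1 (hE he)).2
    have e1 : ({a, b} : Finset (Fin n)).erase a = {b} := by simp [hab]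
    have e2 : ({a, b} : Finset (Fin n)).erase b = {a} := by
      rw [Finset.pair_comm]; simp [hab.symm]
    rw [sum_pair hab, sum_pair hab, e1, e2, sum_singleton, sum_singleton, avgE_pair hE he,
      avgS_eq_pivProj hE, avgS_eq_pivProj hE]
    have e3 : (pivAvg E z a b + pivAvg E z b a) / 2 - (pivProj E z a + pivProj E z b) / 2 =
        (pivCentred E z a b + pivCentred E z b a) / 2 := by
      simp only [pivCentred]; ring
    rw [e3]
    set X := pivCentred E z a b
    set Y := pivCentred E z b a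
    have h1 : |(X + Y) / 2| ≤ (|X| + |Y|) / 2 := by
      rw [abs_div, abs_two]
      linarith [abs_add_le X Y]
    refine (pow_le_pow_left₀ (abs_nonneg _) h1 p).trans ?_
    have := add_pow_le (abs_nonneg X) (abs_nonneg Y) p
    rw [div_pow]
    rw [div_le_div_iff₀ (by positivity) two_pos]
    calc (|X| + |Y|) ^ p * 2 ≤ 2 ^ (p - 1) * (|X| ^ p + |Y| ^ p) * 2 := by linarith
      _ = (|X| ^ p + |Y| ^ p) * (2 ^ (p - 1) * 2) := by ring
      _ = _ := by rw [← pow_succ, Nat.sub_add_cancel (by omega)]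
  have hconv : ∑ e ∈ E, ∑ b ∈ e, ∑ c ∈ e.erase b, |pivCentred E z b c| ^ p =
      ∑ b, ∑ c ∈ nbr E b, |pivCentred E z b c| ^ p := by
    rw [← sum_sum_nbr hE (fun b e => ∑ c ∈ e.erase b, |pivCentred E z b c| ^ p)]
    refine sum_congr rfl fun b _ => sum_congr rfl fun c hc => ?_
    rw [erase_insert (by simpa using ne_of_pair_mem hE (mem_nbr.1 hc)), sum_singleton]
  have hz2 : ∑ b, ∑ c ∈ nbr E b, |z b c| ^ p = 2 * ∑ e ∈ E, |f e| ^ p := by
    rw [sum_sum_nbr hE (fun _ e => |f e| ^ p), mul_sum]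
    refine sum_congr rfl fun e he => ?_
    rw [sum_const, (mem_powersetCard.1 (hE he)).2, nsmul_eq_mul]
    norm_num
  refine (sum_le_sum hpt).trans ?_
  rw [← sum_div, hconv]
  have := sum_le_sum fun b (_ : b ∈ (univ : Finset (Fin n))) => pivot_contract hs hg he hA hp z b
  rw [← mul_sum, hz2] at this
  linarith

end Vale.Agent.P046.Flags
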