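import Vale.Agent.P046.FlagDrift

/-!
# Observables of the removal process used in the proof of the leading constant

All averages are over triangles (flags): at an edge, at a vertex, or in the whole graph.
-/

namespace Vale.Agent.P046.Flags

open Finset Chain

variable {n : ℕ}

/-- All pairs. -/
def complete (n : ℕ) : St n := (univ : Finset (Fin n)).powersetCard 2

/-- The number of edges after `i` steps. -/
noncomputable def mm (n i : ℕ) : ℝ := (n.choose 2 : ℝ) - 3 * i

/-- The edge density after `i` steps. -/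
noncomputable def pp (n i : ℕ) : ℝ := mm n i / (n.choose 2 : ℝ)

/-- The pseudo-random codegree after `i` steps. -/
noncomputable def mu (n i : ℕ) : ℝ := n * pp n i ^ 2

/-- The triangles at an edge. -/
def triAt (E : St n) (e : Finset (Fin n)) : St n := (triangles E).filter fun t => e ∈ sides t

/-- The triangles at a vertex. -/
def triV (E : St n) (b : Fin n) : St n := (triangles E).filter fun t => b ∈ t

/-- Mean of an edge function over the two other edges of the triangles at `e`. -/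
noncomputable def avgE (E : St n) (f : Finset (Fin n) → ℝ) (e : Finset (Fin n)) : ℝ :=
  FlagDrift.mean (triAt E e) fun t => (∑ g ∈ (sides t).erase e, f g) / 2

/-- Mean of an edge function over all edge incidences of triangles. -/
noncomputable def avgG (E : St n) (f : Finset (Fin n) → ℝ) : ℝ :=
  FlagDrift.mean (triangles E) fun t => (∑ g ∈ sides t, f g) / 3

/-- Mean of an edge function over the spokes of the triangles at `b`. -/
noncomputable def avgS (E : St n) (f : Finset (Fin n) → ℝ) (b : Fin n) : ℝ :=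
  FlagDrift.mean (triV E b) fun t => (∑ g ∈ (sides t).filter (fun g => b ∈ g), f g) / 2

/-- Mean of an edge function over the sides opposite to `b` of the triangles at `b`. -/
noncomputable def avgO (E : St n) (f : Finset (Fin n) → ℝ) (b : Fin n) : ℝ :=
  FlagDrift.mean (triV E b) fun t => ∑ g ∈ (sides t).filter (fun g => b ∉ g), f g

/-- Relative deviation of the mean codegree. -/
noncomputable def gg (i : ℕ) (E : St n) : ℝ :=
  3 * ((triangles E).card : ℝ) / ((E.card : ℝ) * mu n i) - 1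

/-- Relative deviation of a codegree. -/
noncomputable def yy (i : ℕ) (E : St n) (e : Finset (Fin n)) : ℝ :=
  ((triAt E e).card : ℝ) / mu n i - 1

/-- First averaged deviation. -/
noncomputable def zz (i : ℕ) (E : St n) : Finset (Fin n) → ℝ := avgE E (yy i E)

/-- Second averaged deviation. -/
noncomputable def ww (i : ℕ) (E : St n) : Finset (Fin n) → ℝ := avgE E (zz i E)

/-- Half the squared deviation seen from `e` in the triangle `t`. -/
noncomputable def phi (i : ℕ) (E : St n) (e t : Finset (Fin n)) : ℝ :=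
  (∑ g ∈ (sides t).erase e, yy i E g) ^ 2 / 2

/-- The second order average at `e`. -/
noncomputable def vv (i : ℕ) (E : St n) (e : Finset (Fin n)) : ℝ :=
  FlagDrift.mean (triAt E e) (phi i E e)

/-- The global second order average. -/
noncomputable def vG (i : ℕ) (E : St n) : ℝ :=
  FlagDrift.mean (triangles E) fun t => (∑ e ∈ sides t, phi i E e t) / 3

/-- Centred first averaged deviation. -/
noncomputable def zc (i : ℕ) (E : St n) (e : Finset (Fin n)) : ℝ :=
  zz i E e - avgG E (yy i E)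

/-- Centred second averaged deviation. -/
noncomputable def wc (i : ℕ) (E : St n) (e : Finset (Fin n)) : ℝ :=
  ww i E e - avgG E (zz i E)

/-- Centred second order average. -/
noncomputable def vc (i : ℕ) (E : St n) (e : Finset (Fin n)) : ℝ := vv i E e - vG i E

/-- Centred vertex part of the second averaged deviation. -/
noncomputable def uc (i : ℕ) (E : St n) (b : Fin n) : ℝ :=
  avgS E (ww i E) b - avgG E (zz i E)

/-- Centred opposite part of the second averaged deviation. -/
noncomputable def oc (i : ℕ) (E : St n) (b : Fin n) : ℝ :=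
  avgO E (ww i E) b - avgG E (zz i E)

/-- Triple codegree. -/
def T3 (E : St n) (a b d : Fin n) : ℕ :=
  ((univ : Finset (Fin n)).filter fun c => {a, c} ∈ E ∧ {b, c} ∈ E ∧ {d, c} ∈ E).card

/-- Walks of length three from `x` to `z` in the link of `a`, without backtracking. -/
def W3 (E : St n) (a x z : Fin n) : ℕ :=
  ((univ : Finset (Fin n × Fin n)).filter fun q => {a, q.1} ∈ E ∧ {a, q.2} ∈ E ∧ {x, q.1} ∈ E ∧
    {q.1, q.2} ∈ E ∧ {q.2, z} ∈ E ∧ q.1 ≠ z ∧ q.2 ≠ x).card

/-- Ordered edges in the common neighbourhood of two vertices. -/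
def L2 (E : St n) (b b' : Fin n) : ℕ :=
  ((univ : Finset (Fin n × Fin n)).filter fun q => {b, q.1} ∈ E ∧ {b, q.2} ∈ E ∧ {b', q.1} ∈ E ∧
    {b', q.2} ∈ E ∧ {q.1, q.2} ∈ E).card

/-- Degree. -/
def degV (E : St n) (b : Fin n) : ℕ := ((univ : Finset (Fin n)).filter fun c => {b, c} ∈ E).card

/-- Expected change per unit of logarithmic time, on the survival of `R`. -/
noncomputable def inc (R : St n) (f : ℕ → St n → ℝ) (i : ℕ) (E : St n) : ℝ :=
  mm n i / 3 * avg (fun F => if R ⊆ F then f (i + 1) F - f i E else 0) E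

/-- Expected squared change per unit of logarithmic time, on the survival of `R`. -/
noncomputable def sq (R : St n) (f : ℕ → St n → ℝ) (i : ℕ) (E : St n) : ℝ :=
  mm n i / 3 * avg (fun F => if R ⊆ F then (f (i + 1) F - f i E) ^ 2 else 0) E

/-- All one step changes on the survival of `R` are at most `B`. -/
def JumpLE (R : St n) (f : ℕ → St n → ℝ) (i : ℕ) (E : St n) (B : ℝ) : Prop :=
  ∀ t ∈ triangles E, R ⊆ E \ sides t → |f (i + 1) (E \ sides t) - f i E| ≤ B

/-- Bounds on the observables. -/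
structure Env where
  y : ℕ → ℝ
  z : ℕ → ℝ
  w : ℕ → ℝ
  v : ℕ → ℝ
  tau : ℕ → ℝ
  kap : ℕ → ℝ

/-- Size invariant. -/
def Size (i : ℕ) (E : St n) : Prop := E ⊆ complete n ∧ E.card + 3 * i = n.choose 2

/-- The state is within the bounds `P`. -/
structure Good (P : Env) (i : ℕ) (E : St n) : Prop where
  size : Size i E
  y : ∀ e ∈ E, |yy i E e| ≤ P.y i
  z : ∀ e ∈ E, |zc i E e| ≤ P.z i
  w : ∀ e ∈ E, |wc i E e| ≤ P.w i
  v : ∀ e ∈ E, |vc i E e| ≤ P.v i
  tau : ∀ a b d : Fin n, a ≠ b → a ≠ d → b ≠ d → (T3 E a b d : ℝ) ≤ P.tau i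
  kap : ∀ a x z : Fin n, a ≠ x → a ≠ z → (W3 E a x z : ℝ) ≤ P.kap i

/-- The extra regularity maintained while the link graphs are still dense enough. -/
structure GoodI (P : Env) (eta : ℕ → ℝ) (i : ℕ) (E : St n) : Prop where
  good : Good P i E
  u : ∀ b : Fin n, |uc i E b| ≤ P.w i
  deg : ∀ b : Fin n, |(degV E b : ℝ) - n * pp n i| ≤ eta i * (n * pp n i)
  walk : ∀ a x z : Fin n, {a, x} ∈ E → {a, z} ∈ E →
    |(W3 E a x z : ℝ) - (n:ℝ) ^ 2 * pp n i ^ 5| ≤ eta i * ((n:ℝ) ^ 2 * pp n i ^ 5)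
  pair : ∀ b b' : Fin n, b ≠ b' →
    |(L2 E b b' : ℝ) - (n:ℝ) ^ 2 * pp n i ^ 5| ≤ eta i * ((n:ℝ) ^ 2 * pp n i ^ 5)

/-- Side conditions on the numerical parameters. -/
structure Small (n : ℕ) (P : Env) (i : ℕ) : Prop where
  n_big : 100 ≤ n
  mu_big : 100 ≤ mu n i
  room : (3 * i + 6 : ℕ) ≤ n.choose 2
  y0 : 0 ≤ P.y i
  y1 : P.y i ≤ 1 / 100
  z0 : 0 ≤ P.z i
  z1 : P.z i ≤ 1 / 100
  w0 : 0 ≤ P.w i
  w1 : P.w i ≤ 1 / 100
  v0 : 0 ≤ P.v i
  v1 : P.v i ≤ 1
  tau1 : 1 ≤ P.tau i
  kap1 : 1 ≤ P.kap i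

/-- The error of the linearised drift. -/
noncomputable def err (P : Env) (n i : ℕ) : ℝ :=
  P.y i * (P.z i + P.y i ^ 2 + P.w i + 1 / mu n i) + P.z i ^ 2 + P.tau i / mu n i ^ 2
    + P.kap i / mu n i ^ 3

/-- Quadratic variation rates. -/
noncomputable def qY (P : Env) (n i : ℕ) : ℝ := 1 / mu n i + P.tau i / mu n i ^ 2
noncomputable def qZ (P : Env) (n i : ℕ) : ℝ := P.tau i / mu n i ^ 2 + P.y i ^ 2 / mu n i
noncomputable def qW (P : Env) (n i : ℕ) : ℝ :=
  (P.tau i + P.kap i) / mu n i ^ 3 + P.y i ^ 2 * P.tau i / mu n i ^ 2 + P.z i ^ 2 / mu n i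
    + 1 / mm n i
noncomputable def qV (P : Env) (n i : ℕ) : ℝ :=
  P.y i ^ 2 * P.tau i / mu n i ^ 2 + P.tau i / mu n i ^ 4 + P.y i ^ 4 / mu n i + 1 / mm n i
noncomputable def qU (P : Env) (n i : ℕ) : ℝ := qW P n i + P.w i ^ 2 / (n * pp n i)

/-- Jump sizes. -/
noncomputable def jY (n i : ℕ) : ℝ := 1 / mu n i
noncomputable def jZ (P : Env) (n i : ℕ) : ℝ := P.tau i / mu n i ^ 2 + P.y i / mu n i
noncomputable def jW (P : Env) (n i : ℕ) : ℝ :=
  P.tau i / mu n i ^ 2 + P.kap i / mu n i ^ 3 + P.z i / mu n i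
noncomputable def jV (P : Env) (n i : ℕ) : ℝ :=
  P.y i * P.tau i / mu n i ^ 2 + P.tau i / mu n i ^ 3 + P.y i ^ 2 / mu n i + 1 / mm n i
noncomputable def jU (P : Env) (n i : ℕ) : ℝ := jW P n i + P.w i / (n * pp n i)

end Vale.Agent.P046.Flags
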