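import Vale.Agent.P046.Flags.Basic

/-!
# Drifts of the second averaged deviation and of its vertex part

Both are means over flags of centred averages, so their drifts follow from the drifts of the
averaged terms and the identity for a mean over flags.
-/

namespace Vale.Agent.P046.Flags

open Finset Chain

variable {n : ℕ}

/-! ### Comparisons with the error -/

section Err

variable {P : Env} {i : ℕ}

lemma Small.err_parts (hs : Small n P i) :
    P.y i * P.z i ≤ err P n i ∧ P.y i / mu n i ≤ err P n i ∧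
      P.tau i / mu n i ^ 2 ≤ err P n i ∧ P.kap i / mu n i ^ 3 ≤ err P n i ∧
      P.z i / mu n i ≤ err P n i ∧ 0 ≤ err P n i := by
  have := hs.y0
  have := hs.z0
  have := hs.w0
  have := hs.mu_pos
  have : 0 ≤ P.tau i := le_trans zero_le_one hs.tau1
  have : 0 ≤ P.kap i := le_trans zero_le_one hs.kap1
  have h1 : 0 ≤ P.y i * P.z i := by positivity
  have h2 : 0 ≤ P.y i * P.y i ^ 2 := by positivity
  have h3 : 0 ≤ P.y i * P.w i := by positivity
  have h4 : 0 ≤ P.y i / mu n i := by positivity
  have h5 : 0 ≤ P.z i ^ 2 := by positivity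
  have h6 : 0 ≤ P.tau i / mu n i ^ 2 := by positivity
  have h7 : 0 ≤ P.kap i / mu n i ^ 3 := by positivity
  have e : err P n i = P.y i * P.z i + P.y i * P.y i ^ 2 + P.y i * P.w i + P.y i / mu n i
      + P.z i ^ 2 + P.tau i / mu n i ^ 2 + P.kap i / mu n i ^ 3 := by
    rw [err]
    ring
  have h8 : P.z i / mu n i ≤ P.z i ^ 2 + P.tau i / mu n i ^ 2 := by
    have ha : 1 / mu n i ^ 2 ≤ P.tau i / mu n i ^ 2 :=
      div_le_div_of_nonneg_right hs.tau1 (by positivity)
    have hb : 1 / mu n i ^ 2 = (1 / mu n i) ^ 2 := by rw [div_pow, one_pow]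
    have hc : 2 * (P.z i / mu n i) ≤ P.z i ^ 2 + (1 / mu n i) ^ 2 := by
      have := two_mul_le_add_sq (P.z i) (1 / mu n i)
      calc 2 * (P.z i / mu n i) = 2 * P.z i * (1 / mu n i) := by ring
        _ ≤ _ := this
    linarith
  refine ⟨?_, ?_, ?_, ?_, ?_, ?_⟩ <;> linarith

lemma Small.jZ_le (hs : Small n P i) : 0 ≤ jZ P n i ∧ jZ P n i ≤ 2 * err P n i := by
  obtain ⟨-, h2, h3, -, -, -⟩ := hs.err_parts
  have := hs.y0
  have := hs.mu_pos
  have : 0 ≤ P.tau i := le_trans zero_le_one hs.tau1
  refine ⟨by rw [jZ]; positivity, ?_⟩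
  rw [jZ]
  linarith

lemma Small.jW_le (hs : Small n P i) : 0 ≤ jW P n i ∧ jW P n i ≤ 3 * err P n i := by
  obtain ⟨-, -, h3, h4, h5, -⟩ := hs.err_parts
  have := hs.z0
  have := hs.mu_pos
  have : 0 ≤ P.tau i := le_trans zero_le_one hs.tau1
  have : 0 ≤ P.kap i := le_trans zero_le_one hs.kap1
  refine ⟨by rw [jW]; positivity, ?_⟩
  rw [jW]
  linarith

end Err

/-! ### Pairs of sides -/

/-- Half the sum of two values. -/
lemma abs_half_sum_le {G : St n} (hG : G.card = 2) {x : Finset (Fin n) → ℝ} {K : ℝ}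
    (h : ∀ g ∈ G, |x g| ≤ K) : |(∑ g ∈ G, x g) / 2| ≤ K := by
  have := (abs_sum_le_sum_abs x G).trans (sum_le_card_nsmul G _ K h)
  rw [hG, nsmul_eq_mul] at this
  rw [abs_div, abs_two, div_le_iff₀ two_pos]
  push_cast at this
  linarith

/-- The steps avoiding a triangle move the mean of two of its sides by their increments. -/
lemma flag_term_le {P : Env} {i : ℕ} {E : St n} (hs : Small n P i) (hg : Good P i E) {S G : St n}
    (hGS : G ⊆ S) (hSE : S ⊆ E) (hS : S.card ≤ 3) (hG : G.card = 2)
    (F : ℕ → St n → Finset (Fin n) → ℝ) (target : Finset (Fin n) → ℝ) {J K : ℝ} (hJ0 : 0 ≤ J)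
    (hJ : ∀ g ∈ G, JumpLE {g} (fun k X => F k X g) i E J)
    (hK : ∀ g ∈ G, |inc {g} (fun k X => F k X g) i E + target g| ≤ K) :
    |rate i E * (∑ t ∈ FlagDrift.steps S E,
        ((∑ g ∈ G, F (i + 1) (E \ sides t) g) / 2 - (∑ g ∈ G, F i E g) / 2))
      + (∑ g ∈ G, target g) / 2| ≤ 4 * J + K := by
  have e : rate i E * (∑ t ∈ FlagDrift.steps S E,
        ((∑ g ∈ G, F (i + 1) (E \ sides t) g) / 2 - (∑ g ∈ G, F i E g) / 2))
      + (∑ g ∈ G, target g) / 2 = (∑ g ∈ G, (rate i E * (∑ t ∈ FlagDrift.steps S E,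
        (F (i + 1) (E \ sides t) g - F i E g)) + target g)) / 2 := by
    rw [sum_add_distrib, ← mul_sum, sum_comm, add_div, mul_div_assoc, sum_div]
    simp only [sum_sub_distrib, sum_div, sub_div]
  rw [e]
  refine abs_half_sum_le hG fun g hgG => ?_
  have h1 := rate_sum_sub_inc_le hs hg (hGS hgG) hSE hS (fun k X => F k X g) hJ0 (hJ g hgG)
  have h2 := hK g hgG
  rw [abs_le] at h1 h2 ⊢
  constructor <;> linarith [h1.1, h1.2, h2.1, h2.2]

/-- The second centred average is bounded by the first. -/
lemma abs_wc_le_z {P : Env} {i : ℕ} {E : St n} (hs : Small n P i) (hg : Good P i E)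
    {e : Finset (Fin n)} (he : e ∈ E) : |wc i E e| ≤ P.z i := by
  rw [wc_eq_avgE i (triAt_nonempty hs hg he)]
  refine abs_mean_le hs.z0 fun t ht => ?_
  obtain ⟨htE, het⟩ := mem_of_triAt ht
  exact abs_half_sum_le (card_erase_sides htE het) fun g hg' =>
    hg.z g (sides_sub htE (mem_erase.1 hg').2)

/-- The codegrees of a few edges sum to nearly the pseudo-random value. -/
lemma abs_sum_deg_le {P : Env} {i : ℕ} {E : St n} (hs : Small n P i) (hg : Good P i E) {S : St n}
    (hS : S ⊆ E) :
    |(∑ g ∈ S, (deg E g : ℝ)) - S.card * mu n i| ≤ S.card * (P.y i * mu n i) := by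
  have e : (∑ g ∈ S, (deg E g : ℝ)) - S.card * mu n i = ∑ g ∈ S, ((deg E g : ℝ) - mu n i) := by
    rw [sum_sub_distrib, sum_const, nsmul_eq_mul]
  rw [e]
  refine (abs_sum_le_sum_abs _ _).trans ((sum_le_sum (g := fun _ => P.y i * mu n i)
    fun g hgS => triAt_near hs hg (hS hgS)).trans_eq ?_)
  rw [sum_const, nsmul_eq_mul]

/-! ### The second averaged deviation -/

theorem driftW (hZ : DriftZLin) (hN : Spec.NoiseZ) : Spec.DriftW := by
  obtain ⟨C1, hC1, hZ⟩ := hZ
  obtain ⟨C2, hC2, hN⟩ := hN
  refine ⟨C1 + 28 * C2 + 60, by linarith, fun n i P E hs hg e he => ?_⟩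
  obtain ⟨hyz, -, -, -, hzm, herr⟩ := hs.err_parts
  obtain ⟨hj0, hj⟩ := hs.jZ_le
  have hJ0 : 0 ≤ C2 * jZ P n i := mul_nonneg (by linarith) hj0
  have hmu := hs.mu_pos
  set U : Finset (Finset (Fin n)) :=
    ((univ : Finset (Fin n)).powersetCard 3).filter fun t => e ∈ sides t with hU
  set req : Finset (Fin n) → St n := fun t => (sides t).erase e with hreq
  have hflags : ∀ F : St n, e ∈ F → FlagDrift.flags U req F = triAt F e := by
    intro F heF
    ext t
    simp only [FlagDrift.flags, hU, hreq, triAt, triangles, mem_filter]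
    constructor
    · rintro ⟨⟨ht3, het⟩, hsub⟩
      refine ⟨⟨ht3, fun g hgt => ?_⟩, het⟩
      by_cases hge : g = e
      · exact hge ▸ heF
      · exact hsub (mem_erase.2 ⟨hge, hgt⟩)
    · rintro ⟨⟨ht3, hsub⟩, het⟩
      exact ⟨⟨ht3, het⟩, (erase_subset _ _).trans hsub⟩
  have hAe := hflags E he
  have hcard := (triAt_card_bounds hs hg he).1
  have hR : ({e} : St n) ⊆ E := singleton_subset_iff.2 he
  have hbig : (99 : ℝ) ≤ (triAt E e).card := by linarith [hs.mu_big]
  have hlost : ∀ t ∈ FlagDrift.steps {e} E,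
      ((FlagDrift.lost U req E t).card : ℝ) ≤ 3 := by
    intro t ht
    obtain ⟨htT, hd⟩ := mem_filter.1 ht
    have hsub : FlagDrift.lost U req E t ⊆
        (Codeg.star E e).filter fun u => ¬ Disjoint (sides u) (sides t) := by
      intro u hu
      obtain ⟨h1, h2⟩ := mem_filter.1 hu
      rw [hAe] at h1
      exact mem_filter.2 ⟨h1, fun h => h2 (disjoint_of_subset_left (erase_subset _ _) h)⟩
    exact_mod_cast (card_le_card hsub).trans
      (Codeg.loss_le_three htT (disjoint_singleton_left.1 hd))
  set z : ℕ → St n → Finset (Fin n) → ℝ :=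
    fun k F t => (∑ g ∈ (sides t).erase e, zc k F g) / 2 with hz
  have hA : (FlagDrift.flags U req E).Nonempty := hAe ▸ triAt_nonempty hs hg he
  have hb1 : ∀ a ∈ triAt E e, |z i E a| ≤ P.z i := fun a ha =>
    abs_half_sum_le (card_erase_sides (mem_of_triAt ha).1 (mem_of_triAt ha).2) fun g hg' =>
      hg.z g (sides_sub (mem_of_triAt ha).1 (mem_erase.1 hg').2)
  have hhits : ∀ a ∈ FlagDrift.flags U req E,
      |(FlagDrift.hits (FlagDrift.steps {e} E) (FlagDrift.lost U req E) a : ℝ) - 2 * mu n i| ≤
        2 * (P.y i * mu n i) + 4 := by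
    intro a ha
    obtain ⟨haE, hea⟩ := mem_of_triAt (hAe ▸ ha)
    have h1 := FlagDrift.hits_near U req {e} E ha (disjoint_singleton_right.2 (notMem_erase e _))
    have h2 := abs_sum_deg_le hs hg (S := req a)
      ((erase_subset _ _).trans (mem_triangles_iff.1 haE).2)
    have hc : (req a).card = 2 := card_erase_sides haE hea
    rw [hc] at h1 h2
    simp only [card_singleton, Nat.cast_ofNat, Nat.cast_one] at h1 h2
    rw [abs_le] at h1 h2 ⊢
    constructor <;> linarith [h1.1, h1.2, h2.1, h2.2]
  have key := abs_inc_mean_sub_le U req hR (triangles_ne_empty hs hg) (rate_nonneg hs)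
    (fun k F => wc k F e) z hA (by rw [hAe]; exact wc_eq_avgE i (triAt_nonempty hs hg he))
    (fun t ht => by
      obtain ⟨htT, hd⟩ := mem_filter.1 ht
      have heF : e ∈ E \ sides t := mem_sdiff.2 ⟨he, disjoint_singleton_left.1 hd⟩
      have hne : (triAt (E \ sides t) e).Nonempty := by
        rw [← hflags _ heF, FlagDrift.flags_sdiff, hAe, sdiff_nonempty]
        intro hsub
        have := hlost t ht
        have : ((triAt E e).card : ℝ) ≤ (FlagDrift.lost U req E t).card := by
          exact_mod_cast card_le_card hsub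
        linarith
      rw [hflags _ heF]
      exact wc_eq_avgE (i + 1) hne)
    (B := 2 * P.z i) (J := C2 * jZ P n i) (H := 3 * mu n i) (L := 3) hJ0 (by norm_num) hlost
    (by rw [hAe]; linarith)
    (fun a ha => by
      rw [hAe] at ha ⊢
      have h1 := hb1 a ha
      have h2 := abs_mean_le hs.z0 hb1
      exact (abs_sub _ _).trans (by linarith))
    (fun a ha t ht hal => by
      obtain ⟨haE, hea⟩ := mem_of_triAt (hAe ▸ ha)
      obtain ⟨htT, -⟩ := mem_filter.1 ht
      have hdis : Disjoint (req a) (sides t) := by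
        by_contra h
        exact hal (mem_filter.2 ⟨ha, h⟩)
      rw [hz, ← sub_div, ← sum_sub_distrib]
      exact abs_half_sum_le (card_erase_sides haE hea) fun g hg' =>
        (hN n i P E hs hg g (sides_sub haE (mem_erase.1 hg').2)).2 t htT
          (singleton_subset_iff.2 (mem_sdiff.2 ⟨sides_sub haE (mem_erase.1 hg').2,
            disjoint_left.1 hdis hg'⟩)))
    hhits
    (fun a ha => by
      have h := (abs_le.1 (hhits a ha)).2
      have : P.y i * mu n i ≤ 1 / 100 * mu n i := mul_le_mul_of_nonneg_right hs.y1 hmu.le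
      linarith [hs.mu_big])
  set k : ℝ := 2 / (1 + gg i E) with hk
  set main : ℝ := FlagDrift.mean (FlagDrift.flags U req E) (fun a => rate i E *
        ∑ t ∈ (FlagDrift.steps {e} E).filter (fun t => a ∉ FlagDrift.lost U req E t),
          (z (i + 1) (E \ sides t) a - z i E a)) with hmain
  have hterm : |main + k * avgE E (wc i E) e| ≤
      4 * (C2 * jZ P n i) + C1 * (P.v i + err P n i) := by
    have hav : avgE E (wc i E) e = FlagDrift.mean (FlagDrift.flags U req E)
        (fun a => (∑ g ∈ (sides a).erase e, wc i E g) / 2) := by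
      rw [hAe]
      rfl
    have hnn : 0 ≤ 4 * (C2 * jZ P n i) + C1 * (P.v i + err P n i) :=
      add_nonneg (by linarith) (mul_nonneg (by linarith) (add_nonneg hs.v0 herr))
    rw [hmain, hav, ← one_mul (FlagDrift.mean _ (fun a => rate i E * _)), ← mean_linear]
    refine abs_mean_le hnn fun a ha => ?_
    obtain ⟨haE, hea⟩ := mem_of_triAt (hAe ▸ ha)
    have hsteps : (FlagDrift.steps {e} E).filter (fun t => a ∉ FlagDrift.lost U req E t) =
        FlagDrift.steps (sides a) E := by
      ext t
      simp only [FlagDrift.steps, mem_filter, FlagDrift.lost, ha, true_and, not_not]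
      rw [and_assoc, and_congr_right_iff]
      intro _
      show Disjoint ({e} : St n) (sides t) ∧ Disjoint ((sides a).erase e) (sides t) ↔ _
      rw [← disjoint_union_left, ← insert_eq, insert_erase hea]
    rw [hsteps, one_mul, hz, ← mul_div_assoc, mul_sum (a := k)]
    exact flag_term_le hs hg (erase_subset _ _) (mem_triangles_iff.1 haE).2 (card_sides haE).le
      (card_erase_sides haE hea) zc (fun g => k * wc i E g) hJ0
      (fun g hg' => (hN n i P E hs hg g (sides_sub haE (mem_erase.1 hg').2)).2)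
      (fun g hg' => hZ n i P E hs hg g (sides_sub haE (mem_erase.1 hg').2))
  have hdrop : rate i E * ((2 * (P.y i * mu n i) + 4) * (2 * P.z i) +
      2 * (3 * mu n i) * (C2 * jZ P n i) +
      2 * (3 * mu n i) * 3 * (2 * P.z i) / (FlagDrift.flags U req E).card) ≤
      100 / 99 * (4 * err P n i + 8 * err P n i + 6 * (C2 * (2 * err P n i)) + 40 * err P n i) := by
    have h3 : 36 * P.z i / (FlagDrift.flags U req E).card ≤ 40 * err P n i := by
      rw [hAe]
      calc 36 * P.z i / (triAt E e).card ≤ 36 * P.z i / (99 / 100 * mu n i) :=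
            div_le_div_of_nonneg_left (by linarith [hs.z0]) (by linarith) hcard
        _ = 3600 / 99 * (P.z i / mu n i) := by ring
        _ ≤ _ := by linarith [hzm]
    have h4 : C2 * jZ P n i ≤ C2 * (2 * err P n i) := mul_le_mul_of_nonneg_left hj (by linarith)
    calc _ = rate i E * mu n i * (4 * (P.y i * P.z i) + 8 * (P.z i / mu n i) +
          6 * (C2 * jZ P n i) + 36 * P.z i / (FlagDrift.flags U req E).card) := by
          field_simp
          ring
      _ ≤ _ := by
        refine mul_le_mul (rate_mul_mu_le hs hg) (by linarith) ?_ (by norm_num)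
        have := hs.y0
        have := hs.z0
        positivity
  have h4 : C2 * jZ P n i ≤ C2 * (2 * err P n i) := mul_le_mul_of_nonneg_left hj (by linarith)
  have hgoal : |inc {e} (fun k F => wc k F e) i E + k * avgE E (wc i E) e| ≤
      100 / 99 * (52 * err P n i + 12 * (C2 * err P n i)) + 8 * (C2 * err P n i) +
        C1 * (P.v i + err P n i) := by
    have k1 := abs_le.1 (key.trans hdrop)
    have k2 := abs_le.1 hterm
    rw [abs_le]
    constructor <;> linarith [k1.1, k1.2, k2.1, k2.2]
  refine hgoal.trans ?_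
  have := mul_nonneg (show (0 : ℝ) ≤ C2 by linarith) hs.v0
  have := mul_nonneg (show (0 : ℝ) ≤ C2 by linarith) herr
  have := hs.v0
  linarith

/-! ### The vertex part -/

theorem driftU (hW : Spec.DriftW) (hN : Spec.NoiseW) : Spec.DriftU := by
  obtain ⟨C1, hC1, hW⟩ := hW
  obtain ⟨C2, hC2, hN⟩ := hN
  refine ⟨C1 + 50 * C2 + 170, by linarith, fun n i P eta E hs hgI heta b => ?_⟩
  have hg := hgI.good
  obtain ⟨hyz, -, -, -, hzm, herr⟩ := hs.err_parts
  obtain ⟨hj0, hj⟩ := hs.jW_le
  have hJ0 : 0 ≤ C2 * jW P n i := mul_nonneg (by linarith) hj0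
  have hmu := hs.mu_pos
  set U : Finset (Finset (Fin n)) :=
    ((univ : Finset (Fin n)).powersetCard 3).filter fun t => b ∈ t with hU
  have hflags : ∀ F : St n, FlagDrift.flags U sides F = triV F b := by
    intro F
    ext t
    simp only [FlagDrift.flags, hU, triV, triangles, mem_filter]
    tauto
  have hAe := hflags E
  have hcard : 12 / 25 * (mu n i * mu n i) ≤ ((triV E b).card : ℝ) :=
    le_trans (mul_le_mul_of_nonneg_left (mul_le_mul_of_nonneg_right hs.mu_le_np hmu.le)
      (by norm_num)) (triV_card_ge hs hgI heta b)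
  have hmm : 100 * mu n i ≤ mu n i * mu n i := mul_le_mul_of_nonneg_right hs.mu_big hmu.le
  have hlost : ∀ t ∈ FlagDrift.steps (∅ : St n) E,
      ((FlagDrift.lost U sides E t).card : ℝ) ≤ 303 / 100 * mu n i := by
    intro t ht
    obtain ⟨htT, -⟩ := mem_filter.1 ht
    have hsub : FlagDrift.lost U sides E t ⊆
        (triangles E).filter fun u => ¬ Disjoint (sides u) (sides t) := by
      intro u hu
      obtain ⟨h1, h2⟩ := mem_filter.1 hu
      rw [hAe] at h1
      exact mem_filter.2 ⟨(mem_of_triV h1).1, h2⟩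
    refine le_trans (by exact_mod_cast card_le_card hsub) ((FlagDrift.hit_upper E (sides t)).trans
      ((sum_le_sum (g := fun _ => 101 / 100 * mu n i)
        fun g hgt => (triAt_card_bounds hs hg (sides_sub htT hgt)).2).trans_eq ?_))
    rw [sum_const, card_sides htT, nsmul_eq_mul]
    push_cast
    ring
  set z : ℕ → St n → Finset (Fin n) → ℝ :=
    fun k F t => (∑ g ∈ (sides t).filter (fun g => b ∈ g), wc k F g) / 2 with hz
  have hne := triV_nonempty hs hgI heta b
  have hA : (FlagDrift.flags U sides E).Nonempty := hAe.symm ▸ hne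
  have hb1 : ∀ a ∈ triV E b, |z i E a| ≤ P.z i := fun a ha =>
    abs_half_sum_le (card_spokes (mem_of_triV ha).1 (mem_of_triV ha).2) fun g hg' =>
      abs_wc_le_z hs hg (sides_sub (mem_of_triV ha).1 (mem_filter.1 hg').1)
  have hhits : ∀ a ∈ FlagDrift.flags U sides E,
      |(FlagDrift.hits (FlagDrift.steps ∅ E) (FlagDrift.lost U sides E) a : ℝ) - 3 * mu n i| ≤
        3 * (P.y i * mu n i) + 6 := by
    intro a ha
    obtain ⟨haE, -⟩ := mem_of_triV (hAe ▸ ha)
    have h1 := FlagDrift.hits_near U sides ∅ E ha (disjoint_empty_right _)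
    have h2 := abs_sum_deg_le hs hg (S := sides a) (mem_triangles_iff.1 haE).2
    rw [card_sides haE] at h1 h2
    simp only [card_empty, Nat.cast_ofNat, Nat.cast_zero] at h1 h2
    rw [abs_le] at h1 h2 ⊢
    constructor <;> linarith [h1.1, h1.2, h2.1, h2.2]
  have key := abs_inc_mean_sub_le U sides (empty_subset E) (triangles_ne_empty hs hg)
    (rate_nonneg hs) (fun k F => uc k F b) z hA
    (by rw [hAe]; exact uc_eq_avgS i hne)
    (fun t ht => by
      have hne' : (triV (E \ sides t) b).Nonempty := by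
        rw [← hflags, FlagDrift.flags_sdiff, hAe, sdiff_nonempty]
        intro hsub
        have := hlost t ht
        have : ((triV E b).card : ℝ) ≤ (FlagDrift.lost U sides E t).card := by
          exact_mod_cast card_le_card hsub
        linarith
      rw [hflags]
      exact uc_eq_avgS (i + 1) hne')
    (B := 2 * P.z i) (J := C2 * jW P n i) (H := 4 * mu n i) (L := 303 / 100 * mu n i) hJ0
    (by linarith) hlost (by rw [hAe]; linarith)
    (fun a ha => by
      rw [hAe] at ha ⊢
      have h1 := hb1 a ha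
      have h2 := abs_mean_le hs.z0 hb1
      exact (abs_sub _ _).trans (by linarith))
    (fun a ha t ht hal => by
      obtain ⟨haE, hba⟩ := mem_of_triV (hAe ▸ ha)
      obtain ⟨htT, -⟩ := mem_filter.1 ht
      have hdis : Disjoint (sides a) (sides t) := by
        by_contra h
        exact hal (mem_filter.2 ⟨ha, h⟩)
      rw [hz, ← sub_div, ← sum_sub_distrib]
      exact abs_half_sum_le (card_spokes haE hba) fun g hg' =>
        (hN n i P E hs hg g (sides_sub haE (mem_filter.1 hg').1)).2 t htT
          (singleton_subset_iff.2 (mem_sdiff.2 ⟨sides_sub haE (mem_filter.1 hg').1,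
            disjoint_left.1 hdis (mem_filter.1 hg').1⟩)))
    hhits
    (fun a ha => by
      have h := (abs_le.1 (hhits a ha)).2
      have : P.y i * mu n i ≤ 1 / 100 * mu n i := mul_le_mul_of_nonneg_right hs.y1 hmu.le
      linarith [hs.mu_big])
  set k : ℝ := 2 / (1 + gg i E) with hk
  set main : ℝ := FlagDrift.mean (FlagDrift.flags U sides E) (fun a => rate i E *
        ∑ t ∈ (FlagDrift.steps ∅ E).filter (fun t => a ∉ FlagDrift.lost U sides E t),
          (z (i + 1) (E \ sides t) a - z i E a)) with hmain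
  have hterm : |main + k * avgS E (avgE E (wc i E)) b| ≤
      4 * (C2 * jW P n i) + C1 * (P.v i + err P n i) := by
    have hav : avgS E (avgE E (wc i E)) b = FlagDrift.mean (FlagDrift.flags U sides E)
        (fun a => (∑ g ∈ (sides a).filter (fun g => b ∈ g), avgE E (wc i E) g) / 2) := by
      rw [hAe]
      rfl
    have hnn : 0 ≤ 4 * (C2 * jW P n i) + C1 * (P.v i + err P n i) :=
      add_nonneg (by linarith) (mul_nonneg (by linarith) (add_nonneg hs.v0 herr))
    rw [hmain, hav, ← one_mul (FlagDrift.mean _ (fun a => rate i E * _)), ← mean_linear]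
    refine abs_mean_le hnn fun a ha => ?_
    obtain ⟨haE, hba⟩ := mem_of_triV (hAe ▸ ha)
    have hsteps : (FlagDrift.steps ∅ E).filter (fun t => a ∉ FlagDrift.lost U sides E t) =
        FlagDrift.steps (sides a) E := by
      ext t
      simp only [FlagDrift.steps, mem_filter, FlagDrift.lost, ha, true_and, not_not,
        disjoint_empty_left, and_true]
    rw [hsteps, one_mul, hz, ← mul_div_assoc, mul_sum (a := k)]
    exact flag_term_le hs hg (filter_subset _ _) (mem_triangles_iff.1 haE).2 (card_sides haE).le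
      (card_spokes haE hba) wc (fun g => k * avgE E (wc i E) g) hJ0
      (fun g hg' => (hN n i P E hs hg g (sides_sub haE (mem_filter.1 hg').1)).2)
      (fun g hg' => hW n i P E hs hg g (sides_sub haE (mem_filter.1 hg').1))
  have hlin : k * avgS E (avgE E (wc i E)) b = (uc i E b + oc i E b) / (1 + gg i E) := by
    rw [avgS_avgE, ← uc_eq_avgS i hne, ← oc_eq_avgO i hne, hk]
    ring
  have hdrop : rate i E * ((3 * (P.y i * mu n i) + 6) * (2 * P.z i) +
      2 * (4 * mu n i) * (C2 * jW P n i) +
      2 * (4 * mu n i) * (303 / 100 * mu n i) * (2 * P.z i) /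
        (FlagDrift.flags U sides E).card) ≤
      100 / 99 * (6 * err P n i + 12 * err P n i + 8 * (C2 * (3 * err P n i)) +
        110 * err P n i) := by
    have h3 : 4848 / 100 * mu n i * P.z i / (FlagDrift.flags U sides E).card ≤
        110 * err P n i := by
      rw [hAe]
      calc 4848 / 100 * mu n i * P.z i / (triV E b).card
          ≤ 4848 / 100 * mu n i * P.z i / (12 / 25 * (mu n i * mu n i)) :=
            div_le_div_of_nonneg_left (by have := hs.z0; positivity) (by positivity) hcard
        _ = 101 * (P.z i / mu n i) := by field_simp; ring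
        _ ≤ _ := by linarith [hzm]
    have h4 : C2 * jW P n i ≤ C2 * (3 * err P n i) := mul_le_mul_of_nonneg_left hj (by linarith)
    calc _ = rate i E * mu n i * (6 * (P.y i * P.z i) + 12 * (P.z i / mu n i) +
          8 * (C2 * jW P n i) + 4848 / 100 * mu n i * P.z i /
            (FlagDrift.flags U sides E).card) := by
          field_simp
          ring
      _ ≤ _ := by
        refine mul_le_mul (rate_mul_mu_le hs hg) (by linarith) ?_ (by norm_num)
        have := hs.y0
        have := hs.z0
        positivity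
  have h4 : C2 * jW P n i ≤ C2 * (3 * err P n i) := mul_le_mul_of_nonneg_left hj (by linarith)
  have hgoal : |inc ∅ (fun k F => uc k F b) i E + (uc i E b + oc i E b) / (1 + gg i E)| ≤
      100 / 99 * (128 * err P n i + 24 * (C2 * err P n i)) + 12 * (C2 * err P n i) +
        C1 * (P.v i + err P n i) := by
    have k1 := abs_le.1 (key.trans hdrop)
    have k2 := abs_le.1 hterm
    rw [hlin] at k2
    rw [abs_le]
    constructor <;> linarith [k1.1, k1.2, k2.1, k2.2]
  refine hgoal.trans ?_
  have := mul_nonneg (show (0 : ℝ) ≤ C2 by linarith) hs.v0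
  have := mul_nonneg (show (0 : ℝ) ≤ C2 by linarith) herr
  have := hs.v0
  linarith

end Vale.Agent.P046.Flags
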