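import Vale.Agent.P046.Flags.Spec
import Vale.Agent.P046.Codeg

/-!
Sizes at a good state, the exact change of one codegree deviation, its drift and its noise.
-/

namespace Vale.Agent.P046.Flags.DriftYZ

open Finset Chain

variable {n i : ℕ} {P : Env} {E : St n}

/-- The factor turning a sum over steps into a drift per unit of logarithmic time. -/
noncomputable def rate (i : ℕ) (E : St n) : ℝ := mm n i / 3 / (triangles E).card

/-- The relative growth of the inverse mean codegree in one step. -/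
noncomputable def del (n i : ℕ) : ℝ := (mm n i / (mm n i - 3)) ^ 2 - 1

/-- The change of the codegree deviation of `f` when `t` is removed. -/
noncomputable def dY (i : ℕ) (E : St n) (f t : Finset (Fin n)) : ℝ :=
  yy (i + 1) (E \ sides t) f - yy i E f

/-- The sizes that follow from the bounds. -/
structure Sz (P : Env) (i : ℕ) (E : St n) : Prop where
  card : (E.card : ℝ) = mm n i
  m100 : 100 ≤ mm n i
  mu100 : 100 ≤ mu n i
  mu_le : mu n i ≤ mm n i
  mu_sq : mu n i ^ 2 ≤ 4 * mm n i
  mu_next : mu n (i + 1) = mu n i / (1 + del n i)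
  del0 : 0 ≤ del n i
  del_le : del n i ≤ 7 / mm n i
  del_main : |mm n i / 3 * del n i - 2| ≤ 10 / mm n i
  yb : ∀ e ∈ E, |yy i E e| ≤ P.y i
  y0 : 0 ≤ P.y i
  y1 : P.y i ≤ 1 / 100

lemma sz (hs : Small n P i) (hg : Good P i E) : Sz P i E := by
  have hc : (E.card : ℝ) + 3 * i = (n.choose 2 : ℝ) := by exact_mod_cast hg.size.2
  have hroom : (3 * i + 6 : ℝ) ≤ (n.choose 2 : ℝ) := by exact_mod_cast hs.room
  have hn : (100 : ℝ) ≤ n := by exact_mod_cast hs.n_big
  have hi : (0 : ℝ) ≤ i := Nat.cast_nonneg i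
  set N : ℝ := (n.choose 2 : ℝ) with hN
  have hN2 : N = (n : ℝ) * (n - 1) / 2 := Nat.cast_choose_two ℝ n
  have hm6 : 6 ≤ mm n i := by rw [mm, ← hN]; linarith
  have hmN : mm n i ≤ N := by rw [mm, ← hN]; linarith
  have hN0 : 0 < N := by linarith
  have hp0 : 0 ≤ pp n i := div_nonneg (by linarith) hN0.le
  have hp1 : pp n i ≤ 1 := (div_le_one hN0).2 hmN
  have hmp : mm n i = pp n i * N := by
    rw [pp, ← hN]; field_simp
  have hnN : (n : ℝ) ≤ N := by rw [hN2]; nlinarith
  have hn2 : (n : ℝ) ^ 2 ≤ 4 * N := by rw [hN2]; nlinarith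
  have hp2 : pp n i ^ 2 ≤ pp n i := by nlinarith
  have hp4 : pp n i ^ 4 ≤ pp n i := by
    calc pp n i ^ 4 ≤ pp n i ^ 1 := pow_le_pow_of_le_one hp0 hp1 (by norm_num)
      _ = _ := pow_one _
  have hmu : mu n i ≤ mm n i := by
    rw [mu, hmp, mul_comm (pp n i) N]
    exact mul_le_mul hnN hp2 (sq_nonneg _) hN0.le
  have hm100 : 100 ≤ mm n i := le_trans hs.mu_big hmu
  have hsq : mu n i ^ 2 ≤ 4 * mm n i := by
    rw [mu, hmp, mul_pow, ← pow_mul, show 4 * (pp n i * N) = 4 * N * pp n i by ring]
    exact mul_le_mul hn2 hp4 (by positivity) (by linarith)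
  have hmm3 : 0 < mm n i - 3 := by linarith
  have hnext : mu n (i + 1) = mu n i / (1 + del n i) := by
    have h1 : mm n (i + 1) = mm n i - 3 := by simp only [mm]; push_cast; ring
    simp only [mu, pp, h1, del, ← hN]
    field_simp
    ring
  have hd0 : 0 ≤ del n i := by
    rw [del, sub_nonneg]
    exact one_le_pow₀ ((one_le_div hmm3).2 (by linarith))
  have hd7 : del n i ≤ 7 / mm n i := by
    rw [del, div_pow, sub_le_iff_le_add, div_le_iff₀ (by positivity)]
    have : 7 / mm n i * mm n i = 7 := by field_simp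
    nlinarith
  have hdm : |mm n i / 3 * del n i - 2| ≤ 10 / mm n i := by
    have h : mm n i / 3 * del n i - 2 = (9 * mm n i - 18) / (mm n i - 3) ^ 2 := by
      rw [del]; field_simp; ring
    rw [h, abs_of_nonneg (div_nonneg (by linarith) (sq_nonneg _)),
      div_le_div_iff₀ (by positivity) (by linarith)]
    nlinarith
  exact ⟨by rw [mm, ← hN]; linarith, hm100, hs.mu_big, hmu, hsq, hnext, hd0, hd7, hdm, hg.y,
    hs.y0, hs.y1⟩

namespace Sz

variable (h : Sz P i E)
include h

lemma mu_pos : 0 < mu n i := by linarith [h.mu100]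

lemma inv_mm : 1 / mm n i ≤ 4 / mu n i ^ 2 := by
  rw [div_le_div_iff₀ (by linarith [h.m100]) (by have := h.mu_pos; positivity)]
  linarith [h.mu_sq]

lemma inv_mm_mu : 1 / mm n i ≤ 1 / mu n i :=
  one_div_le_one_div_of_le h.mu_pos h.mu_le

lemma del_small : del n i ≤ 7 / 100 :=
  h.del_le.trans (div_le_div_of_nonneg_left (by norm_num) (by norm_num) h.m100)

lemma deg_eq {e : Finset (Fin n)} : ((triAt E e).card : ℝ) = mu n i * (1 + yy i E e) := by
  have := h.mu_pos
  rw [yy]; field_simp; ring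

lemma deg_le {e : Finset (Fin n)} (he : e ∈ E) :
    ((triAt E e).card : ℝ) ≤ mu n i * (1 + P.y i) := by
  rw [h.deg_eq]
  exact mul_le_mul_of_nonneg_left (by linarith [(abs_le.1 (h.yb e he)).2]) h.mu_pos.le

lemma deg_ge {e : Finset (Fin n)} (he : e ∈ E) : 99 ≤ ((triAt E e).card : ℝ) := by
  rw [h.deg_eq]
  nlinarith [(abs_le.1 (h.yb e he)).1, h.mu100, h.y1]

lemma tri_ne : triangles E ≠ ∅ := by
  have hE : (0 : ℝ) < (E.card : ℝ) := by linarith [h.card, h.m100]
  obtain ⟨e, he⟩ := card_pos.1 (by exact_mod_cast hE : 0 < E.card)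
  intro h0
  have := h.deg_ge he
  simp [triAt, h0] at this
  linarith

lemma q_pos : (0 : ℝ) < (triangles E).card := by
  exact_mod_cast card_pos.2 (nonempty_iff_ne_empty.2 h.tri_ne)

lemma q_eq : 3 * ((triangles E).card : ℝ) = mm n i * mu n i * (1 + gg i E) := by
  have := h.mu_pos
  have := h.m100
  rw [gg, h.card]; field_simp; ring

lemma abs_gg_le : |gg i E| ≤ P.y i := by
  have hmu := h.mu_pos
  have hm : 0 < mm n i := by linarith [h.m100]
  have hs : ∑ e ∈ E, yy i E e = mm n i * gg i E := by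
    have h1 : ∑ e ∈ E, mu n i * (1 + yy i E e) = ∑ e ∈ E, (deg E e : ℝ) :=
      sum_congr rfl fun e _ => h.deg_eq.symm
    rw [Codeg.sum_deg, h.q_eq, ← mul_sum, sum_add_distrib, sum_const, nsmul_eq_mul, mul_one,
      h.card] at h1
    have h2 : mu n i * (∑ e ∈ E, yy i E e) = mu n i * (mm n i * gg i E) := by linarith
    exact mul_left_cancel₀ hmu.ne' h2
  have h3 : |∑ e ∈ E, yy i E e| ≤ mm n i * P.y i := by
    refine (abs_sum_le_sum_abs _ _).trans ((sum_le_sum h.yb).trans_eq ?_)
    rw [sum_const, nsmul_eq_mul, h.card]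
  rw [hs, abs_mul, abs_of_pos hm] at h3
  exact le_of_mul_le_mul_left h3 hm

lemma gg_lo : 99 / 100 ≤ 1 + gg i E := by linarith [(abs_le.1 h.abs_gg_le).1, h.y1]

lemma gg_hi : 1 + gg i E ≤ 101 / 100 := by linarith [(abs_le.1 h.abs_gg_le).2, h.y1]

lemma rate_eq : rate i E = 1 / (mu n i * (1 + gg i E)) := by
  have := h.mu_pos
  have := h.gg_lo
  have := h.q_pos
  rw [rate, div_div, h.q_eq]
  have := h.m100
  field_simp

lemma rate_nonneg : 0 ≤ rate i E := by
  rw [rate]; have := h.q_pos; have := h.m100; positivity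

lemma rate_le : rate i E ≤ 2 / mu n i := by
  have := h.mu_pos
  rw [h.rate_eq, div_le_div_iff₀ (mul_pos this (by linarith [h.gg_lo])) this]
  nlinarith [h.gg_lo]

lemma inc_eq {R : St n} (hR : R ⊆ E) (f : ℕ → St n → ℝ) :
    inc R f i E = rate i E *
      ∑ t ∈ FlagDrift.steps R E, (f (i + 1) (E \ sides t) - f i E) := by
  rw [inc, avg, if_neg h.tri_ne, rate, FlagDrift.steps, sum_filter]
  rw [div_mul_eq_mul_div (mm n i / 3), mul_div_assoc]
  congr 2
  refine sum_congr rfl fun t _ => ?_
  simp only [subset_sdiff, hR, true_and]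

lemma dY_eq (f t : Finset (Fin n)) : dY i E f t =
    (1 + yy i E f) * del n i - (1 + del n i) * (Codeg.loss E f t : ℝ) / mu n i := by
  have hmu := h.mu_pos
  have hd := h.del0
  have hl : ((triAt (E \ sides t) f).card : ℝ) + Codeg.loss E f t = (triAt E f).card := by
    exact_mod_cast Codeg.deg_sdiff E f t
  have hl' : ((triAt (E \ sides t) f).card : ℝ) = (triAt E f).card - Codeg.loss E f t := by
    linarith
  rw [dY, yy, yy, h.mu_next, hl']
  field_simp
  ring

lemma abs_dY_le {f : Finset (Fin n)} (hf : f ∈ E) (t : Finset (Fin n)) :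
    |dY i E f t| ≤ 8 / mm n i + 2 * (Codeg.loss E f t : ℝ) / mu n i := by
  obtain ⟨hy0, hy1⟩ := abs_le.1 (h.yb f hf)
  have hd := h.del0
  have hd' := h.del_small
  have hd7 := h.del_le
  have h1 : (1 + yy i E f) * del n i ≤ 8 / mm n i := by
    calc (1 + yy i E f) * del n i ≤ (101 / 100) * (7 / mm n i) :=
          mul_le_mul (by linarith [h.y1]) hd7 hd (by norm_num)
      _ ≤ _ := by
          rw [mul_div_assoc']
          exact div_le_div_of_nonneg_right (by norm_num) (by linarith [h.m100])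
  have h2 : 0 ≤ (1 + yy i E f) * del n i := mul_nonneg (by linarith [h.y1]) hd
  have h3 : (1 + del n i) * (Codeg.loss E f t : ℝ) / mu n i ≤
      2 * (Codeg.loss E f t : ℝ) / mu n i :=
    div_le_div_of_nonneg_right (mul_le_mul_of_nonneg_right (by linarith) (Nat.cast_nonneg _))
      h.mu_pos.le
  have h4 : 0 ≤ (1 + del n i) * (Codeg.loss E f t : ℝ) / mu n i :=
    div_nonneg (mul_nonneg (by linarith) (Nat.cast_nonneg _)) h.mu_pos.le
  rw [h.dY_eq, abs_le]
  constructor <;> linarith

end Sz

lemma steps_singleton (e : Finset (Fin n)) :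
    FlagDrift.steps {e} E = (triangles E).filter fun t => e ∉ sides t := by
  ext t; simp [FlagDrift.steps]

lemma card_erase_sides {u f : Finset (Fin n)} (hu : u ∈ triangles E) (hf : f ∈ sides u) :
    ((sides u).erase f).card = 2 := by
  rw [card_erase_of_mem hf, card_sides hu]

/-- Twice the first averaged deviation, as a sum over the triangles at an edge. -/
lemma sum_star (i : ℕ) (E : St n) (f : Finset (Fin n)) :
    ∑ u ∈ triAt E f, ∑ g ∈ (sides u).erase f, yy i E g =
      2 * (triAt E f).card * zz i E f := by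
  rcases Nat.eq_zero_or_pos (triAt E f).card with h0 | h0
  · simp [card_eq_zero.1 h0]
  · have : ((triAt E f).card : ℝ) ≠ 0 := by exact_mod_cast h0.ne'
    rw [zz, avgE, FlagDrift.mean, ← sum_div]
    field_simp

lemma abs_mean_le {ι : Type*} {s : Finset ι} {z : ι → ℝ} {B : ℝ} (hB0 : 0 ≤ B)
    (hz : ∀ a ∈ s, |z a| ≤ B) : |FlagDrift.mean s z| ≤ B := by
  rcases s.eq_empty_or_nonempty with rfl | hne
  · simpa [FlagDrift.mean] using hB0
  · rw [FlagDrift.mean, abs_div, Nat.abs_cast, div_le_iff₀ (by exact_mod_cast hne.card_pos)]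
    refine (abs_sum_le_sum_abs _ _).trans ((sum_le_card_nsmul _ _ B hz).trans ?_)
    rw [nsmul_eq_mul, mul_comm]

lemma Sz.abs_zz_le (h : Sz P i E) (f : Finset (Fin n)) : |zz i E f| ≤ P.y i := by
  refine abs_mean_le h.y0 fun u hu => ?_
  obtain ⟨hu1, hu2⟩ := mem_filter.1 hu
  rw [abs_div, abs_two, div_le_iff₀ two_pos]
  refine (abs_sum_le_sum_abs _ _).trans ((sum_le_card_nsmul _ _ (P.y i) fun g hg => ?_).trans ?_)
  · exact h.yb g ((mem_filter.1 hu1).2 (mem_erase.1 hg).2)
  · rw [card_erase_sides hu1 hu2, nsmul_eq_mul]; push_cast; linarith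

/-- The drift of one codegree deviation. -/
theorem inc_yy_near (h : Sz P i E) {f : Finset (Fin n)} (hf : f ∈ E) :
    |inc {f} (fun k F => yy k F f) i E -
      2 * (1 + yy i E f) * (gg i E - zz i E f + 1 / mu n i) / (1 + gg i E)| ≤ 60 / mm n i := by
  have hmu := h.mu_pos
  have hg := h.gg_lo
  have hQ := h.q_pos
  have hm : 0 < mm n i := by linarith [h.m100]
  obtain ⟨hy0, hy1⟩ := abs_le.1 (h.yb f hf)
  have hP := h.y1
  set L := ∑ u ∈ triAt E f, ∑ g ∈ (sides u).erase f, ((deg E g : ℝ) - 1) with hLdef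
  have hL : L = (triAt E f).card * (2 * mu n i * (1 + zz i E f) - 2) := by
    have h1 : ∀ u ∈ triAt E f, ∑ g ∈ (sides u).erase f, ((deg E g : ℝ) - 1) =
        mu n i * (∑ g ∈ (sides u).erase f, yy i E g) + (2 * mu n i - 2) := by
      intro u hu
      obtain ⟨hu1, hu2⟩ := mem_filter.1 hu
      have h2 : ∀ g ∈ (sides u).erase f, ((deg E g : ℝ) - 1) =
          mu n i * yy i E g + (mu n i - 1) := by
        intro g _
        have := h.deg_eq (e := g)
        simp only [deg, triAt] at this ⊢
        rw [this]; ring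
      rw [sum_congr rfl h2, sum_add_distrib, ← mul_sum, sum_const, card_erase_sides hu1 hu2,
        nsmul_eq_mul]
      push_cast; ring
    rw [hLdef, sum_congr rfl h1, sum_add_distrib, ← mul_sum, sum_star, sum_const, nsmul_eq_mul]
    ring
  have hloss : ∑ t ∈ FlagDrift.steps {f} E, (Codeg.loss E f t : ℝ) = L := by
    rw [steps_singleton]; exact Codeg.sum_loss E f
  have hcard : ((FlagDrift.steps {f} E).card : ℝ) = (triangles E).card - (triAt E f).card := by
    rw [steps_singleton, eq_sub_iff_add_eq, add_comm, triAt]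
    exact_mod_cast card_filter_add_card_filter_not _
  have hinc : inc {f} (fun k F => yy k F f) i E = rate i E *
      (((triangles E).card - (triAt E f).card) * ((1 + yy i E f) * del n i) -
        (1 + del n i) / mu n i * L) := by
    rw [h.inc_eq (singleton_subset_iff.2 hf)]
    congr 1
    have : ∀ t ∈ FlagDrift.steps {f} E, yy (i + 1) (E \ sides t) f - yy i E f =
        (1 + yy i E f) * del n i - (1 + del n i) / mu n i * Codeg.loss E f t := fun t _ => by
      rw [← dY, h.dY_eq]; ring
    rw [sum_congr rfl this, sum_sub_distrib, sum_const, nsmul_eq_mul, hcard, ← mul_sum, hloss]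
  have e1 : rate i E * (triangles E).card = mm n i / 3 := by
    rw [rate]; field_simp
  have e2 : rate i E * (triAt E f).card = (1 + yy i E f) / (1 + gg i E) := by
    rw [h.rate_eq, h.deg_eq]; field_simp
  have key : inc {f} (fun k F => yy k F f) i E -
      2 * (1 + yy i E f) * (gg i E - zz i E f + 1 / mu n i) / (1 + gg i E) =
      (1 + yy i E f) * ((mm n i / 3 * del n i - 2) - (1 + yy i E f) / (1 + gg i E) * del n i
        - 2 * (1 + zz i E f - 1 / mu n i) / (1 + gg i E) * del n i) := by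
    rw [hinc, hL]
    have e3 : rate i E * (((triangles E).card - (triAt E f).card) * ((1 + yy i E f) * del n i) -
        (1 + del n i) / mu n i * ((triAt E f).card * (2 * mu n i * (1 + zz i E f) - 2))) =
        (rate i E * (triangles E).card - rate i E * (triAt E f).card) *
          ((1 + yy i E f) * del n i) -
        (1 + del n i) / mu n i * ((rate i E * (triAt E f).card) *
          (2 * mu n i * (1 + zz i E f) - 2)) := by ring
    rw [e3, e1, e2]
    field_simp
    ring
  rw [key, abs_mul]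
  obtain ⟨hz0, hz1⟩ := abs_le.1 (h.abs_zz_le f)
  have hr : (1 + yy i E f) / (1 + gg i E) ≤ 2 := by
    rw [div_le_iff₀ (by linarith)]; linarith
  have hr0 : 0 ≤ (1 + yy i E f) / (1 + gg i E) := div_nonneg (by linarith) (by linarith)
  have hu : 1 / mu n i ≤ 1 / 100 := one_div_le_one_div_of_le (by norm_num) h.mu100
  have hu0 : 0 ≤ 1 / mu n i := by positivity
  have hs : 2 * (1 + zz i E f - 1 / mu n i) / (1 + gg i E) ≤ 3 := by
    rw [div_le_iff₀ (by linarith)]; linarith
  have hs0 : 0 ≤ 2 * (1 + zz i E f - 1 / mu n i) / (1 + gg i E) :=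
    div_nonneg (by linarith) (by linarith)
  have hd7 := h.del_le
  have hd0 := h.del0
  have hin : |(mm n i / 3 * del n i - 2) - (1 + yy i E f) / (1 + gg i E) * del n i
        - 2 * (1 + zz i E f - 1 / mu n i) / (1 + gg i E) * del n i| ≤ 45 / mm n i := by
    have q1 : (1 + yy i E f) / (1 + gg i E) * del n i ≤ 2 * (7 / mm n i) :=
      mul_le_mul hr hd7 hd0 zero_le_two
    have q2 : 2 * (1 + zz i E f - 1 / mu n i) / (1 + gg i E) * del n i ≤ 3 * (7 / mm n i) :=
      mul_le_mul hs hd7 hd0 (by norm_num)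
    have q3 := mul_nonneg hr0 hd0
    have q4 := mul_nonneg hs0 hd0
    have e45 : 45 / mm n i = 10 / mm n i + 2 * (7 / mm n i) + 3 * (7 / mm n i) := by ring
    obtain ⟨d1, d2⟩ := abs_le.1 h.del_main
    rw [e45, abs_le]
    constructor <;> linarith
  calc _ ≤ (4 / 3) * (45 / mm n i) := mul_le_mul (by rw [abs_le]; constructor <;> linarith) hin
        (abs_nonneg _) (by norm_num)
    _ = _ := by ring

/-- The sum over all edges at all triangles. -/
lemma sum_incidence (E : St n) (F : Finset (Fin n) → Finset (Fin n) → ℝ) :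
    ∑ u ∈ triangles E, ∑ e ∈ sides u, F e u = ∑ e ∈ E, ∑ u ∈ triAt E e, F e u := by
  simp only [triAt, sum_filter]
  rw [sum_comm]
  refine sum_congr rfl fun u hu => ?_
  rw [← sum_filter, filter_mem_eq_inter, inter_eq_right.2 (mem_filter.1 hu).2]

lemma avgG_eq (f : Finset (Fin n) → ℝ) :
    avgG E f = (∑ e ∈ E, ((triAt E e).card : ℝ) * f e) / (3 * (triangles E).card) := by
  rw [avgG, FlagDrift.mean, ← sum_div, sum_incidence E (fun e _ => f e), div_div]
  simp only [sum_const, nsmul_eq_mul]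

lemma avgG_yy_near (h : Sz P i E) : |avgG E (yy i E) - gg i E| ≤ 3 * P.y i ^ 2 := by
  have hmu := h.mu_pos
  have hm : 0 < mm n i := by linarith [h.m100]
  have hg := h.gg_lo
  set Y : ℝ := (∑ e ∈ E, yy i E e ^ 2) / mm n i with hY
  have hY0 : 0 ≤ Y := div_nonneg (sum_nonneg fun e _ => sq_nonneg _) hm.le
  have hY1 : Y ≤ P.y i ^ 2 := by
    rw [hY, div_le_iff₀ hm, ← h.card, mul_comm, ← nsmul_eq_mul]
    exact sum_le_card_nsmul _ _ _ fun e he => sq_le_sq' (abs_le.1 (h.yb e he)).1
      (abs_le.1 (h.yb e he)).2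
  have hs : ∑ e ∈ E, mu n i * (1 + yy i E e) = mm n i * mu n i * (1 + gg i E) := by
    rw [← h.q_eq, ← Codeg.sum_deg]
    exact sum_congr rfl fun e _ => h.deg_eq.symm
  have hE : avgG E (yy i E) - gg i E = (Y - gg i E ^ 2) / (1 + gg i E) := by
    rw [avgG_eq, h.q_eq]
    have : ∑ e ∈ E, ((triAt E e).card : ℝ) * yy i E e =
        (∑ e ∈ E, mu n i * (1 + yy i E e)) - mu n i * E.card + mu n i * (mm n i * Y) := by
      rw [show mm n i * Y = ∑ e ∈ E, yy i E e ^ 2 by rw [hY]; field_simp, mul_sum,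
        show mu n i * (E.card : ℝ) = ∑ _e ∈ E, mu n i by rw [sum_const, nsmul_eq_mul, mul_comm],
        ← sum_sub_distrib, ← sum_add_distrib]
      exact sum_congr rfl fun e _ => by rw [h.deg_eq]; ring
    rw [this, hs, h.card]
    field_simp
    ring
  have hg2 : gg i E ^ 2 ≤ P.y i ^ 2 :=
    sq_le_sq' (abs_le.1 h.abs_gg_le).1 (abs_le.1 h.abs_gg_le).2
  rw [hE, abs_div, abs_of_pos (by linarith : 0 < 1 + gg i E), div_le_iff₀ (by linarith), abs_le]
  constructor <;> nlinarith [sq_nonneg (gg i E), sq_nonneg (P.y i)]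

lemma Sz.g_sub_zz (h : Sz P i E) (hg : Good P i E) {f : Finset (Fin n)} (hf : f ∈ E) :
    |gg i E - zz i E f| ≤ P.z i + 3 * P.y i ^ 2 := by
  obtain ⟨h0, h1⟩ := abs_le.1 (hg.z f hf)
  obtain ⟨h2, h3⟩ := abs_le.1 (avgG_yy_near h)
  simp only [zc] at h0 h1
  rw [abs_le]
  constructor <;> linarith

/-- The drift of the codegree deviation. -/
theorem driftY : Spec.DriftY := by
  refine ⟨400, by norm_num, fun n i P E hs hg e he => ?_⟩
  have h := sz hs hg
  have hmu := h.mu_pos
  have hgl := h.gg_lo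
  have hk := inc_yy_near h he
  obtain ⟨hy0, hy1⟩ := abs_le.1 (h.yb e he)
  have hu0 : 0 ≤ 1 / mu n i := by positivity
  have hA : |2 * (1 + yy i E e) * (gg i E - zz i E e + 1 / mu n i) / (1 + gg i E)| ≤
      3 * (P.z i + 3 * P.y i ^ 2 + 1 / mu n i) := by
    have hS : |gg i E - zz i E e + 1 / mu n i| ≤ P.z i + 3 * P.y i ^ 2 + 1 / mu n i := by
      refine (abs_add_le _ _).trans ?_
      rw [abs_of_nonneg hu0]
      linarith [h.g_sub_zz hg he]
    rw [abs_div, abs_mul, abs_of_pos (by linarith : 0 < 1 + gg i E), div_le_iff₀ (by linarith),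
      abs_of_nonneg (by linarith [h.y1] : (0 : ℝ) ≤ 2 * (1 + yy i E e))]
    nlinarith [abs_nonneg (gg i E - zz i E e + 1 / mu n i), h.y1]
  have h60 : 60 / mm n i ≤ 60 * (1 / mu n i) := by
    rw [div_eq_mul_one_div]
    exact mul_le_mul_of_nonneg_left h.inv_mm_mu (by norm_num)
  have htri := abs_add_le
    (inc {e} (fun k F => yy k F e) i E -
      2 * (1 + yy i E e) * (gg i E - zz i E e + 1 / mu n i) / (1 + gg i E))
    (2 * (1 + yy i E e) * (gg i E - zz i E e + 1 / mu n i) / (1 + gg i E))
  rw [sub_add_cancel] at htri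
  nlinarith [hs.z0, sq_nonneg (P.y i)]

/-- The noise of the codegree deviation. -/
theorem noiseY : Spec.NoiseY := by
  refine ⟨500, by norm_num, fun n i P E hs hg e he => ?_⟩
  have h := sz hs hg
  have hmu := h.mu_pos
  have hQ := h.q_pos
  have hm : 0 < mm n i := by linarith [h.m100]
  have hj : ∀ t ∈ triangles E, e ∉ sides t → |dY i E e t| ≤ 14 / mu n i := by
    intro t ht het
    refine (h.abs_dY_le he t).trans ?_
    have h1 : 8 / mm n i ≤ 8 / mu n i :=
      div_le_div_of_nonneg_left (by norm_num) hmu h.mu_le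
    have h2 : 2 * (Codeg.loss E e t : ℝ) / mu n i ≤ 6 / mu n i := by
      refine div_le_div_of_nonneg_right ?_ hmu.le
      have : (Codeg.loss E e t : ℝ) ≤ 3 := by exact_mod_cast Codeg.loss_le_three ht het
      linarith
    rw [show (14 : ℝ) = 8 + 6 by norm_num, add_div]
    linarith
  refine ⟨?_, fun t ht hR => ?_⟩
  · have hsum : ∀ t ∈ (triangles E).filter (fun t => e ∉ sides t), dY i E e t ^ 2 ≤
        14 / mu n i * (8 / mm n i) + 14 / mu n i * (2 / mu n i) * (Codeg.loss E e t : ℝ) := by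
      intro t ht
      obtain ⟨ht1, ht2⟩ := mem_filter.1 ht
      rw [← sq_abs, pow_two]
      calc |dY i E e t| * |dY i E e t|
          ≤ 14 / mu n i * (8 / mm n i + 2 * (Codeg.loss E e t : ℝ) / mu n i) :=
            mul_le_mul (hj t ht1 ht2) (h.abs_dY_le he t) (abs_nonneg _) (by positivity)
        _ = _ := by ring
    have hL : ∑ t ∈ (triangles E).filter (fun t => e ∉ sides t), (Codeg.loss E e t : ℝ) ≤
        5 * mu n i ^ 2 := by
      rw [Codeg.sum_loss]
      refine (sum_le_card_nsmul _ _ (3 * mu n i) fun u hu => ?_).trans ?_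
      · obtain ⟨hu1, hu2⟩ := mem_filter.1 hu
        refine (sum_le_card_nsmul _ _ ((3 / 2) * mu n i) fun g hg' => ?_).trans ?_
        · have hd := h.deg_le ((mem_filter.1 hu1).2 (mem_erase.1 hg').2)
          simp only [triAt] at hd
          simp only [deg]
          nlinarith [h.y1]
        · rw [card_erase_sides hu1 hu2, nsmul_eq_mul]; push_cast; linarith
      · rw [nsmul_eq_mul]
        have hd := h.deg_le he
        simp only [triAt] at hd
        simp only [Codeg.star]
        nlinarith [h.y1]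
    have hval : sq {e} (fun k F => yy k F e) i E =
        rate i E * ∑ t ∈ (triangles E).filter (fun t => e ∉ sides t), dY i E e t ^ 2 := by
      rw [Flags.sq, avg, if_neg h.tri_ne, rate, sum_filter, div_mul_eq_mul_div (mm n i / 3),
        mul_div_assoc]
      congr 2
      refine sum_congr rfl fun t _ => ?_
      simp only [singleton_subset_iff, mem_sdiff, he, true_and, dY]
    have hc : (((triangles E).filter fun t => e ∉ sides t).card : ℝ) ≤ (triangles E).card := by
      exact_mod_cast card_filter_le _ _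
    have hbig : rate i E * ∑ t ∈ (triangles E).filter (fun t => e ∉ sides t), dY i E e t ^ 2 ≤
        400 / mu n i := by
      have h1 := sum_le_sum hsum
      rw [sum_add_distrib, sum_const, nsmul_eq_mul, ← mul_sum] at h1
      have hA : 0 ≤ 14 / mu n i * (8 / mm n i) := by positivity
      have hB : 0 ≤ 14 / mu n i * (2 / mu n i) := by positivity
      have h2 := h1.trans (add_le_add (mul_le_mul_of_nonneg_right hc hA)
        (mul_le_mul_of_nonneg_left hL hB))
      refine (mul_le_mul_of_nonneg_left h2 h.rate_nonneg).trans ?_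
      have e1 : rate i E * ((triangles E).card * (14 / mu n i * (8 / mm n i))) =
          112 / (3 * mu n i) := by
        rw [rate]; field_simp; ring
      rw [mul_add, e1]
      have e2 : rate i E * (14 / mu n i * (2 / mu n i) * (5 * mu n i ^ 2)) ≤
          2 / mu n i * 140 := by
        rw [show 14 / mu n i * (2 / mu n i) * (5 * mu n i ^ 2) = 140 by field_simp; ring]
        exact mul_le_mul_of_nonneg_right h.rate_le (by norm_num)
      refine (add_le_add le_rfl e2).trans ?_
      rw [div_mul_eq_mul_div, show 112 / (3 * mu n i) = (112 / 3) / mu n i by rw [div_div],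
        ← add_div]
      exact div_le_div_of_nonneg_right (by norm_num) hmu.le
    rw [hval]
    refine hbig.trans ?_
    rw [qY]
    have h0 : 0 ≤ P.tau i / mu n i ^ 2 := div_nonneg (by linarith [hs.tau1]) (sq_nonneg _)
    have h1 : (0 : ℝ) ≤ 1 / mu n i := by positivity
    rw [show 400 / mu n i = 400 * (1 / mu n i) by ring]
    nlinarith
  · refine (hj t ht (mem_sdiff.1 (singleton_subset_iff.1 hR)).2).trans ?_
    rw [jY, mul_one_div]
    exact div_le_div_of_nonneg_right (by norm_num) hmu.le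

end Vale.Agent.P046.Flags.DriftYZ
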