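import Vale.Agent.P046.Flags.DriftZEdge

/-!
The drift of the global mean, and the linear drift of the centred first averaged deviation.
-/

namespace Vale.Agent.P046.Flags.DriftYZ

open Finset Chain

variable {n i : ℕ} {P : Env} {E : St n}

/-- The triangles lost when `t` is removed. -/
def lostG (E : St n) (t : Finset (Fin n)) : St n :=
  (triangles E).filter fun u => ¬ Disjoint (sides u) (sides t)

/-- The mean deviation over the sides of a triangle. -/
noncomputable def zG (k : ℕ) (F : St n) (u : Finset (Fin n)) : ℝ := (∑ g ∈ sides u, yy k F g) / 3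

lemma abs_zG_le (h : Sz P i E) {u : Finset (Fin n)} (hu : u ∈ triangles E) :
    |zG i E u| ≤ P.y i := by
  rw [zG, abs_div, show |(3 : ℝ)| = 3 by norm_num, div_le_iff₀ (by norm_num : (0 : ℝ) < 3)]
  refine (abs_sum_le_sum_abs _ _).trans ((sum_le_card_nsmul _ _ (P.y i) fun g hg =>
    h.yb g ((mem_filter.1 hu).2 hg)).trans ?_)
  rw [card_sides hu, nsmul_eq_mul]; push_cast; linarith

lemma abs_gbar_le (h : Sz P i E) : |avgG E (yy i E)| ≤ P.y i :=
  abs_mean_le h.y0 fun _ hu => abs_zG_le h hu

lemma q_ge (h : Sz P i E) : 33 / 100 * (mm n i * mu n i) ≤ ((triangles E).card : ℝ) := by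
  have := h.q_eq
  have := mul_le_mul_of_nonneg_left h.gg_lo
    (mul_nonneg (by linarith [h.m100] : (0 : ℝ) ≤ mm n i) h.mu_pos.le)
  linarith

lemma lostG_card_le (h : Sz P i E) {t : Finset (Fin n)} (ht : t ∈ triangles E) :
    ((lostG E t).card : ℝ) ≤ 4 * mu n i := by
  refine (FlagDrift.hit_upper E (sides t)).trans ((sum_le_card_nsmul _ _ (101 / 100 * mu n i)
    fun g hg => ?_).trans ?_)
  · have hd := h.deg_le ((mem_filter.1 ht).2 hg)
    simp only [triAt] at hd
    simp only [deg]
    nlinarith [h.y1, h.mu_pos]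
  · rw [card_sides ht, nsmul_eq_mul]; push_cast; linarith [h.mu_pos]

lemma lostG_half (h : Sz P i E) {t : Finset (Fin n)} (ht : t ∈ triangles E) :
    2 * ((lostG E t).card : ℝ) ≤ (triangles E).card ∧
      ((lostG E t).card : ℝ) < (triangles E).card := by
  have h1 := lostG_card_le h ht
  have h2 := q_ge h
  have h3 := mul_le_mul_of_nonneg_right h.m100 h.mu_pos.le
  have := h.mu100
  constructor <;> linarith

lemma sum_loss_all (E : St n) {t : Finset (Fin n)} :
    ∑ g ∈ E \ sides t, (Codeg.loss E g t : ℝ) ≤ 3 * ((lostG E t).card : ℝ) := by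
  have h1 : ∑ g ∈ E, Codeg.loss E g t = ∑ w ∈ lostG E t, (E.filter fun g => g ∈ sides w).card := by
    simp only [Codeg.loss, Codeg.star, lostG, filter_comm (fun u => _ ∈ sides u), card_filter,
      sum_filter]
    rw [sum_comm]
    refine sum_congr rfl fun w _ => ?_
    split_ifs <;> simp
  have h2 : ∑ g ∈ E \ sides t, Codeg.loss E g t ≤ 3 * (lostG E t).card := by
    refine (sum_le_sum_of_subset sdiff_subset).trans (h1.le.trans ?_)
    refine (sum_le_card_nsmul _ _ 3 fun w hw => ?_).trans (by rw [smul_eq_mul, mul_comm])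
    exact le_of_le_of_eq (card_le_card fun g hg => (mem_filter.1 hg).2)
      (card_sides (mem_filter.1 hw).1)
  exact_mod_cast h2

/-- The numerator of the change of the global mean. -/
lemma num_glob (h : Sz P i E) {t : Finset (Fin n)} (ht : t ∈ triangles E) :
    (∑ u ∈ triangles E \ lostG E t, |zG (i + 1) (E \ sides t) u - zG i E u|) +
      ((lostG E t).card : ℝ) * (2 * P.y i) ≤ 23 * mu n i := by
  have hmu := h.mu_pos
  have hm : 0 < mm n i := by linarith [h.m100]
  rw [show triangles E \ lostG E t = triangles (E \ sides t) from (triangles_sdiff' E t).symm]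
  have h1 : ∀ u ∈ triangles (E \ sides t), |zG (i + 1) (E \ sides t) u - zG i E u| ≤
      ∑ g ∈ sides u, |dY i E g t| / 3 := by
    intro u _
    rw [← sum_div, zG, zG, ← sub_div, ← sum_sub_distrib, abs_div, show |(3 : ℝ)| = 3 by norm_num]
    exact div_le_div_of_nonneg_right (abs_sum_le_sum_abs _ _) (by norm_num)
  have h2 : ∑ u ∈ triangles (E \ sides t), ∑ g ∈ sides u, |dY i E g t| / 3 ≤
      2 * mu n i / 3 * ∑ g ∈ E \ sides t, |dY i E g t| := by
    rw [sum_incidence (E \ sides t) (fun g _ => |dY i E g t| / 3), mul_sum]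
    refine sum_le_sum fun g hg => ?_
    rw [sum_const, nsmul_eq_mul, div_mul_eq_mul_div, mul_div_assoc']
    refine div_le_div_of_nonneg_right (mul_le_mul_of_nonneg_right ?_ (abs_nonneg _)) (by norm_num)
    have hd := h.deg_le (mem_sdiff.1 hg).1
    rw [triAt_sdiff]
    refine le_trans (by exact_mod_cast card_le_card sdiff_subset) (hd.trans ?_)
    nlinarith [h.y1]
  have h3 : ∑ g ∈ E \ sides t, |dY i E g t| ≤ 32 := by
    refine (sum_le_sum fun g hg => h.abs_dY_le (mem_sdiff.1 hg).1 t).trans ?_
    rw [sum_add_distrib, sum_const, nsmul_eq_mul, ← sum_div, ← mul_sum]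
    have ha : ((E \ sides t).card : ℝ) * (8 / mm n i) ≤ 8 := by
      have : ((E \ sides t).card : ℝ) ≤ mm n i := by
        rw [← h.card]; exact_mod_cast card_le_card sdiff_subset
      refine (mul_le_mul_of_nonneg_right this (by positivity)).trans_eq ?_
      field_simp
    have hb : 2 * (∑ g ∈ E \ sides t, (Codeg.loss E g t : ℝ)) / mu n i ≤ 24 := by
      rw [div_le_iff₀ hmu]
      linarith [lostG_card_le h ht, sum_loss_all E (t := t)]
    linarith
  have h4 : ((lostG E t).card : ℝ) * (2 * P.y i) ≤ 4 * mu n i * (2 / 100) :=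
    mul_le_mul (lostG_card_le h ht) (by linarith [h.y1]) (by linarith [h.y0]) (by linarith)
  have h5 := mul_le_mul_of_nonneg_left h3 (show 0 ≤ 2 * mu n i / 3 by linarith)
  linarith [(sum_le_sum h1).trans h2]

/-- The global mean after one step. -/
lemma avgG_succ (i : ℕ) (E : St n) (t : Finset (Fin n)) :
    avgG (E \ sides t) (yy (i + 1) (E \ sides t)) =
      FlagDrift.mean (triangles E \ lostG E t) (zG (i + 1) (E \ sides t)) := by
  rw [show triangles E \ lostG E t = triangles (E \ sides t) from (triangles_sdiff' E t).symm]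
  rfl

/-- One step changes the global mean by `O(1/m)`. -/
lemma jump_glob (h : Sz P i E) {t : Finset (Fin n)} (ht : t ∈ triangles E) :
    |avgG (E \ sides t) (yy (i + 1) (E \ sides t)) - avgG E (yy i E)| ≤ 150 / mm n i := by
  have hmu := h.mu_pos
  have hm : 0 < mm n i := by linarith [h.m100]
  have hq := q_ge h
  have hh := lostG_half h ht
  rw [avgG_succ, show avgG E (yy i E) = FlagDrift.mean (triangles E) (zG i E) from rfl,
    FlagDrift.mean_change (triangles E) (lostG E) (zG i E)
      (fun t => zG (i + 1) (E \ sides t)) t (filter_subset _ _) (by exact_mod_cast hh.2)]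
  have hn := FlagDrift.abs_num_le (triangles E) (lostG E) (zG i E)
    (fun t => zG (i + 1) (E \ sides t)) t (B := 2 * P.y i) fun u hu => by
      have h2 := abs_gbar_le h
      refine (abs_sub _ _).trans ?_
      have h1 := abs_zG_le h (mem_filter.1 hu).1
      change |zG i E u| + |avgG E (yy i E)| ≤ _
      linarith
  have hnum := hn.trans (num_glob h ht)
  have hpos : 0 < ((triangles E).card : ℝ) - (lostG E t).card := by linarith [hh.2]
  rw [abs_div, abs_of_pos hpos, div_le_div_iff₀ hpos hm]
  refine (mul_le_mul_of_nonneg_right hnum hm.le).trans ?_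
  nlinarith [hh.1, mul_pos hm hmu]

/-- The drift of the global mean. -/
theorem inc_avgG_near (hs : Small n P i) (hg : Good P i E) :
    |inc ∅ (fun k F => avgG F (yy k F)) i E -
      (2 * (gg i E - avgG E (yy i E) + 1 / mu n i) + 2 / mu n i - vG i E +
        2 * avgG E (yy i E) ^ 2) / (1 + gg i E)| ≤ 6000 * err0 P n i := by
  have h := sz hs hg
  have hmu := h.mu_pos
  have hgl := h.gg_lo
  have hQ := h.q_pos
  have hP0 := h.y0
  set A := triangles E with hAdef
  set z := zG i E with hz
  set z' := fun t => zG (i + 1) (E \ sides t) with hz'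
  have hA : A.Nonempty := nonempty_iff_ne_empty.2 h.tri_ne
  have hlt : ∀ t ∈ A, (lostG E t).card < A.card := fun t ht => by
    exact_mod_cast (lostG_half h ht).2
  have hinc : inc ∅ (fun k F => avgG F (yy k F)) i E = rate i E *
      ∑ t ∈ A, (FlagDrift.mean (A \ lostG E t) (z' t) - FlagDrift.mean A z) := by
    rw [h.inc_eq (empty_subset _)]
    congr 1
    refine sum_congr (by ext t; simp [FlagDrift.steps, hAdef]) fun t _ => ?_
    rw [avgG_succ]
    rfl
  have hid := FlagDrift.sum_mean_change A A (lostG E) z z' hA (fun t _ => filter_subset _ _) hlt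
  have hmain : rate i E * ((∑ a ∈ A, ∑ t ∈ A.filter (fun t => a ∉ lostG E t), (z' t a - z a)) /
      A.card) = FlagDrift.mean A fun a => (∑ g ∈ sides a, rate i E *
        ∑ t ∈ (triangles E).filter (fun t => Disjoint (sides a) (sides t)), dY i E g t) / 3 := by
    rw [FlagDrift.mean, mul_div_assoc', mul_sum]
    congr 1
    refine sum_congr rfl fun a ha => ?_
    have hset : A.filter (fun t => a ∉ lostG E t) =
        (triangles E).filter (fun t => Disjoint (sides a) (sides t)) := by
      refine filter_congr fun t _ => ?_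
      simp only [lostG, mem_filter, ← hAdef, ha, true_and, not_not]
    rw [hset, ← mul_sum, sum_comm (s := sides a), mul_div_assoc, sum_div]
    refine congrArg _ (sum_congr rfl fun t _ => ?_)
    simp only [hz, hz', zG, dY, sum_sub_distrib]
    ring
  have hhit : ∀ a ∈ A,
      (FlagDrift.hits A (lostG E) a : ℝ) = 3 * mu n i * z a + (3 * mu n i - 2) := by
    intro a ha
    have hset : A.filter (fun t => a ∈ lostG E t) =
        (triangles E).filter (fun t => ¬ Disjoint (sides t) (sides a)) := by
      refine filter_congr fun t _ => ?_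
      simp only [lostG, mem_filter, ← hAdef, ha, true_and, disjoint_comm (a := sides a)]
    have hcount : (((triangles E).filter fun t => ¬ Disjoint (sides t) (sides a)).card : ℝ) =
        (∑ g ∈ sides a, (deg E g : ℝ)) - 2 := by
      have h1 := Codeg.card_triangles_sdiff (E := E) (t := a) ha
      rw [triangles_sdiff] at h1
      have h2 : ((((triangles E).filter fun t => Disjoint (sides t) (sides a)).card : ℝ)) +
          ((triangles E).filter fun t => ¬ Disjoint (sides t) (sides a)).card =
            (triangles E).card := by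
        exact_mod_cast card_filter_add_card_filter_not _
      linarith
    have hdeg : ∀ g ∈ sides a, (deg E g : ℝ) = mu n i + mu n i * yy i E g := fun g _ => by
      have := h.deg_eq (e := g)
      simp only [deg, triAt] at this ⊢
      rw [this]; ring
    rw [FlagDrift.hits, hset, hcount, sum_congr rfl hdeg, sum_add_distrib, sum_const,
      card_sides ha, nsmul_eq_mul, ← mul_sum, hz, zG]
    push_cast; ring
  set θ := avgG E (fun g => yy i E g * zz i E g) - avgG E (yy i E) ^ 2 with hθ
  have hθb : |θ| ≤ P.y i * P.z i := by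
    have e : θ = (∑ g ∈ E, ((triAt E g).card : ℝ) * (yy i E g * zc i E g)) /
        (3 * (triangles E).card) := by
      have hb := avgG_eq (E := E) (yy i E)
      rw [hθ, avgG_eq (E := E) (fun g => yy i E g * zz i E g), pow_two]
      nth_rewrite 1 [hb]
      rw [div_mul_eq_mul_div, ← sub_div, sum_mul, ← sum_sub_distrib]
      congr 1
      refine sum_congr rfl fun g _ => ?_
      simp only [zc]; ring
    rw [e, abs_div, abs_of_pos (by linarith : (0 : ℝ) < 3 * (triangles E).card),
      div_le_iff₀ (by linarith)]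
    refine (abs_sum_le_sum_abs _ _).trans ((sum_le_sum (g := fun g =>
      ((triAt E g).card : ℝ) * (P.y i * P.z i)) fun g hgE => ?_).trans_eq ?_)
    · rw [abs_mul, abs_mul, Nat.abs_cast]
      exact mul_le_mul_of_nonneg_left (mul_le_mul (h.yb g hgE) (hg.z g hgE) (abs_nonneg _) hP0)
        (Nat.cast_nonneg _)
    · rw [← sum_mul, mul_comm]
      congr 1
      exact Codeg.sum_deg E
  have hcov : rate i E * ((∑ a ∈ A, ((FlagDrift.hits A (lostG E) a : ℝ) -
      FlagDrift.mean A (fun b => (FlagDrift.hits A (lostG E) b : ℝ))) *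
        (z a - FlagDrift.mean A z)) / A.card) =
      (vG i E - 2 * avgG E (yy i E) ^ 2 + θ) / (1 + gg i E) := by
    rw [cov_linear hA z (fun a => (FlagDrift.hits A (lostG E) a : ℝ)) _ _ hhit, h.rate_eq]
    have hv : 3 * FlagDrift.mean A (fun a => z a ^ 2) =
        vG i E + avgG E (fun g => yy i E g * zz i E g) := by
      have hpt : ∀ a ∈ A, 3 * z a ^ 2 = (∑ g ∈ sides a, phi i E g a) / 3 +
          (∑ g ∈ sides a, yy i E g * ∑ k ∈ (sides a).erase g, yy i E k) / 6 := by
        intro a ha
        have hrest : ∀ g ∈ sides a, ∑ k ∈ (sides a).erase g, yy i E k =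
            3 * z a - yy i E g := fun g hg' => by
          rw [sum_erase_eq_sub hg', hz, zG]; ring
        have h1 : ∑ g ∈ sides a, phi i E g a = ∑ g ∈ sides a,
            ((3 * z a) ^ 2 / 2 - (3 * z a) * yy i E g + yy i E g ^ 2 / 2) :=
          sum_congr rfl fun g hg' => by rw [phi, hrest g hg']; ring
        have h2 : ∑ g ∈ sides a, yy i E g * ∑ k ∈ (sides a).erase g, yy i E k =
            ∑ g ∈ sides a, ((3 * z a) * yy i E g - yy i E g ^ 2) :=
          sum_congr rfl fun g hg' => by rw [hrest g hg']; ring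
        rw [h1, h2]
        simp only [sum_add_distrib, sum_sub_distrib, sum_const, card_sides ha, nsmul_eq_mul,
          ← mul_sum, ← sum_div]
        rw [show ∑ g ∈ sides a, yy i E g = 3 * z a by rw [hz, zG]; ring]
        push_cast; ring
      have hsw : ∑ a ∈ A, ∑ g ∈ sides a, yy i E g * ∑ k ∈ (sides a).erase g, yy i E k =
          2 * ∑ g ∈ E, ((triAt E g).card : ℝ) * (yy i E g * zz i E g) := by
        rw [hAdef, sum_incidence E (fun g a => yy i E g * ∑ k ∈ (sides a).erase g, yy i E k),
          mul_sum]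
        refine sum_congr rfl fun g _ => ?_
        rw [← mul_sum, sum_star]; ring
      rw [avgG_eq, vG, FlagDrift.mean, FlagDrift.mean, mul_div_assoc', mul_sum, sum_congr rfl hpt,
        sum_add_distrib, ← sum_div (s := A) (f := fun a => ∑ g ∈ sides a, yy i E g *
          ∑ k ∈ (sides a).erase g, yy i E k), hsw, ← hAdef]
      field_simp
      ring
    have hgb : FlagDrift.mean A z = avgG E (yy i E) := rfl
    rw [hgb, hθ]
    field_simp
    linear_combination hv
  set lin := fun g => (2 * (gg i E - zz i E g + 1 / mu n i) + 2 / mu n i) / (1 + gg i E) with hlin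
  have he0 : 0 ≤ err0 P n i := by
    rw [err0]
    have := hs.z0; have := hs.tau1
    positivity
  have hmean : |FlagDrift.mean A (fun a => (∑ g ∈ sides a, rate i E *
        ∑ t ∈ (triangles E).filter (fun t => Disjoint (sides a) (sides t)), dY i E g t) / 3) -
      (2 * (gg i E - avgG E (yy i E) + 1 / mu n i) + 2 / mu n i) / (1 + gg i E)| ≤
      500 * err0 P n i := by
    have hD : (A.card : ℝ) ≠ 0 := by exact_mod_cast hA.card_pos.ne'
    have hw : (2 * (gg i E - avgG E (yy i E) + 1 / mu n i) + 2 / mu n i) / (1 + gg i E) =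
        FlagDrift.mean A fun a => (∑ g ∈ sides a, lin g) / 3 := by
      have hs2 : ∀ a ∈ A, (∑ g ∈ sides a, lin g) / 3 =
          ((2 * gg i E + 4 / mu n i) - 2 * ((∑ g ∈ sides a, zz i E g) / 3)) /
            (1 + gg i E) := by
        intro a ha
        simp only [hlin, ← sum_div, sum_add_distrib, ← mul_sum, sum_sub_distrib, sum_const,
          card_sides ha, nsmul_eq_mul]
        push_cast
        ring
      rw [mean_congr hs2, show avgG E (yy i E) = FlagDrift.mean A
        (fun a => (∑ g ∈ sides a, zz i E g) / 3) from (avgG_avgE E (yy i E)).symm]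
      simp only [FlagDrift.mean, ← sum_div, sum_sub_distrib, sum_const, nsmul_eq_mul, ← mul_sum]
      field_simp
      ring
    rw [hw]
    simp only [FlagDrift.mean, ← sub_div, ← sum_sub_distrib]
    refine abs_mean_le (z := fun a => (∑ g ∈ sides a, (rate i E *
        ∑ t ∈ (triangles E).filter (fun t => Disjoint (sides a) (sides t)), dY i E g t -
          lin g)) / 3) (mul_nonneg (by norm_num) he0) fun a ha => ?_
    rw [abs_div, show |(3 : ℝ)| = 3 by norm_num, div_le_iff₀ (by norm_num : (0 : ℝ) < 3)]
    refine (abs_sum_le_sum_abs _ _).trans ((sum_le_card_nsmul _ _ _ fun g hg' =>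
      flag_near hs hg ha hg').trans ?_)
    rw [card_sides ha, nsmul_eq_mul]
    push_cast
    linarith
  have hcr : rate i E * |FlagDrift.cross A A (lostG E) z z'| ≤ 1200 / mm n i := by
    have hm : 0 < mm n i := by linarith [h.m100]
    refine (mul_le_mul_of_nonneg_left (FlagDrift.abs_cross_le _ _ _ _ _ (B := 2 * P.y i) hA
      (fun u hu => ?_) (fun t _ => filter_subset _ _) (fun t ht => ?_)) h.rate_nonneg).trans ?_
    · refine (abs_sub _ _).trans ?_
      have h1 := abs_zG_le h hu
      have h2 := abs_gbar_le h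
      change |zG i E u| + |avgG E (yy i E)| ≤ _
      linarith
    · exact_mod_cast (lostG_half h ht).1
    have hterm : ∀ t ∈ A, ((lostG E t).card : ℝ) *
        ((∑ a ∈ A \ lostG E t, |z' t a - z a|) + (lostG E t).card * (2 * P.y i)) ≤
        4 * mu n i * (23 * mu n i) := fun t ht =>
      mul_le_mul (lostG_card_le h ht) (num_glob h ht) (by positivity) (by linarith)
    refine (mul_le_mul_of_nonneg_left (mul_le_mul_of_nonneg_left
      ((sum_le_card_nsmul _ _ _ hterm).trans_eq (nsmul_eq_mul _ _)) (by positivity))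
      h.rate_nonneg).trans ?_
    have e1 : 2 / (A.card : ℝ) ^ 2 * ((A.card : ℝ) * (4 * mu n i * (23 * mu n i))) =
        184 * mu n i ^ 2 / A.card := by
      field_simp
      ring
    rw [e1]
    refine (mul_le_mul_of_nonneg_right h.rate_le (by positivity)).trans ?_
    have e2 : 2 / mu n i * (184 * mu n i ^ 2 / A.card) = 368 * mu n i / A.card := by
      field_simp; ring
    rw [e2, div_le_div_iff₀ (by exact_mod_cast hA.card_pos) hm]
    have := q_ge h
    rw [← hAdef] at this
    nlinarith [mul_pos hm hmu]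
  have hexp : inc ∅ (fun k F => avgG F (yy k F)) i E -
      (2 * (gg i E - avgG E (yy i E) + 1 / mu n i) + 2 / mu n i - vG i E +
        2 * avgG E (yy i E) ^ 2) / (1 + gg i E) =
      (FlagDrift.mean A (fun a => (∑ g ∈ sides a, rate i E *
        ∑ t ∈ (triangles E).filter (fun t => Disjoint (sides a) (sides t)), dY i E g t) / 3) -
      (2 * (gg i E - avgG E (yy i E) + 1 / mu n i) + 2 / mu n i) / (1 + gg i E)) -
      θ / (1 + gg i E) + rate i E * FlagDrift.cross A A (lostG E) z z' := by
    rw [hinc, hid, mul_add, mul_sub, hmain, hcov]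
    ring
  rw [hexp]
  refine (abs_add_le _ _).trans ((add_le_add (abs_sub _ _) le_rfl).trans ?_)
  rw [abs_mul, abs_of_nonneg h.rate_nonneg]
  have hθ2 : |θ / (1 + gg i E)| ≤ 2 * err0 P n i := by
    rw [abs_div, abs_of_pos (by linarith : 0 < 1 + gg i E), div_le_iff₀ (by linarith), err0]
    have := hs.z0; have := hs.tau1
    have p1 : 0 ≤ P.y i * P.y i ^ 2 := mul_nonneg hP0 (sq_nonneg _)
    have p2 : 0 ≤ P.y i * (1 / mu n i) := mul_nonneg hP0 (by positivity)
    have p3 : 0 ≤ P.tau i / mu n i ^ 2 := by positivity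
    have p4 : 0 ≤ P.y i * P.z i := mul_nonneg hP0 hs.z0
    nlinarith
  have := one_div_mm_le_err0 hs hg
  rw [show (1200 : ℝ) / mm n i = 1200 * (1 / mm n i) by ring] at hcr
  linarith

/-- The linear form of the drift of the first averaged deviation. -/
theorem driftZLin : DriftZLin := by
  refine ⟨20000, by norm_num, fun n i P E hs hg e he => ?_⟩
  have h := sz hs hg
  have hmu := h.mu_pos
  have hgl := h.gg_lo
  have hP0 := h.y0
  have hsplit : inc {e} (fun k F => zc k F e) i E = inc {e} (fun k F => zz k F e) i E -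
      inc ∅ (fun k F => avgG F (yy k F)) i E + rate i E * ∑ t ∈ triAt E e,
        (avgG (E \ sides t) (yy (i + 1) (E \ sides t)) - avgG E (yy i E)) := by
    rw [h.inc_eq (singleton_subset_iff.2 he), h.inc_eq (singleton_subset_iff.2 he),
      h.inc_eq (empty_subset _)]
    have h0 : FlagDrift.steps (∅ : St n) E = triangles E := by ext t; simp [FlagDrift.steps]
    rw [h0, ← sum_filter_add_sum_filter_not (triangles E) (fun t => e ∈ sides t),
      steps_singleton, triAt]
    simp only [zc, sum_sub_distrib]
    ring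
  have hrem : |rate i E * ∑ t ∈ triAt E e,
      (avgG (E \ sides t) (yy (i + 1) (E \ sides t)) - avgG E (yy i E))| ≤
      2400 * err0 P n i := by
    rw [abs_mul, abs_of_nonneg h.rate_nonneg]
    have h1 : |∑ t ∈ triAt E e, (avgG (E \ sides t) (yy (i + 1) (E \ sides t)) -
        avgG E (yy i E))| ≤ 2 * mu n i * (150 / mm n i) := by
      refine (abs_sum_le_sum_abs _ _).trans ((sum_le_card_nsmul _ _ _ fun t ht =>
        jump_glob h (mem_filter.1 ht).1).trans ?_)
      rw [nsmul_eq_mul]
      refine mul_le_mul_of_nonneg_right ((h.deg_le he).trans (by nlinarith [h.y1])) ?_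
      exact div_nonneg (by norm_num) (by linarith [h.m100])
    refine (mul_le_mul h.rate_le h1 (abs_nonneg _) (by positivity)).trans ?_
    have := one_div_mm_le_err0 hs hg
    have e : 2 / mu n i * (2 * mu n i * (150 / mm n i)) = 600 * (1 / mm n i) := by
      field_simp; ring
    linarith
  have hE := inc_zz_near hs hg he
  have hG := inc_avgG_near hs hg
  obtain ⟨hz0, hz1⟩ := abs_le.1 (h.abs_zz_le e)
  obtain ⟨hb0, hb1⟩ := abs_le.1 (abs_gbar_le h)
  have hsq : |zz i E e ^ 2 - avgG E (yy i E) ^ 2| ≤ 2 * (P.y i * P.z i) := by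
    rw [show zz i E e ^ 2 - avgG E (yy i E) ^ 2 = zc i E e * (zz i E e + avgG E (yy i E)) by
      simp only [zc]; ring, abs_mul]
    refine (mul_le_mul (hg.z e he) (show |zz i E e + avgG E (yy i E)| ≤ 2 * P.y i by
      rw [abs_le]; constructor <;> linarith) (abs_nonneg _) hs.z0).trans (le_of_eq ?_)
    ring
  have hwG : wc i E e = ww i E e - avgG E (yy i E) := by
    rw [wc, show avgG E (zz i E) = avgG E (yy i E) from avgG_avgE E (yy i E)]
  set M := (-vc i E e + 2 * (zz i E e ^ 2 - avgG E (yy i E) ^ 2)) / (1 + gg i E) with hM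
  have hMb : |M| ≤ 2 * P.v i + 10 * (P.y i * P.z i) := by
    rw [hM, abs_div, abs_of_pos (by linarith : 0 < 1 + gg i E), div_le_iff₀ (by linarith)]
    obtain ⟨v0, v1⟩ := abs_le.1 (hg.v e he)
    obtain ⟨q0, q1⟩ := abs_le.1 hsq
    have := mul_le_mul_of_nonneg_left hgl
      (show 0 ≤ 2 * P.v i + 10 * (P.y i * P.z i) by
        have := hs.v0; have := hs.z0; positivity)
    have := hs.v0
    have := mul_nonneg hP0 hs.z0
    rw [abs_le]
    constructor <;> linarith
  have hkey : inc {e} (fun k F => zc k F e) i E + 2 / (1 + gg i E) * wc i E e =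
      (inc {e} (fun k F => zz k F e) i E -
        (2 * (gg i E - ww i E e + 1 / mu n i) + 2 / mu n i - vv i E e + 2 * zz i E e ^ 2) /
          (1 + gg i E)) -
      (inc ∅ (fun k F => avgG F (yy k F)) i E -
        (2 * (gg i E - avgG E (yy i E) + 1 / mu n i) + 2 / mu n i - vG i E +
          2 * avgG E (yy i E) ^ 2) / (1 + gg i E)) +
      rate i E * (∑ t ∈ triAt E e,
        (avgG (E \ sides t) (yy (i + 1) (E \ sides t)) - avgG E (yy i E))) + M := by
    rw [hsplit, hM, hwG, vc]
    field_simp
    ring
  rw [hkey]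
  refine (abs_add_le _ _).trans ((add_le_add ((abs_add_le _ _).trans (add_le_add ((abs_sub _ _).trans
    (add_le_add hE hG)) hrem)) hMb).trans ?_)
  have herr : err0 P n i ≤ err P n i := by
    rw [err0, err]
    have := hs.w0; have := hs.kap1; have := h.mu_pos
    have : 0 ≤ P.kap i / mu n i ^ 3 := by positivity
    have := sq_nonneg (P.z i)
    have := mul_nonneg hP0 hs.w0
    linarith
  have hyz : P.y i * P.z i ≤ err0 P n i := by
    rw [err0]
    have := hs.tau1
    have : 0 ≤ P.tau i / mu n i ^ 2 := by positivity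
    have := mul_nonneg hP0 (sq_nonneg (P.y i))
    have : 0 ≤ P.y i * (1 / mu n i) := by positivity
    linarith
  linarith [hs.v0, mul_nonneg hP0 hs.z0]

/-- The drift of the first averaged deviation. -/
theorem driftZ : Spec.DriftZ := by
  obtain ⟨C, hC, hlin⟩ := driftZLin
  refine ⟨C + 3, by linarith, fun n i P E hs hg e he => ?_⟩
  have h := sz hs hg
  have hgl := h.gg_lo
  obtain ⟨a0, a1⟩ := abs_le.1 (hlin n i P E hs hg e he)
  have hb : |2 / (1 + gg i E) * wc i E e| ≤ 3 * P.w i := by
    rw [abs_mul]
    refine mul_le_mul ?_ (hg.w e he) (abs_nonneg _) (by norm_num)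
    rw [abs_div, abs_two, abs_of_pos (by linarith : 0 < 1 + gg i E), div_le_iff₀ (by linarith)]
    linarith
  obtain ⟨b0, b1⟩ := abs_le.1 hb
  have herr : 0 ≤ err P n i := by
    rw [err]
    have := hs.z0; have := hs.w0; have := hs.tau1; have := hs.kap1
    have := h.y0; have := h.mu_pos
    positivity
  have hw := hs.w0
  have hv := hs.v0
  rw [abs_le]
  constructor <;> nlinarith

end Vale.Agent.P046.Flags.DriftYZ
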