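import Vale.Agent.P046.Flags.DriftY

/-!
One flag in the drift of an average: the steps removing another side of its triangle, and the
joint loss of all flags at an edge in one step.
-/

namespace Vale.Agent.P046.Flags.DriftYZ

open Finset Chain

variable {n i : ℕ} {P : Env} {E : St n}

/-- The error controlled by the bounds on `y`, `z` and the triple codegrees. -/
noncomputable def err0 (P : Env) (n i : ℕ) : ℝ :=
  P.y i * (P.z i + P.y i ^ 2 + 1 / mu n i) + P.tau i / mu n i ^ 2

/-- The vertices joined to all vertices of `u`. -/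
def common (E : St n) (u : Finset (Fin n)) : Finset (Fin n) :=
  univ.filter fun c => ∀ x ∈ u, ({x, c} : Finset (Fin n)) ∈ E

/-- The triangles meeting `u` and avoiding `f`. -/
def near (E : St n) (u f : Finset (Fin n)) : St n :=
  (triangles E).filter fun t => f ∉ sides t ∧ ¬ Disjoint (sides u) (sides t)

lemma pair_mem {w : Finset (Fin n)} (hw : w ∈ triangles E) {x y : Fin n} (hx : x ∈ w) (hy : y ∈ w)
    (hne : x ≠ y) : ({x, y} : Finset (Fin n)) ∈ E :=
  (mem_filter.1 hw).2 (mem_powersetCard.2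
    ⟨insert_subset hx (singleton_subset_iff.2 hy), card_pair hne⟩)

lemma tri_card {w : Finset (Fin n)} (hw : w ∈ triangles E) : w.card = 3 :=
  (mem_powersetCard.1 (mem_filter.1 hw).1).2

lemma eq_of_two_sides {t u h k : Finset (Fin n)} (ht : t ∈ triangles E) (hu : u ∈ triangles E)
    (hne : h ≠ k) (h1 : h ∈ sides t) (h2 : k ∈ sides t) (h3 : h ∈ sides u) (h4 : k ∈ sides u) :
    t = u := by
  by_contra htu
  exact hne (card_le_one.1 (common_sides ht hu htu) h (mem_inter.2 ⟨h1, h3⟩) k
    (mem_inter.2 ⟨h2, h4⟩))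

lemma common_card_le (hg : Good P i E) {u : Finset (Fin n)} (hu : u.card = 3) :
    ((common E u).card : ℝ) ≤ P.tau i := by
  obtain ⟨a, b, d, hab, had, hbd, rfl⟩ := card_eq_three.1 hu
  refine le_trans ?_ (hg.tau a b d hab had hbd)
  exact_mod_cast card_le_card fun c hc => by
    simp only [common, mem_filter, mem_univ, true_and] at hc ⊢
    exact ⟨hc a (by simp), hc b (by simp), hc d (by simp)⟩

lemma near_eq {u f : Finset (Fin n)} (hu : u ∈ triangles E) (hf : f ∈ sides u) :
    near E u f = ((sides u).erase f).biUnion fun h => (triAt E h).erase u := by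
  ext t
  simp only [near, mem_filter, mem_biUnion, mem_erase, triAt]
  constructor
  · rintro ⟨ht, hft, hm⟩
    obtain ⟨h, hhu, hht⟩ := not_disjoint_iff.1 hm
    exact ⟨h, ⟨fun he => hft (he ▸ hht), hhu⟩, fun he => hft (he ▸ hf), ht, hht⟩
  · rintro ⟨h, ⟨hhf, hhu⟩, htu, ht, hht⟩
    exact ⟨ht, fun hft => htu (eq_of_two_sides ht hu hhf hht hft hhu hf),
      not_disjoint_iff.2 ⟨h, hhu, hht⟩⟩

lemma near_disjoint {u : Finset (Fin n)} (hu : u ∈ triangles E) (s : St n) (hs : s ⊆ sides u) :
    (s : Set (Finset (Fin n))).PairwiseDisjoint fun h => (triAt E h).erase u := by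
  intro h hh k hk hne
  simp only [Function.onFun, disjoint_left, mem_erase, triAt, mem_filter]
  rintro t ⟨htu, ht, hht⟩ ⟨-, -, hkt⟩
  exact htu (eq_of_two_sides ht hu hne hht hkt (hs hh) (hs hk))

lemma sum_near {u f : Finset (Fin n)} (hu : u ∈ triangles E) (hf : f ∈ sides u)
    (F : Finset (Fin n) → ℝ) :
    ∑ t ∈ near E u f, F t = ∑ h ∈ (sides u).erase f, ∑ t ∈ (triAt E h).erase u, F t := by
  rw [near_eq hu hf, sum_biUnion (near_disjoint hu _ (erase_subset _ _))]

lemma near_card (h : Sz P i E) {u f : Finset (Fin n)} (hu : u ∈ triangles E) (hf : f ∈ sides u) :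
    ((near E u f).card : ℝ) =
      mu n i * (∑ g ∈ (sides u).erase f, yy i E g) + (2 * mu n i - 2) := by
  have h1 := sum_near hu hf (fun _ => (1 : ℝ))
  simp only [sum_const, nsmul_eq_mul, mul_one] at h1
  rw [h1]
  have h2 : ∀ g ∈ (sides u).erase f, (((triAt E g).erase u).card : ℝ) =
      mu n i * yy i E g + (mu n i - 1) := by
    intro g hg
    have hmem : u ∈ triAt E g := mem_filter.2 ⟨hu, (mem_erase.1 hg).2⟩
    rw [card_erase_of_mem hmem, Nat.cast_sub (card_pos.2 ⟨u, hmem⟩), h.deg_eq]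
    push_cast; ring
  rw [sum_congr rfl h2, sum_add_distrib, ← mul_sum, sum_const, card_erase_sides hu hf,
    nsmul_eq_mul]
  push_cast; ring

/-- A second loss at `f` comes from a vertex joined to all of `u`. -/
lemma two_le_loss {u f h t : Finset (Fin n)} (hu : u ∈ triangles E) (hf : f ∈ sides u)
    (hh : h ∈ (sides u).erase f) (ht : t ∈ (triAt E h).erase u) (h2 : 2 ≤ Codeg.loss E f t) :
    t ∈ (common E u).image fun c => insert c h := by
  obtain ⟨htu, ht'⟩ := mem_erase.1 ht
  obtain ⟨htT, hht⟩ := mem_filter.1 ht'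
  obtain ⟨hhf, hhu⟩ := mem_erase.1 hh
  obtain ⟨w, hw, hwu⟩ := exists_mem_ne (show 1 < ((Codeg.star E f).filter
    fun w => ¬ Disjoint (sides w) (sides t)).card by rw [Codeg.loss] at h2; omega) u
  obtain ⟨hwS, hwm⟩ := mem_filter.1 hw
  obtain ⟨hwT, hfw⟩ := mem_filter.1 hwS
  obtain ⟨k, hkw, hkt⟩ := not_disjoint_iff.1 hwm
  have hkh : k ≠ h := fun e => hwu (eq_of_two_sides hwT hu hhf.symm hfw (e ▸ hkw) hf hhu)
  obtain ⟨hhsub, hhc⟩ := mem_powersetCard.1 hht
  obtain ⟨hksub, hkc⟩ := mem_powersetCard.1 hkt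
  obtain ⟨hhsubu, -⟩ := mem_powersetCard.1 hhu
  obtain ⟨hfsub, hfc⟩ := mem_powersetCard.1 hf
  have htc := tri_card htT
  have huc := tri_card hu
  obtain ⟨c, hc⟩ := card_eq_one.1 (show (t \ h).card = 1 by
    rw [card_sdiff_of_subset hhsub]; omega)
  have hct : c ∈ t ∧ c ∉ h := mem_sdiff.1 (hc ▸ mem_singleton_self c)
  have htins : t = insert c h := by
    rw [← union_sdiff_of_subset hhsub, hc, union_comm, ← insert_eq]
  have hcu : c ∉ u := fun hcu => htu (eq_of_subset_of_card_le
    (htins ▸ insert_subset hcu hhsubu) (by omega))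
  have hck : c ∈ k := by
    by_contra hck
    exact hkh (eq_of_subset_of_card_le (fun x hx => by
      have := hksub hx
      rw [htins, mem_insert] at this
      exact this.resolve_left fun e => hck (e ▸ hx)) (by omega))
  have hcw : c ∈ w := (mem_powersetCard.1 hkw).1 hck
  refine mem_image.2 ⟨c, mem_filter.2 ⟨mem_univ _, fun x hx => ?_⟩, htins.symm⟩
  have hxc : x ≠ c := fun e => hcu (e ▸ hx)
  by_cases hxh : x ∈ h
  · exact pair_mem htT (hhsub hxh) hct.1 hxc
  · have hun : u = f ∪ h := by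
      refine (eq_of_subset_of_card_le (union_subset hfsub hhsubu) ?_).symm
      by_contra hlt
      have e1 : f = f ∪ h := eq_of_subset_of_card_le subset_union_left (by omega)
      have e2 : h = f ∪ h := eq_of_subset_of_card_le subset_union_right (by omega)
      exact hhf (e2.trans e1.symm)
    have hxf : x ∈ f := by
      rw [hun, mem_union] at hx
      exact hx.resolve_right hxh
    exact pair_mem hwT ((mem_powersetCard.1 hfw).1 hxf) hcw hxc

lemma one_le_loss {u f t : Finset (Fin n)} (hu : u ∈ triangles E) (hf : f ∈ sides u)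
    (ht : t ∈ near E u f) : 1 ≤ Codeg.loss E f t :=
  card_pos.2 ⟨u, mem_filter.2 ⟨mem_filter.2 ⟨hu, hf⟩, (mem_filter.1 ht).2.2⟩⟩

/-- The losses at `f` in the steps meeting `u` elsewhere. -/
lemma sum_loss_near (hg : Good P i E) {u f : Finset (Fin n)}
    (hu : u ∈ triangles E) (hf : f ∈ sides u) :
    0 ≤ (∑ t ∈ near E u f, (Codeg.loss E f t : ℝ)) - (near E u f).card ∧
      (∑ t ∈ near E u f, (Codeg.loss E f t : ℝ)) - (near E u f).card ≤ 4 * P.tau i := by
  have hrw : (∑ t ∈ near E u f, (Codeg.loss E f t : ℝ)) - (near E u f).card =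
      ∑ t ∈ near E u f, ((Codeg.loss E f t : ℝ) - 1) := by
    rw [sum_sub_distrib, sum_const, nsmul_eq_mul, mul_one]
  rw [hrw]
  refine ⟨sum_nonneg fun t ht => sub_nonneg.2 (by exact_mod_cast one_le_loss hu hf ht), ?_⟩
  rw [sum_near hu hf]
  refine (sum_le_card_nsmul _ _ (2 * P.tau i) fun h hh => ?_).trans ?_
  · have hterm : ∀ t ∈ (triAt E h).erase u, ((Codeg.loss E f t : ℝ) - 1) ≤
        if t ∈ (common E u).image (fun c => insert c h) then 2 else 0 := by
      intro t ht
      have hne : t ∈ near E u f := by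
        rw [near_eq hu hf]; exact mem_biUnion.2 ⟨h, hh, ht⟩
      obtain ⟨htT, hft, -⟩ := mem_filter.1 hne
      split_ifs with hi
      · have : (Codeg.loss E f t : ℝ) ≤ 3 := by exact_mod_cast Codeg.loss_le_three htT hft
        linarith
      · have h1 : Codeg.loss E f t ≤ 1 := by
          by_contra h1
          exact hi (two_le_loss hu hf hh ht (by omega))
        exact sub_nonpos.2 (by exact_mod_cast h1)
    refine (sum_le_sum hterm).trans ?_
    rw [← sum_filter, sum_const, nsmul_eq_mul, mul_comm]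
    refine mul_le_mul_of_nonneg_left (le_trans ?_ (common_card_le hg (tri_card hu))) zero_le_two
    exact_mod_cast (card_le_card fun t ht => (mem_filter.1 ht).2).trans card_image_le
  · rw [card_erase_sides hu hf, nsmul_eq_mul]
    push_cast
    linarith

/-- The numerical core of `flag_near`. -/
lemma num_bound {m S T r d y Y : ℝ} (hm : 100 ≤ m) (hS0 : -(2 * Y) ≤ S) (hS1 : S ≤ 2 * Y)
    (hY1 : Y ≤ 1 / 100) (hy0 : -Y ≤ y) (hy1 : y ≤ Y) (hd0 : 0 ≤ d) (hd1 : d ≤ 7 / 100)
    (hdu : d ≤ 7 * (1 / m)) (hmd : m * d ≤ 28 * (1 / m)) (hr0 : 0 ≤ r) (hr1 : r ≤ 4 * T)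
    (hT : 1 ≤ T) :
    |2 - (1 + d) * (2 + S - 2 / m + r / m) + (m * S + (2 * m - 2)) * ((1 + y) * d)| ≤
      2 * Y + 120 * T * (1 / m) := by
  have hu0 : 0 ≤ 1 / m := by positivity
  have hu1 : 1 / m ≤ 1 / 100 := one_div_le_one_div_of_le (by norm_num) hm
  have h2u : 2 / m = 2 * (1 / m) := by ring
  have hq0 : 0 ≤ m * S + (2 * m - 2) := by
    have := mul_le_mul_of_nonneg_left hS0 (by linarith : (0 : ℝ) ≤ m)
    have := mul_le_mul_of_nonneg_left hY1 (by linarith : (0 : ℝ) ≤ m)
    linarith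
  have hq1 : m * S + (2 * m - 2) ≤ 5 / 2 * m := by
    have := mul_le_mul_of_nonneg_left hS1 (by linarith : (0 : ℝ) ≤ m)
    have := mul_le_mul_of_nonneg_left hY1 (by linarith : (0 : ℝ) ≤ m)
    linarith
  have e1 : (m * S + (2 * m - 2)) * ((1 + y) * d) ≤ 5 / 2 * m * ((101 / 100) * d) :=
    mul_le_mul hq1 (mul_le_mul_of_nonneg_right (by linarith) hd0)
      (mul_nonneg (by linarith) hd0) (by linarith)
  have e2 : 0 ≤ (m * S + (2 * m - 2)) * ((1 + y) * d) :=
    mul_nonneg hq0 (mul_nonneg (by linarith) hd0)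
  have hrm0 : 0 ≤ r / m := div_nonneg hr0 (by linarith)
  have hrm : r / m ≤ 4 * T * (1 / m) := by
    rw [mul_one_div]; exact div_le_div_of_nonneg_right hr1 (by linarith)
  have e3 : 0 ≤ d * (2 + S - 2 / m) := mul_nonneg hd0 (by linarith)
  have e4 : d * (2 + S - 2 / m) ≤ 7 * (1 / m) * 3 :=
    mul_le_mul hdu (by linarith) (by linarith) (by positivity)
  have e5 : d * (r / m) ≤ r / m := mul_le_of_le_one_left hrm0 (by linarith)
  have e5' : 0 ≤ d * (r / m) := mul_nonneg hd0 hrm0
  have e7 : 1 / m ≤ T * (1 / m) := le_mul_of_one_le_left hu0 hT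
  have e6 : (1 + d) * (2 + S - 2 / m + r / m) =
      2 + S - 2 / m + r / m + d * (2 + S - 2 / m) + d * (r / m) := by ring
  have e8 : 5 / 2 * m * (101 / 100 * d) = 101 / 40 * (m * d) := by ring
  rw [abs_le]
  constructor <;> linarith

/-- The drift of `yy` at `f`, the triangle `u` surviving, against its linear form. -/
theorem flag_near (hs : Small n P i) (hg : Good P i E) {u f : Finset (Fin n)}
    (hu : u ∈ triangles E) (hf : f ∈ sides u) :
    |rate i E * ∑ t ∈ (triangles E).filter (fun t => Disjoint (sides u) (sides t)), dY i E f t -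
      (2 * (gg i E - zz i E f + 1 / mu n i) + 2 / mu n i) / (1 + gg i E)| ≤ 500 * err0 P n i := by
  have h := sz hs hg
  have hmu := h.mu_pos
  have hgl := h.gg_lo
  have hfE : f ∈ E := (mem_filter.1 hu).2 hf
  obtain ⟨hy0, hy1⟩ := abs_le.1 (h.yb f hfE)
  have hP := h.y1
  have hP0 := h.y0
  have htau := hs.tau1
  set S := ∑ g ∈ (sides u).erase f, yy i E g with hS
  have hSb : |S| ≤ 2 * P.y i := by
    refine (abs_sum_le_sum_abs _ _).trans ((sum_le_card_nsmul _ _ (P.y i) fun g hg' => ?_).trans ?_)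
    · exact h.yb g ((mem_filter.1 hu).2 (mem_erase.1 hg').2)
    · rw [card_erase_sides hu hf, nsmul_eq_mul]; norm_num
  obtain ⟨hS0, hS1⟩ := abs_le.1 hSb
  have hsplit : ∑ t ∈ (triangles E).filter (fun t => Disjoint (sides u) (sides t)), dY i E f t +
      ∑ t ∈ near E u f, dY i E f t = ∑ t ∈ FlagDrift.steps {f} E, dY i E f t := by
    rw [steps_singleton, ← sum_filter_add_sum_filter_not ((triangles E).filter fun t => f ∉ sides t)
      (fun t => Disjoint (sides u) (sides t)), filter_filter, filter_filter]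
    congr 1
    refine sum_congr (filter_congr fun t _ => ?_) fun _ _ => rfl
    exact ⟨fun hd => ⟨fun hft => disjoint_left.1 hd hf hft, hd⟩, fun hd => hd.2⟩
  set r := (∑ t ∈ near E u f, (Codeg.loss E f t : ℝ)) - (near E u f).card with hr
  have hnear : ∑ t ∈ near E u f, dY i E f t =
      (near E u f).card * ((1 + yy i E f) * del n i) -
        (1 + del n i) / mu n i * ((near E u f).card + r) := by
    rw [sum_congr rfl fun t _ => h.dY_eq f t, sum_sub_distrib, sum_const, nsmul_eq_mul,
      ← sum_div, ← mul_sum, hr]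
    ring
  obtain ⟨hr0, hr1⟩ := sum_loss_near hg hu hf
  rw [← hr] at hr0 hr1
  have hinc : inc {f} (fun k F => yy k F f) i E =
      rate i E * ∑ t ∈ FlagDrift.steps {f} E, dY i E f t := by
    rw [h.inc_eq (singleton_subset_iff.2 hfE)]; rfl
  set A := gg i E - zz i E f + 1 / mu n i with hA
  have hmain : rate i E * ∑ t ∈ (triangles E).filter (fun t => Disjoint (sides u) (sides t)),
        dY i E f t - (2 * A + 2 / mu n i) / (1 + gg i E) =
      (inc {f} (fun k F => yy k F f) i E - 2 * (1 + yy i E f) * A / (1 + gg i E)) +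
      2 * yy i E f * A / (1 + gg i E) -
      (2 - (1 + del n i) * (2 + S - 2 / mu n i + r / mu n i) +
        (mu n i * S + (2 * mu n i - 2)) * ((1 + yy i E f) * del n i)) /
        (mu n i * (1 + gg i E)) := by
    rw [hinc, ← hsplit, hnear, near_card h hu hf, ← hS, mul_add (rate i E), h.rate_eq]
    field_simp
    ring
  rw [hmain]
  have hd0 := h.del0
  have hd1 := h.del_small
  have hd7 := h.del_le
  have hu0 : 0 ≤ 1 / mu n i := by positivity
  have h2u : 2 / mu n i = 2 * (1 / mu n i) := by ring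
  have hmq : mu n i * (1 / mm n i) ≤ 4 * (1 / mu n i) := by
    refine (mul_le_mul_of_nonneg_left h.inv_mm hmu.le).trans_eq ?_
    field_simp
  have hmd : mu n i * del n i ≤ 28 * (1 / mu n i) := by
    have := mul_le_mul_of_nonneg_left hd7 hmu.le
    rw [div_eq_mul_one_div] at this
    nlinarith
  have hdu : del n i ≤ 7 * (1 / mu n i) := by
    rw [div_eq_mul_one_div] at hd7
    linarith [h.inv_mm_mu]
  have hnum : |2 - (1 + del n i) * (2 + S - 2 / mu n i + r / mu n i) +
      (mu n i * S + (2 * mu n i - 2)) * ((1 + yy i E f) * del n i)| ≤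
      2 * P.y i + 120 * P.tau i * (1 / mu n i) :=
    num_bound h.mu100 hS0 hS1 hP hy0 hy1 hd0 hd1 hdu hmd hr0 hr1 htau
  have hA' : |A| ≤ P.z i + 3 * P.y i ^ 2 + 1 / mu n i := by
    rw [hA]
    refine (abs_add_le _ _).trans ?_
    rw [abs_of_nonneg hu0]
    linarith [h.g_sub_zz hg hfE]
  have b1 := inc_yy_near h hfE
  rw [← hA] at b1
  have b2 : |2 * yy i E f * A / (1 + gg i E)| ≤
      3 * (P.y i * (P.z i + 3 * P.y i ^ 2 + 1 / mu n i)) := by
    rw [abs_div, abs_mul, abs_mul, abs_two, abs_of_pos (by linarith : 0 < 1 + gg i E),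
      div_le_iff₀ (by linarith)]
    have h0 := mul_le_mul (h.yb f hfE) hA' (abs_nonneg _) hP0
    have := mul_le_mul_of_nonneg_left hgl (show 0 ≤ 3 * (P.y i * (P.z i + 3 * P.y i ^ 2 +
      1 / mu n i)) by have := (abs_nonneg _).trans hA'; positivity)
    have h1 := mul_nonneg hP0 ((abs_nonneg _).trans hA')
    linarith
  have b3 : |(2 - (1 + del n i) * (2 + S - 2 / mu n i + r / mu n i) +
      (mu n i * S + (2 * mu n i - 2)) * ((1 + yy i E f) * del n i)) /
        (mu n i * (1 + gg i E))| ≤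
      3 * (P.y i * (1 / mu n i)) + 130 * (P.tau i / mu n i ^ 2) := by
    rw [abs_div, abs_of_pos (mul_pos hmu (by linarith : 0 < 1 + gg i E)),
      div_le_iff₀ (mul_pos hmu (by linarith))]
    refine hnum.trans ?_
    have e : (3 * (P.y i * (1 / mu n i)) + 130 * (P.tau i / mu n i ^ 2)) *
        (mu n i * (1 + gg i E)) = (3 * P.y i + 130 * P.tau i * (1 / mu n i)) * (1 + gg i E) := by
      field_simp
    rw [e]
    have hT0 : 0 ≤ P.tau i * (1 / mu n i) := mul_nonneg (le_trans zero_le_one htau) hu0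
    have := mul_le_mul_of_nonneg_left hgl
      (show 0 ≤ 3 * P.y i + 130 * P.tau i * (1 / mu n i) by linarith)
    linarith
  have b4 : 60 / mm n i ≤ 240 * (P.tau i / mu n i ^ 2) := by
    have h1 : 60 / mm n i ≤ 60 * (4 / mu n i ^ 2) := by
      rw [div_eq_mul_one_div]; exact mul_le_mul_of_nonneg_left h.inv_mm (by norm_num)
    have h2 : (1 : ℝ) / mu n i ^ 2 ≤ P.tau i / mu n i ^ 2 :=
      div_le_div_of_nonneg_right htau (sq_nonneg _)
    rw [show (4 : ℝ) / mu n i ^ 2 = 4 * (1 / mu n i ^ 2) by ring] at h1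
    linarith
  refine (abs_sub _ _).trans ((add_le_add ((abs_add_le _ _).trans (add_le_add b1 b2)) b3).trans ?_)
  rw [err0]
  have p1 : 0 ≤ P.y i * P.z i := mul_nonneg hP0 hs.z0
  have p2 : 0 ≤ P.y i * P.y i ^ 2 := mul_nonneg hP0 (sq_nonneg _)
  have p3 : 0 ≤ P.y i * (1 / mu n i) := mul_nonneg hP0 hu0
  have p4 : 0 ≤ P.tau i / mu n i ^ 2 := div_nonneg (by linarith) (sq_nonneg _)
  linarith

/-- In one step the flags at an edge lose few codegrees altogether. -/
lemma sum_loss_star (hg : Good P i E) (hs : Small n P i) {e t : Finset (Fin n)}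
    (ht : t ∈ triangles E) (het : e ∈ E ∧ e ∉ sides t) :
    ∑ u ∈ (triAt E e).filter (fun u => Disjoint (sides u) (sides t)),
      ∑ h ∈ (sides u).erase e, (Codeg.loss E h t : ℝ) ≤ 24 * P.tau i := by
  classical
  set A := (triAt E e).filter (fun u => Disjoint (sides u) (sides t)) with hA
  set HH := A.biUnion fun u => (sides u).erase e with hHH
  have hpd : (A : Set (Finset (Fin n))).PairwiseDisjoint fun u => (sides u).erase e := by
    intro u hu v hv hne
    simp only [Function.onFun, disjoint_left, mem_erase]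
    rintro h ⟨hhe, h1⟩ ⟨-, h2⟩
    obtain ⟨hu1, hu2⟩ := mem_filter.1 (mem_filter.1 hu).1
    obtain ⟨hv1, hv2⟩ := mem_filter.1 (mem_filter.1 hv).1
    exact hne (eq_of_two_sides hu1 hv1 hhe h1 hu2 h2 hv2)
  rw [← sum_biUnion hpd, ← hHH]
  have hterm : ∀ h ∈ HH, (Codeg.loss E h t : ℝ) ≤ ∑ k ∈ sides t,
      if ∃ w ∈ triangles E, h ∈ sides w ∧ k ∈ sides w then (1 : ℝ) else 0 := by
    intro h hh
    obtain ⟨u, hu, hhu⟩ := mem_biUnion.1 hh
    have hht : h ∉ sides t := disjoint_left.1 (mem_filter.1 hu).2 (mem_erase.1 hhu).2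
    have hsub : (Codeg.star E h).filter (fun w => ¬ Disjoint (sides w) (sides t)) ⊆
        (sides t).biUnion fun k => (triangles E).filter fun w => h ∈ sides w ∧ k ∈ sides w := by
      intro w hw
      obtain ⟨h1, h2⟩ := mem_filter.1 hw
      obtain ⟨k, hkw, hkt⟩ := not_disjoint_iff.1 h2
      exact mem_biUnion.2 ⟨k, hkt, mem_filter.2 ⟨(mem_filter.1 h1).1, (mem_filter.1 h1).2, hkw⟩⟩
    refine le_trans (by exact_mod_cast (card_le_card hsub).trans card_biUnion_le :
      (Codeg.loss E h t : ℝ) ≤ ((∑ k ∈ sides t, ((triangles E).filter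
        fun w => h ∈ sides w ∧ k ∈ sides w).card : ℕ) : ℝ)) ?_
    push_cast
    refine sum_le_sum fun k hk => ?_
    split_ifs with hx
    · exact_mod_cast FlagDrift.pair_card_le_one E fun e' => hht (by rw [e']; exact hk)
    · simp only [Nat.cast_nonpos, card_eq_zero, filter_eq_empty_iff]
      exact fun w hw hb => hx ⟨w, hw, hb⟩
  refine (sum_le_sum hterm).trans ?_
  rw [sum_comm]
  refine (sum_le_card_nsmul _ _ (8 * P.tau i) fun k hk => ?_).trans ?_
  · rw [sum_boole]
    obtain ⟨hksub, hkc⟩ := mem_powersetCard.1 hk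
    have hec : e.card = 2 := (mem_powersetCard.1 (hg.size.1 het.1)).2
    obtain ⟨q, hqk, hqe⟩ := not_subset.1 (fun hsub : k ⊆ e =>
      het.2 (eq_of_subset_of_card_le hsub (by omega) ▸ hk))
    have hsub : HH.filter (fun h => ∃ w ∈ triangles E, h ∈ sides w ∧ k ∈ sides w) ⊆
        (e ∪ k).powersetCard 2 ∪
          (e ×ˢ common E (insert q e)).image fun p => ({p.1, p.2} : Finset (Fin n)) := by
      intro h hh
      obtain ⟨hhH, w, hw, hhw, hkw⟩ := mem_filter.1 hh
      obtain ⟨u, hu, hhu⟩ := mem_biUnion.1 hhH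
      obtain ⟨huT, heu⟩ := mem_filter.1 (mem_filter.1 hu).1
      obtain ⟨hhsubu, hhc⟩ := mem_powersetCard.1 (mem_erase.1 hhu).2
      obtain ⟨hesub, -⟩ := mem_powersetCard.1 heu
      obtain ⟨hhsubw, -⟩ := mem_powersetCard.1 hhw
      obtain ⟨hksubw, -⟩ := mem_powersetCard.1 hkw
      by_cases hin : h ⊆ e ∪ k
      · exact mem_union_left _ (mem_powersetCard.2 ⟨hin, hhc⟩)
      · obtain ⟨x, hxh, hx⟩ := not_subset.1 hin
        rw [mem_union, not_or] at hx
        have huins : u = insert x e := (eq_of_subset_of_card_le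
          (insert_subset (hhsubu hxh) hesub) (by
            rw [card_insert_of_notMem hx.1, tri_card huT]; omega)).symm
        obtain ⟨a, ha⟩ := card_eq_one.1 (show (h.erase x).card = 1 by
          rw [card_erase_of_mem hxh, hhc])
        have hae : a ∈ e := by
          have h1 : a ∈ h.erase x := ha ▸ mem_singleton_self a
          obtain ⟨hax, hah⟩ := mem_erase.1 h1
          exact (mem_insert.1 (huins ▸ hhsubu hah)).resolve_left hax
        have hh' : ({a, x} : Finset (Fin n)) = h := by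
          rw [pair_comm, ← ha, insert_erase hxh]
        refine mem_union_right _ (mem_image.2 ⟨(a, x), mem_product.2 ⟨hae, ?_⟩, hh'⟩)
        refine mem_filter.2 ⟨mem_univ _, fun z hz => ?_⟩
        rcases mem_insert.1 hz with rfl | hze
        · exact pair_mem hw (hksubw hqk) (hhsubw hxh) fun (e' : z = x) => hx.2 (e' ▸ hqk)
        · exact pair_mem huT (hesub hze) (hhsubu hxh) fun (e' : z = x) => hx.1 (e' ▸ hze)
    have h4 : (e ∪ k).card ≤ 4 := (card_union_le _ _).trans (by omega)
    have hcard : (HH.filter fun h => ∃ w ∈ triangles E, h ∈ sides w ∧ k ∈ sides w).card ≤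
        6 + 2 * (common E (insert q e)).card := by
      refine (card_le_card hsub).trans ((card_union_le _ _).trans (add_le_add ?_ ?_))
      · rw [card_powersetCard]
        exact (Nat.choose_le_choose 2 h4).trans (le_of_eq (by decide))
      · refine card_image_le.trans ?_
        rw [card_product, hec]
    have hc3 := common_card_le hg (show (insert q e).card = 3 by
      rw [card_insert_of_notMem hqe, hec])
    have : ((HH.filter fun h => ∃ w ∈ triangles E, h ∈ sides w ∧ k ∈ sides w).card : ℝ) ≤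
        6 + 2 * ((common E (insert q e)).card : ℝ) := by exact_mod_cast hcard
    linarith [hs.tau1]
  · rw [card_sides ht, nsmul_eq_mul]
    push_cast
    linarith

end Vale.Agent.P046.Flags.DriftYZ
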