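import Vale.Agent.P046.Flags.Basic
import Vale.Agent.P046.Flags.DriftZFlag

/-!
The drift of the first averaged deviation and its linear form.
-/

namespace Vale.Agent.P046.Flags.DriftYZ

open Finset Chain

variable {n i : ℕ} {P : Env} {E : St n}

/-- The covariance with an affine image. -/
lemma cov_linear {α : Type*} [DecidableEq α] {A : Finset α} (hA : A.Nonempty) (z hh : α → ℝ)
    (c k : ℝ) (hlin : ∀ a ∈ A, hh a = c * z a + k) :
    (∑ a ∈ A, (hh a - FlagDrift.mean A hh) * (z a - FlagDrift.mean A z)) / A.card =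
      c * (FlagDrift.mean A (fun a => z a ^ 2) - FlagDrift.mean A z ^ 2) := by
  have hD : (A.card : ℝ) ≠ 0 := by exact_mod_cast hA.card_pos.ne'
  have hm : FlagDrift.mean A hh = c * FlagDrift.mean A z + k := by
    simp only [FlagDrift.mean, sum_congr rfl hlin, sum_add_distrib, ← mul_sum, sum_const,
      nsmul_eq_mul]
    field_simp
  have h1 : ∀ a ∈ A, (hh a - FlagDrift.mean A hh) * (z a - FlagDrift.mean A z) =
      c * z a ^ 2 - 2 * c * FlagDrift.mean A z * z a + c * FlagDrift.mean A z ^ 2 := fun a ha => by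
    rw [hlin a ha, hm]; ring
  rw [sum_congr rfl h1, sum_add_distrib, sum_sub_distrib, ← mul_sum, ← mul_sum, sum_const,
    nsmul_eq_mul]
  simp only [FlagDrift.mean]
  field_simp
  ring

lemma triAt_sdiff (E : St n) (e t : Finset (Fin n)) :
    triAt (E \ sides t) e =
      triAt E e \ (triAt E e).filter (fun u => ¬ Disjoint (sides u) (sides t)) := by
  ext u
  simp only [triAt, triangles_sdiff, mem_filter, mem_sdiff]
  tauto

lemma triangles_sdiff' (E : St n) (t : Finset (Fin n)) :
    triangles (E \ sides t) =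
      triangles E \ (triangles E).filter (fun u => ¬ Disjoint (sides u) (sides t)) := by
  ext u
  simp only [triangles_sdiff, mem_filter, mem_sdiff]
  tauto

lemma abs_half_sum_le (h : Sz P i E) {u e : Finset (Fin n)} (hu : u ∈ triangles E)
    (he : e ∈ sides u) : |(∑ g ∈ (sides u).erase e, yy i E g) / 2| ≤ P.y i := by
  rw [abs_div, abs_two, div_le_iff₀ two_pos]
  refine (abs_sum_le_sum_abs _ _).trans ((sum_le_card_nsmul _ _ (P.y i) fun g hg => ?_).trans ?_)
  · exact h.yb g ((mem_filter.1 hu).2 (mem_erase.1 hg).2)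
  · rw [card_erase_sides hu he, nsmul_eq_mul]; push_cast; linarith

lemma one_div_mm_le_err0 (hs : Small n P i) (hg : Good P i E) :
    1 / mm n i ≤ 4 * err0 P n i := by
  have h := sz hs hg
  have h2 : (1 : ℝ) / mu n i ^ 2 ≤ P.tau i / mu n i ^ 2 :=
    div_le_div_of_nonneg_right hs.tau1 (sq_nonneg _)
  have h3 : 0 ≤ P.y i * (P.z i + P.y i ^ 2 + 1 / mu n i) := by
    have := hs.z0; have := h.y0; have := h.mu_pos; positivity
  have := h.inv_mm
  rw [err0]
  rw [show (4 : ℝ) / mu n i ^ 2 = 4 * (1 / mu n i ^ 2) by ring] at this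
  linarith

/-- The cross term of the mean over the triangles at `e`. -/
lemma cross_edge_le (hs : Small n P i) (hg : Good P i E) {e : Finset (Fin n)} (he : e ∈ E) :
    rate i E * |FlagDrift.cross (FlagDrift.steps {e} E) (triAt E e)
      (fun t => (triAt E e).filter fun u => ¬ Disjoint (sides u) (sides t))
      (fun u => (∑ g ∈ (sides u).erase e, yy i E g) / 2)
      (fun t u => (∑ g ∈ (sides u).erase e, yy (i + 1) (E \ sides t) g) / 2)| ≤
      1300 * err0 P n i := by
  have h := sz hs hg
  have hmu := h.mu_pos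
  have hP0 := h.y0
  have htau := hs.tau1
  have hd := h.deg_ge he
  have hdy : (99 / 100 : ℝ) * mu n i ≤ (triAt E e).card := by
    rw [h.deg_eq, mul_comm (mu n i)]
    exact mul_le_mul_of_nonneg_right (by linarith [(abs_le.1 (h.yb e he)).1, h.y1]) hmu.le
  have hA : (triAt E e).Nonempty := by
    rw [← card_pos]; exact_mod_cast (show (0 : ℝ) < (triAt E e).card by linarith)
  set K := 90 * P.tau i / mu n i + 6 * P.y i with hK
  have hK0 : 0 ≤ K := by positivity
  refine (mul_le_mul_of_nonneg_left (FlagDrift.abs_cross_le _ _ _ _ _ (B := 2 * P.y i) hA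
    (fun u hu => ?_) (fun t _ => filter_subset _ _) (fun t ht => ?_)) h.rate_nonneg).trans ?_
  · refine (abs_sub _ _).trans ?_
    have h1 := abs_half_sum_le h (mem_filter.1 hu).1 (mem_filter.1 hu).2
    have h2 := h.abs_zz_le e
    simp only [zz, avgE] at h2
    linarith
  · rw [steps_singleton, mem_filter] at ht
    have := Codeg.loss_le_three ht.1 ht.2
    have h99 : 99 ≤ (triAt E e).card := by exact_mod_cast hd
    simp only [Codeg.loss, Codeg.star] at this
    simp only [triAt] at h99 ⊢
    omega
  rw [steps_singleton]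
  have hterm : ∀ t ∈ (triangles E).filter (fun t => e ∉ sides t),
      (((triAt E e).filter fun u => ¬ Disjoint (sides u) (sides t)).card : ℝ) *
        ((∑ u ∈ triAt E e \ (triAt E e).filter (fun u => ¬ Disjoint (sides u) (sides t)),
            |(∑ g ∈ (sides u).erase e, yy (i + 1) (E \ sides t) g) / 2 -
              (∑ g ∈ (sides u).erase e, yy i E g) / 2|) +
          ((triAt E e).filter fun u => ¬ Disjoint (sides u) (sides t)).card * (2 * P.y i)) ≤
      (Codeg.loss E e t : ℝ) * K := by
    intro t ht
    obtain ⟨ht1, ht2⟩ := mem_filter.1 ht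
    have hl : (((triAt E e).filter fun u => ¬ Disjoint (sides u) (sides t)).card : ℝ) ≤ 3 := by
      exact_mod_cast Codeg.loss_le_three ht1 ht2
    refine mul_le_mul_of_nonneg_left ?_ (Nat.cast_nonneg _)
    rw [hK]
    refine add_le_add ?_ (by nlinarith)
    have hset : triAt E e \ (triAt E e).filter (fun u => ¬ Disjoint (sides u) (sides t)) =
        (triAt E e).filter (fun u => Disjoint (sides u) (sides t)) := by
      ext u; simp only [mem_sdiff, mem_filter]; tauto
    rw [hset]
    have hone : ∀ u ∈ (triAt E e).filter (fun u => Disjoint (sides u) (sides t)),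
        |(∑ g ∈ (sides u).erase e, yy (i + 1) (E \ sides t) g) / 2 -
              (∑ g ∈ (sides u).erase e, yy i E g) / 2| ≤
        8 / mm n i + 1 / mu n i * ∑ g ∈ (sides u).erase e, (Codeg.loss E g t : ℝ) := by
      intro u hu
      obtain ⟨hu1, hu2⟩ := mem_filter.1 (mem_filter.1 hu).1
      rw [← sub_div, ← sum_sub_distrib, abs_div, abs_two, div_le_iff₀ two_pos]
      refine (abs_sum_le_sum_abs _ _).trans ((sum_le_sum fun g hg' =>
        h.abs_dY_le ((mem_filter.1 hu1).2 (mem_erase.1 hg').2) t).trans (le_of_eq ?_))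
      rw [sum_add_distrib, sum_const, card_erase_sides hu1 hu2, nsmul_eq_mul, ← sum_div,
        ← mul_sum]
      push_cast; ring
    refine (sum_le_sum hone).trans ?_
    rw [sum_add_distrib, sum_const, nsmul_eq_mul, ← mul_sum]
    have hc : (((triAt E e).filter fun u => Disjoint (sides u) (sides t)).card : ℝ) ≤
        2 * mu n i :=
      le_trans (by exact_mod_cast card_filter_le _ _) ((h.deg_le he).trans (by nlinarith [h.y1]))
    have hm8 : (0 : ℝ) ≤ 8 / mm n i := div_nonneg (by norm_num) (by linarith [h.m100])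
    have h16 : 2 * mu n i * (8 / mm n i) ≤ 64 / mu n i := by
      have := mul_le_mul_of_nonneg_left h.inv_mm (by linarith : (0 : ℝ) ≤ 16 * mu n i)
      have e1 : 16 * mu n i * (4 / mu n i ^ 2) = 64 / mu n i := by field_simp; ring
      have e2 : 2 * mu n i * (8 / mm n i) = 16 * mu n i * (1 / mm n i) := by ring
      linarith
    have h24 : 1 / mu n i * ∑ u ∈ (triAt E e).filter (fun u => Disjoint (sides u) (sides t)),
        ∑ g ∈ (sides u).erase e, (Codeg.loss E g t : ℝ) ≤ 1 / mu n i * (24 * P.tau i) :=
      mul_le_mul_of_nonneg_left (sum_loss_star hg hs ht1 ⟨he, ht2⟩) (by positivity)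
    have := mul_le_mul_of_nonneg_right hc hm8
    have hTu : 1 / mu n i ≤ P.tau i / mu n i := div_le_div_of_nonneg_right htau hmu.le
    have e3 : 90 * P.tau i / mu n i = 90 * (P.tau i / mu n i) := by ring
    have e4 : 1 / mu n i * (24 * P.tau i) = 24 * (P.tau i / mu n i) := by ring
    have e5 : (64 : ℝ) / mu n i = 64 * (1 / mu n i) := by ring
    linarith [show (0 : ℝ) ≤ 1 / mu n i by positivity]
  refine (mul_le_mul_of_nonneg_left (mul_le_mul_of_nonneg_left ((sum_le_sum hterm).trans_eq
    (sum_mul _ _ _).symm) (by positivity)) h.rate_nonneg).trans ?_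
  rw [Codeg.sum_loss]
  have hL : ∑ u ∈ Codeg.star E e, ∑ f ∈ (sides u).erase e, ((deg E f : ℝ) - 1) ≤
      (triAt E e).card * (3 * mu n i) := by
    refine (sum_le_card_nsmul _ _ (3 * mu n i) fun u hu => ?_).trans (by rw [nsmul_eq_mul]; rfl)
    obtain ⟨hu1, hu2⟩ := mem_filter.1 hu
    refine (sum_le_card_nsmul _ _ (3 / 2 * mu n i) fun g hg' => ?_).trans ?_
    · have hd := h.deg_le ((mem_filter.1 hu1).2 (mem_erase.1 hg').2)
      simp only [triAt] at hd
      simp only [deg]
      nlinarith [h.y1]
    · rw [card_erase_sides hu1 hu2, nsmul_eq_mul]; push_cast; linarith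
  refine (mul_le_mul_of_nonneg_left (mul_le_mul_of_nonneg_left (mul_le_mul_of_nonneg_right hL hK0)
    (by positivity)) h.rate_nonneg).trans ?_
  have e1 : 2 / ((triAt E e).card : ℝ) ^ 2 * (((triAt E e).card : ℝ) * (3 * mu n i) * K) =
      6 * mu n i * K / (triAt E e).card := by
    field_simp
    ring
  rw [e1]
  have e2 : 6 * mu n i * K / (triAt E e).card ≤ 7 * K := by
    rw [div_le_iff₀ (by linarith)]
    nlinarith [mul_le_mul_of_nonneg_right hdy hK0]
  refine (mul_le_mul h.rate_le e2 (by positivity) (by positivity)).trans ?_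
  have e3 : 2 / mu n i * (7 * K) =
      1260 * (P.tau i / mu n i ^ 2) + 84 * (P.y i * (1 / mu n i)) := by
    rw [hK]; field_simp; ring
  rw [e3, err0]
  have hz := hs.z0
  have : 0 ≤ P.y i * P.z i := mul_nonneg hP0 hz
  have : 0 ≤ P.y i * P.y i ^ 2 := mul_nonneg hP0 (sq_nonneg _)
  have : 0 ≤ P.tau i / mu n i ^ 2 := by positivity
  have : 0 ≤ P.y i * (1 / mu n i) := by positivity
  linarith

/-- The drift of the first averaged deviation at an edge. -/
theorem inc_zz_near (hs : Small n P i) (hg : Good P i E) {e : Finset (Fin n)} (he : e ∈ E) :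
    |inc {e} (fun k F => zz k F e) i E -
      (2 * (gg i E - ww i E e + 1 / mu n i) + 2 / mu n i - vv i E e + 2 * zz i E e ^ 2) /
        (1 + gg i E)| ≤ 2000 * err0 P n i := by
  have h := sz hs hg
  have hmu := h.mu_pos
  have hgl := h.gg_lo
  set A := triAt E e with hAdef
  set T := FlagDrift.steps {e} E with hT
  set L := fun t => A.filter fun u => ¬ Disjoint (sides u) (sides t) with hLdef
  set z := fun u => (∑ g ∈ (sides u).erase e, yy i E g) / 2 with hz
  set z' := fun t u => (∑ g ∈ (sides u).erase e, yy (i + 1) (E \ sides t) g) / 2 with hz'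
  have hd := h.deg_ge he
  have hA : A.Nonempty := by
    rw [← card_pos]; exact_mod_cast (show (0 : ℝ) < A.card by rw [hAdef]; linarith)
  have hlt : ∀ t ∈ T, (L t).card < A.card := by
    intro t ht
    rw [hT, steps_singleton, mem_filter] at ht
    have h3 : (L t).card ≤ 3 := Codeg.loss_le_three ht.1 ht.2
    have h99 : 99 ≤ A.card := by rw [hAdef]; exact_mod_cast hd
    omega
  have hinc : inc {e} (fun k F => zz k F e) i E = rate i E *
      ∑ t ∈ T, (FlagDrift.mean (A \ L t) (z' t) - FlagDrift.mean A z) := by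
    rw [h.inc_eq (singleton_subset_iff.2 he)]
    congr 1
    refine sum_congr rfl fun t _ => ?_
    simp only [zz, avgE, triAt_sdiff]
    rfl
  have hid := FlagDrift.sum_mean_change T A L z z' hA (fun t _ => filter_subset _ _) hlt
  have hmain : rate i E * ((∑ a ∈ A, ∑ t ∈ T.filter (fun t => a ∉ L t), (z' t a - z a)) /
      A.card) = FlagDrift.mean A fun a => (∑ g ∈ (sides a).erase e, rate i E *
        ∑ t ∈ (triangles E).filter (fun t => Disjoint (sides a) (sides t)), dY i E g t) / 2 := by
    rw [FlagDrift.mean, mul_div_assoc', mul_sum]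
    congr 1
    refine sum_congr rfl fun a ha => ?_
    obtain ⟨ha1, ha2⟩ := mem_filter.1 ha
    have hset : T.filter (fun t => a ∉ L t) =
        (triangles E).filter (fun t => Disjoint (sides a) (sides t)) := by
      rw [hT, steps_singleton, filter_filter]
      refine filter_congr fun t _ => ?_
      simp only [hLdef, mem_filter, ha, true_and, not_not]
      exact ⟨fun hh => hh.2, fun hd => ⟨fun het => disjoint_left.1 hd ha2 het, hd⟩⟩
    rw [hset, ← mul_sum, sum_comm (s := (sides a).erase e), mul_div_assoc, sum_div]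
    refine congrArg _ (sum_congr rfl fun t _ => ?_)
    simp only [hz, hz', dY, sum_sub_distrib]
    ring
  have hhit : ∀ a ∈ A, (FlagDrift.hits T L a : ℝ) = 2 * mu n i * z a + (2 * mu n i - 2) := by
    intro a ha
    obtain ⟨ha1, ha2⟩ := mem_filter.1 ha
    have hset : T.filter (fun t => a ∈ L t) = near E a e := by
      rw [hT, steps_singleton, filter_filter, near]
      refine filter_congr fun t _ => ?_
      simp only [hLdef, mem_filter, ha, true_and]
    rw [FlagDrift.hits, hset, near_card h ha1 ha2, hz]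
    ring
  have hcov : rate i E * ((∑ a ∈ A, ((FlagDrift.hits T L a : ℝ) -
      FlagDrift.mean A (fun b => (FlagDrift.hits T L b : ℝ))) * (z a - FlagDrift.mean A z)) /
      A.card) = (vv i E e - 2 * zz i E e ^ 2) / (1 + gg i E) := by
    rw [cov_linear hA z (fun a => (FlagDrift.hits T L a : ℝ)) _ _ hhit, h.rate_eq]
    have hv : vv i E e = 2 * FlagDrift.mean A (fun a => z a ^ 2) := by
      simp only [vv, phi, FlagDrift.mean, hz, hAdef, mul_div_assoc', mul_sum]
      congr 1
      exact sum_congr rfl fun a _ => by ring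
    have hzz : zz i E e = FlagDrift.mean A z := rfl
    rw [hv, hzz]
    field_simp
  set lin := fun g => (2 * (gg i E - zz i E g + 1 / mu n i) + 2 / mu n i) / (1 + gg i E) with hlin
  have hmean : |FlagDrift.mean A (fun a => (∑ g ∈ (sides a).erase e, rate i E *
        ∑ t ∈ (triangles E).filter (fun t => Disjoint (sides a) (sides t)), dY i E g t) / 2) -
      (2 * (gg i E - ww i E e + 1 / mu n i) + 2 / mu n i) / (1 + gg i E)| ≤
      500 * err0 P n i := by
    have hD : (A.card : ℝ) ≠ 0 := by exact_mod_cast hA.card_pos.ne'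
    have hw : (2 * (gg i E - ww i E e + 1 / mu n i) + 2 / mu n i) / (1 + gg i E) =
        FlagDrift.mean A fun a => (∑ g ∈ (sides a).erase e, lin g) / 2 := by
      have hs2 : ∀ a ∈ A, (∑ g ∈ (sides a).erase e, lin g) / 2 =
          ((2 * gg i E + 4 / mu n i) - 2 * ((∑ g ∈ (sides a).erase e, zz i E g) / 2)) /
            (1 + gg i E) := by
        intro a ha
        obtain ⟨ha1, ha2⟩ := mem_filter.1 ha
        simp only [hlin, ← sum_div, sum_add_distrib, ← mul_sum, sum_sub_distrib, sum_const,
          card_erase_sides ha1 ha2, nsmul_eq_mul]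
        push_cast
        ring
      rw [mean_congr hs2, show ww i E e = FlagDrift.mean A
        (fun a => (∑ g ∈ (sides a).erase e, zz i E g) / 2) from rfl]
      simp only [FlagDrift.mean, ← sum_div, sum_sub_distrib, sum_const, nsmul_eq_mul, ← mul_sum]
      field_simp
      ring
    rw [hw]
    simp only [FlagDrift.mean, ← sub_div, ← sum_sub_distrib]
    refine abs_mean_le (z := fun a => (∑ g ∈ (sides a).erase e, (rate i E *
        ∑ t ∈ (triangles E).filter (fun t => Disjoint (sides a) (sides t)), dY i E g t -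
          lin g)) / 2) (mul_nonneg (by norm_num) ?_) fun a ha => ?_
    · rw [err0]
      have := hs.z0; have := h.y0; have := hs.tau1
      positivity
    · obtain ⟨ha1, ha2⟩ := mem_filter.1 ha
      rw [abs_div, abs_two, div_le_iff₀ two_pos]
      refine (abs_sum_le_sum_abs _ _).trans ((sum_le_card_nsmul _ _ _ fun g hg' =>
        flag_near hs hg ha1 (mem_erase.1 hg').2).trans ?_)
      rw [card_erase_sides ha1 ha2, nsmul_eq_mul]
      push_cast
      linarith
  have hcr := cross_edge_le hs hg he
  rw [← hAdef, ← hT] at hcr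
  have hexp : inc {e} (fun k F => zz k F e) i E -
      (2 * (gg i E - ww i E e + 1 / mu n i) + 2 / mu n i - vv i E e + 2 * zz i E e ^ 2) /
        (1 + gg i E) =
      (FlagDrift.mean A (fun a => (∑ g ∈ (sides a).erase e, rate i E *
        ∑ t ∈ (triangles E).filter (fun t => Disjoint (sides a) (sides t)), dY i E g t) / 2) -
      (2 * (gg i E - ww i E e + 1 / mu n i) + 2 / mu n i) / (1 + gg i E)) +
      rate i E * FlagDrift.cross T A L z z' := by
    rw [hinc, hid, mul_add, mul_sub, hmain, hcov]
    ring
  rw [hexp]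
  refine (abs_add_le _ _).trans ?_
  rw [abs_mul, abs_of_nonneg h.rate_nonneg]
  refine (add_le_add hmean hcr).trans ?_
  have : 0 ≤ err0 P n i := by
    rw [err0]
    have := hs.z0; have := h.y0; have := hs.tau1
    positivity
  linarith

end Vale.Agent.P046.Flags.DriftYZ
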