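import Vale.Agent.P046.Flags.TrackDeg

/-!
# Second moment and jumps of the vertex part, from those of the second averaged deviation
-/

namespace Vale.Agent.P046.Flags

open Finset Chain VB

variable {n : ℕ}

/-- Change of a weighted mean when weights only drop. -/
lemma weighted_mean_change {α : Type*} (S : Finset α) (a a' z z' : α → ℝ) {W W' w : ℝ}
    (hW : ∑ g ∈ S, a g = W) (hW' : ∑ g ∈ S, a' g = W') (hpos : 0 < W') (hle : ∀ g ∈ S, a' g ≤ a g)
    (ha' : ∀ g ∈ S, 0 ≤ a' g) (hz : ∀ g ∈ S, |z g| ≤ w) :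
    |(∑ g ∈ S, a' g * z' g) / W' - (∑ g ∈ S, a g * z g) / W| ≤
      (∑ g ∈ S, a' g * |z' g - z g|) / W' + 2 * w * (W - W') / W' := by
  have hWW : W' ≤ W := by rw [← hW, ← hW']; exact sum_le_sum hle
  have hW0 : 0 < W := hpos.trans_le hWW
  have e : (∑ g ∈ S, a' g * z' g) / W' - (∑ g ∈ S, a g * z g) / W =
      ((∑ g ∈ S, a' g * (z' g - z g)) + ((∑ g ∈ S, (a' g - a g) * z g)
        + (∑ g ∈ S, a g * z g) * ((W - W') / W))) / W' := by
    simp only [mul_sub, sub_mul, sum_sub_distrib]
    field_simp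
    ring
  rw [e, abs_div, abs_of_pos hpos, ← add_div]
  refine div_le_div_of_nonneg_right ((abs_add_le _ _).trans (add_le_add ?_ ?_)) hpos.le
  · refine (abs_sum_le_sum_abs _ _).trans (sum_le_sum fun g hg => ?_)
    rw [abs_mul, abs_of_nonneg (ha' g hg)]
  refine (abs_add_le _ _).trans ?_
  have h1 : |∑ g ∈ S, (a' g - a g) * z g| ≤ (W - W') * w := by
    rw [← hW, ← hW', ← sum_sub_distrib, sum_mul]
    refine (abs_sum_le_sum_abs _ _).trans (sum_le_sum fun g hg => ?_)
    rw [abs_mul, abs_of_nonpos (by linarith [hle g hg]), neg_sub]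
    exact mul_le_mul_of_nonneg_left (hz g hg) (by linarith [hle g hg])
  have h2 : |∑ g ∈ S, a g * z g| ≤ W * w := by
    rw [← hW, sum_mul]
    refine (abs_sum_le_sum_abs _ _).trans (sum_le_sum fun g hg => ?_)
    have := (ha' g hg).trans (hle g hg)
    rw [abs_mul, abs_of_nonneg this]
    exact mul_le_mul_of_nonneg_left (hz g hg) this
  have h3 : |(∑ g ∈ S, a g * z g) * ((W - W') / W)| ≤ (W - W') * w := by
    rw [abs_mul, abs_of_nonneg (div_nonneg (by linarith) hW0.le)]
    calc |∑ g ∈ S, a g * z g| * ((W - W') / W) ≤ W * w * ((W - W') / W) :=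
          mul_le_mul_of_nonneg_right h2 (div_nonneg (by linarith) hW0.le)
      _ = _ := by field_simp
  linarith

lemma uc_eq (k : ℕ) {F : St n} {b : Fin n} (S : St n) (hS : edgesAt F b ⊆ S)
    (hSb : ∀ g ∈ S, b ∈ g) (hpos : 0 < ∑ g ∈ S, ((triAt F g).card : ℝ)) :
    uc k F b = (∑ g ∈ S, ((triAt F g).card : ℝ) * wc k F g) /
      ∑ g ∈ S, ((triAt F g).card : ℝ) := by
  have h : avgS F (ww k F) b = _ := avgS_eq S b hS hSb (ww k F)
  rw [uc, h]
  simp only [wc, mul_sub, sum_sub_distrib, ← sum_mul, sub_div]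
  rw [mul_div_cancel_left₀ _ hpos.ne']

/-- The triangles at `b` lost with `t`. -/
noncomputable def lossV (E : St n) (b : Fin n) (t : Finset (Fin n)) : ℝ :=
  (((triV E b).filter fun u => ¬ Disjoint (sides u) (sides t)).card : ℝ)

lemma lossV_nonneg (E : St n) (b : Fin n) (t : Finset (Fin n)) : 0 ≤ lossV E b t := Nat.cast_nonneg _

/-- The change of `wc` at `g`, counted only when `g` survives. -/
noncomputable def dw (i : ℕ) (E : St n) (t g : Finset (Fin n)) : ℝ :=
  if ({g} : St n) ⊆ E \ sides t then |wc (i + 1) (E \ sides t) g - wc i E g| else 0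

lemma dw_nonneg (i : ℕ) (E : St n) (t g : Finset (Fin n)) : 0 ≤ dw i E t g := by
  unfold dw; split_ifs <;> [exact abs_nonneg _; exact le_rfl]

variable {i : ℕ} {P : Env} {E : St n} {eta : ℕ → ℝ}

lemma lossV_le (hs : Small n P i) (hg : Good P i E) (b : Fin n) {t : Finset (Fin n)}
    (ht : t ∈ triangles E) : lossV E b t ≤ 7 / 2 * mu n i := by
  have hh : lossV E b t ≤ ∑ f ∈ sides t, (deg E f : ℝ) := by
    refine le_trans ?_ (FlagDrift.hit_upper E (sides t))
    exact Nat.cast_le.2 (card_le_card (filter_subset_filter _ (filter_subset _ _)))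
  refine hh.trans ((sum_le_sum fun f hf => triAt_le hs hg ((mem_filter.1 ht).2 hf)).trans ?_)
  rw [sum_const, card_sides ht, nsmul_eq_mul]
  push_cast
  linarith [mu_pos hs]

lemma sum_lossV_le (hs : Small n P i) (hg : Good P i E) (b : Fin n) :
    ∑ t ∈ triangles E, lossV E b t ≤ ((triV E b).card : ℝ) * (7 / 2 * mu n i) := by
  have e : ∑ t ∈ triangles E, lossV E b t = ∑ u ∈ triV E b,
      (((triangles E).filter fun t => ¬ Disjoint (sides t) (sides u)).card : ℝ) := by
    simp only [lossV, card_filter]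
    push_cast
    rw [sum_comm]
    simp only [disjoint_comm]
  rw [e]
  refine (sum_le_sum fun u hu => ((FlagDrift.hit_upper E (sides u)).trans ?_)).trans_eq
    (by rw [sum_const, nsmul_eq_mul])
  refine (sum_le_sum fun f hf =>
    triAt_le hs hg ((mem_filter.1 (mem_filter.1 hu).1).2 hf)).trans ?_
  rw [sum_const, card_sides (mem_filter.1 hu).1, nsmul_eq_mul]
  push_cast
  linarith [mu_pos hs]

lemma new_weight (b : Fin n) (t : Finset (Fin n)) :
    ∑ g ∈ edgesAt E b, ((triAt (E \ sides t) g).card : ℝ) =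
      2 * ((triV E b).card : ℝ) - 2 * lossV E b t := by
  rw [← two_card_triV (edgesAt E b) b (filter_subset_filter _ sdiff_subset)
    (fun g hg => (mem_filter.1 hg).2), triV_sdiff]
  have e : (((triV E b).filter fun u => Disjoint (sides u) (sides t)).card : ℝ) + lossV E b t =
      ((triV E b).card : ℝ) := by
    rw [lossV]
    exact_mod_cast card_filter_add_card_filter_not (s := triV E b)
      (fun u => Disjoint (sides u) (sides t))
  linarith

lemma half_weight (hs : Small n P i) (hG : GoodI P eta i E) (he : eta i ≤ 1 / 100) (b : Fin n)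
    {t : Finset (Fin n)} (ht : t ∈ triangles E) :
    0 < ((triV E b).card : ℝ) ∧
      ((triV E b).card : ℝ) ≤ 2 * ((triV E b).card : ℝ) - 2 * lossV E b t := by
  have h1 := two_triV_ge hs hG he b
  have h2 := mul_le_mul_of_nonneg_right (np_ge hs) (mu_pos hs).le
  have := lossV_le hs hG.good b ht
  have := mu_pos hs
  constructor <;> linarith

/-- The change of the vertex part in one step. -/
lemma abs_uc_change_le (hs : Small n P i) (hG : GoodI P eta i E) (he : eta i ≤ 1 / 100)
    (b : Fin n) {t : Finset (Fin n)} (ht : t ∈ triangles E) :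
    |uc (i + 1) (E \ sides t) b - uc i E b| ≤
      (∑ g ∈ edgesAt E b, ((triAt (E \ sides t) g).card : ℝ) * dw i E t g) /
          (2 * ((triV E b).card : ℝ) - 2 * lossV E b t)
        + 4 * P.w i * lossV E b t / ((triV E b).card : ℝ) := by
  obtain ⟨hT0, hhalf⟩ := half_weight hs hG he b ht
  set S := edgesAt E b with hS
  have hSb : ∀ g ∈ S, b ∈ g := fun g hgS => (mem_filter.1 hgS).2
  have hsum : ∑ g ∈ S, ((triAt E g).card : ℝ) = 2 * ((triV E b).card : ℝ) :=
    (two_card_triV S b subset_rfl hSb).symm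
  have hnew : ∑ g ∈ S, ((triAt (E \ sides t) g).card : ℝ) =
      2 * ((triV E b).card : ℝ) - 2 * lossV E b t := new_weight b t
  rw [uc_eq (i + 1) S (filter_subset_filter _ sdiff_subset) hSb (by rw [hnew]; linarith),
    uc_eq i S subset_rfl hSb (by rw [hsum]; linarith)]
  refine (weighted_mean_change S (fun g => ((triAt E g).card : ℝ))
    (fun g => ((triAt (E \ sides t) g).card : ℝ)) (wc i E) (wc (i + 1) (E \ sides t))
    (w := P.w i) rfl rfl (by rw [hnew]; linarith)
    (fun g _ => Nat.cast_le.2 (card_le_card (triAt_sdiff_subset E t g)))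
    (fun g _ => Nat.cast_nonneg _) (fun g hgS => hG.good.w g (mem_filter.1 hgS).1)).trans ?_
  rw [hnew, hsum]
  refine add_le_add (le_of_eq ?_) ?_
  · congr 1
    refine sum_congr rfl fun g _ => ?_
    by_cases hgF : ({g} : St n) ⊆ E \ sides t
    · rw [dw, if_pos hgF]
    · rcases (triAt (E \ sides t) g).eq_empty_or_nonempty with h0 | ⟨u, hu⟩
      · simp [h0]
      · exact absurd (singleton_subset_iff.2
          ((mem_filter.1 (mem_filter.1 hu).1).2 (mem_filter.1 hu).2)) hgF
  · have hw := hs.w0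
    have := lossV_nonneg E b t
    calc 2 * P.w i * (2 * ((triV E b).card : ℝ) - (2 * ((triV E b).card : ℝ) - 2 * lossV E b t)) /
          (2 * ((triV E b).card : ℝ) - 2 * lossV E b t)
        = 4 * P.w i * lossV E b t / (2 * ((triV E b).card : ℝ) - 2 * lossV E b t) := by ring_nf
      _ ≤ _ := div_le_div_of_nonneg_left (by positivity) hT0 hhalf

/-- The squared change in one step. -/
lemma sq_uc_change_le (hs : Small n P i) (hG : GoodI P eta i E) (he : eta i ≤ 1 / 100)
    (b : Fin n) {t : Finset (Fin n)} (ht : t ∈ triangles E) :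
    (uc (i + 1) (E \ sides t) b - uc i E b) ^ 2 ≤
      2 / ((triV E b).card : ℝ) * (∑ g ∈ edgesAt E b, ((triAt E g).card : ℝ) * dw i E t g ^ 2)
        + 112 * P.w i ^ 2 * mu n i / ((triV E b).card : ℝ) ^ 2 * lossV E b t := by
  obtain ⟨hT0, hhalf⟩ := half_weight hs hG he b ht
  have hc := abs_uc_change_le hs hG he b ht
  have hL := lossV_le hs hG.good b ht
  have hL0 := lossV_nonneg E b t
  have hw := hs.w0
  set S := edgesAt E b with hS
  set T := ((triV E b).card : ℝ) with hT
  set L := lossV E b t with hLd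
  set a' : Finset (Fin n) → ℝ := fun g => ((triAt (E \ sides t) g).card : ℝ)
  set A := (∑ g ∈ S, a' g * dw i E t g) / (2 * T - 2 * L) with hA
  have hW : 0 < 2 * T - 2 * L := by linarith
  have hnew : ∑ g ∈ S, a' g = 2 * T - 2 * L := new_weight b t
  have hA2 : A ^ 2 ≤ (∑ g ∈ S, ((triAt E g).card : ℝ) * dw i E t g ^ 2) / T := by
    have hcs := sum_sq_le_sum_mul_sum_of_sq_le_mul S (r := fun g => a' g * dw i E t g)
      (f := a') (g := fun g => a' g * dw i E t g ^ 2) (fun g _ => Nat.cast_nonneg _)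
      (fun g _ => mul_nonneg (Nat.cast_nonneg _) (sq_nonneg _)) (fun g _ => le_of_eq (by ring))
    rw [hnew] at hcs
    have h1 : A ^ 2 ≤ (∑ g ∈ S, a' g * dw i E t g ^ 2) / (2 * T - 2 * L) := by
      rw [hA, div_pow, div_le_div_iff₀ (pow_pos hW 2) hW]
      calc _ ≤ (2 * T - 2 * L) * (∑ g ∈ S, a' g * dw i E t g ^ 2) * (2 * T - 2 * L) :=
            mul_le_mul_of_nonneg_right hcs hW.le
        _ = _ := by ring
    refine h1.trans (div_le_div₀
      (sum_nonneg fun g _ => mul_nonneg (Nat.cast_nonneg _) (sq_nonneg _)) ?_ hT0 hhalf)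
    exact sum_le_sum fun g _ => mul_le_mul_of_nonneg_right
      (Nat.cast_le.2 (card_le_card (triAt_sdiff_subset E t g))) (sq_nonneg _)
  have h2 : (uc (i + 1) (E \ sides t) b - uc i E b) ^ 2 ≤ 2 * A ^ 2 + 2 * (4 * P.w i * L / T) ^ 2 := by
    rw [← sq_abs]
    refine (pow_le_pow_left₀ (abs_nonneg _) hc 2).trans ?_
    linarith [sq_nonneg (A - 4 * P.w i * L / T), add_sq A (4 * P.w i * L / T),
      sub_sq A (4 * P.w i * L / T)]
  have h3 : (4 * P.w i * L / T) ^ 2 ≤ 16 * P.w i ^ 2 / T ^ 2 * (7 / 2 * mu n i * L) := by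
    calc (4 * P.w i * L / T) ^ 2 = 16 * P.w i ^ 2 / T ^ 2 * (L * L) := by ring
      _ ≤ _ := mul_le_mul_of_nonneg_left (mul_le_mul_of_nonneg_right hL hL0)
          (div_nonneg (by positivity) (sq_nonneg _))
  calc (uc (i + 1) (E \ sides t) b - uc i E b) ^ 2
      ≤ 2 * ((∑ g ∈ S, ((triAt E g).card : ℝ) * dw i E t g ^ 2) / T)
        + 2 * (16 * P.w i ^ 2 / T ^ 2 * (7 / 2 * mu n i * L)) := by linarith
    _ = _ := by ring

lemma final_arith {m μ Q T np w X Y K : ℝ} (hm : 0 < m) (hμ : 0 < μ) (hnp : 0 < np) (hT0 : 0 < T)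
    (hQ : 99 / 100 * (m * μ) ≤ 3 * Q) (hT : 98 / 100 * (np * μ) ≤ 2 * T) (hY : Y ≤ T * (7 / 2 * μ))
    (hY0 : 0 ≤ Y) (hX : m / 3 * (X / Q) ≤ 2 * T * K) :
    m / 3 * ((2 / T * X + 112 * w ^ 2 * μ / T ^ 2 * Y) / Q) ≤ 4 * K + 2000 * (w ^ 2 / np) := by
  have hmμ : 0 < m * μ := mul_pos hm hμ
  have hQ0 : 0 < Q := by linarith
  have hr : m / 3 / Q ≤ 100 / (99 * μ) := by
    rw [div_div, div_le_div_iff₀ (by positivity) (by positivity)]
    linarith
  have p1 : 2 / T * (m / 3 * (X / Q)) ≤ 4 * K :=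
    (mul_le_mul_of_nonneg_left hX (by positivity)).trans_eq (by field_simp; ring)
  have p2 : 112 * w ^ 2 * μ / T ^ 2 * (m / 3 / Q * Y) ≤ 2000 * (w ^ 2 / np) := by
    calc _ ≤ 112 * w ^ 2 * μ / T ^ 2 * (100 / (99 * μ) * (T * (7 / 2 * μ))) :=
          mul_le_mul_of_nonneg_left (mul_le_mul hr hY hY0 (by positivity)) (by positivity)
      _ = 39200 / 99 * w ^ 2 * (μ / T) := by field_simp; ring
      _ ≤ 39200 / 99 * w ^ 2 * (3 / np) := by
          refine mul_le_mul_of_nonneg_left ?_ (by positivity)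
          rw [div_le_div_iff₀ hT0 hnp]
          linarith [mul_pos hnp hμ]
      _ = 39200 / 33 * (w ^ 2 / np) := by ring
      _ ≤ _ := mul_le_mul_of_nonneg_right (by norm_num) (by positivity)
  calc m / 3 * ((2 / T * X + 112 * w ^ 2 * μ / T ^ 2 * Y) / Q)
      = 2 / T * (m / 3 * (X / Q)) + 112 * w ^ 2 * μ / T ^ 2 * (m / 3 / Q * Y) := by ring
    _ ≤ _ := add_le_add p1 p2

theorem noiseU (h : Spec.NoiseW) : Spec.NoiseU := by
  obtain ⟨C, hC1, hW⟩ := h
  refine ⟨4 * C + 2000, by linarith, fun n i P eta E hs hG he b => ?_⟩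
  have hg := hG.good
  have hm : 0 < mm n i := by linarith [mm_ge hs]
  have hμ := mu_pos hs
  have hnp : 0 < (n:ℝ) * pp n i := by linarith [np_ge hs]
  have hT := two_triV_ge hs hG he b
  have hT0 : 0 < ((triV E b).card : ℝ) := by linarith [mul_pos hnp hμ]
  have hQ0 := Q_pos hs hg
  have hC0 : (0:ℝ) ≤ C := by linarith
  have j0 : 0 ≤ jW P n i := by
    have := hs.tau1; have := hs.kap1; have := hs.z0
    simp only [jW]; positivity
  have q0 : 0 ≤ qW P n i := by
    have := hs.tau1; have := hs.kap1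
    simp only [qW]; positivity
  have q1 : 0 ≤ P.w i ^ 2 / (n * pp n i) := div_nonneg (sq_nonneg _) hnp.le
  have j1 : 0 ≤ P.w i / (n * pp n i) := div_nonneg hs.w0 hnp.le
  refine ⟨?_, ?_⟩
  · rw [Flags.sq, avg_eq (triangles_ne hs hg)]
    simp only [empty_subset, if_true]
    refine (mul_le_mul_of_nonneg_left (div_le_div_of_nonneg_right
      (sum_le_sum fun t ht => sq_uc_change_le hs hG he b ht) hQ0.le) (by linarith)).trans ?_
    rw [sum_add_distrib, ← mul_sum, ← mul_sum]
    refine (final_arith (K := C * qW P n i) hm hμ hnp hT0 (three_Q_ge hs hg) hT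
      (sum_lossV_le hs hg b) (sum_nonneg fun t _ => lossV_nonneg E b t) ?_).trans ?_
    · rw [sum_comm, two_card_triV (edgesAt E b) b subset_rfl fun g hgS => (mem_filter.1 hgS).2,
        sum_div, mul_sum, sum_mul]
      refine sum_le_sum fun g hgS => ?_
      rw [← mul_sum, mul_div_assoc, ← mul_assoc, mul_comm (mm n i / 3), mul_assoc]
      refine mul_le_mul_of_nonneg_left (le_trans (le_of_eq ?_)
        (hW n i P E hs hg g (mem_filter.1 hgS).1).1) (Nat.cast_nonneg _)
      rw [Flags.sq, avg_eq (triangles_ne hs hg)]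
      refine congrArg (fun x => mm n i / 3 * (x / _)) (sum_congr rfl fun t _ => ?_)
      simp only [dw]
      split_ifs <;> simp [sq_abs]
    · simp only [qU]
      linarith [mul_nonneg hC0 q1]
  · intro t ht _
    obtain ⟨_, hhalf⟩ := half_weight hs hG he b ht
    refine (abs_uc_change_le hs hG he b ht).trans ?_
    have p1 : (∑ g ∈ edgesAt E b, ((triAt (E \ sides t) g).card : ℝ) * dw i E t g) /
        (2 * ((triV E b).card : ℝ) - 2 * lossV E b t) ≤ C * jW P n i := by
      rw [div_le_iff₀ (by linarith), ← new_weight b t, mul_sum]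
      refine sum_le_sum fun g hgS => ?_
      rw [mul_comm (C * jW P n i)]
      refine mul_le_mul_of_nonneg_left ?_ (Nat.cast_nonneg _)
      unfold dw
      split_ifs with h1
      · exact (hW n i P E hs hg g (mem_filter.1 hgS).1).2 t ht h1
      · exact mul_nonneg hC0 j0
    have p2 : 4 * P.w i * lossV E b t / ((triV E b).card : ℝ) ≤ 42 * (P.w i / (n * pp n i)) := by
      have hw := hs.w0
      calc 4 * P.w i * lossV E b t / ((triV E b).card : ℝ)
          ≤ 4 * P.w i * (7 / 2 * mu n i) / ((triV E b).card : ℝ) :=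
            div_le_div_of_nonneg_right
              (mul_le_mul_of_nonneg_left (lossV_le hs hg b ht) (by positivity)) hT0.le
        _ = 14 * P.w i * (mu n i / ((triV E b).card : ℝ)) := by ring
        _ ≤ 14 * P.w i * (3 / (n * pp n i)) := by
            refine mul_le_mul_of_nonneg_left ?_ (by positivity)
            rw [div_le_div_iff₀ hT0 hnp]
            linarith [mul_pos hnp hμ]
        _ = _ := by ring
    simp only [jU]
    linarith [mul_nonneg hC0 j0, mul_nonneg hC0 j1]

end Vale.Agent.P046.Flags
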