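import Vale.Agent.P046.Flags.PathSums

/-!
# Second moments and jumps of the first and second averaged deviations
-/

namespace Vale.Agent.P046.Flags

open Finset Chain

namespace NZW

variable {n i : ℕ} {P : Env} {E : St n}

/-- The change of the global mean. -/
lemma avgG_yy_step (h : DriftYZ.Sz P i E) {t : Finset (Fin n)} (ht : t ∈ triangles E) :
    |avgG (E \ sides t) (yy (i + 1) (E \ sides t)) - avgG E (yy i E)| ≤ 80 / mm n i := by
  have hmu := h.mu_pos
  have hm : 0 < mm n i := by linarith [h.m100]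
  have hQ := h.q_pos
  have hy := h.y1
  have hy0 := h.y0
  have hk := card_killed_le h ht
  have hk0 : (0 : ℝ) ≤ (killed E t).card := Nat.cast_nonneg _
  refine (avgG_step h ht (yy i E) (yy (i + 1) (E \ sides t)) h.y0 h.yb).trans ?_
  have hD : ∑ T ∈ triangles E, ∑ g ∈ sides T, |yy (i + 1) (E \ sides t) g - yy i E g| ≤
      24 / mm n i * (triangles E).card + 7 * (killed E t).card := by
    refine (sum_le_sum (g := fun T => ∑ g ∈ sides T,
      (8 / mm n i + 2 / mu n i * (lossAt E t g : ℝ))) fun T hT => sum_le_sum fun g hg => ?_).trans ?_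
    · refine (h.abs_dY_le (sides_sub hT hg) t).trans (le_of_eq ?_)
      rw [show (lossAt E t g : ℝ) = (Codeg.loss E g t : ℝ) from rfl]
      ring
    · simp only [sum_add_distrib, ← mul_sum]
      refine add_le_add ?_ ?_
      · refine (sum_le_card_nsmul _ _ (24 / mm n i) fun T hT => ?_).trans ?_
        · rw [sum_const, card_sides hT, nsmul_eq_mul]
          exact le_of_eq (by push_cast; ring)
        · rw [nsmul_eq_mul, mul_comm]
      · refine (mul_le_mul_of_nonneg_left (sum_all_loss_le h t) (by positivity)).trans ?_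
        rw [show 2 / mu n i * (mu n i * (1 + P.y i) * (3 * ((killed E t).card : ℝ))) =
          6 * (1 + P.y i) * (killed E t).card by field_simp; ring]
        exact mul_le_mul_of_nonneg_right (by linarith) hk0
  rw [div_le_div_iff₀ hQ hm]
  have h1 : 3 * ((triangles E).card : ℝ) ≥ 99 / 100 * (mm n i * mu n i) := by
    rw [h.q_eq]
    nlinarith [h.gg_lo, mul_pos hm hmu]
  have h2 : 24 / mm n i * (triangles E).card * mm n i = 24 * (triangles E).card := by
    field_simp
  have h3 := mul_le_mul_of_nonneg_right hD hm.le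
  rw [add_mul, h2] at h3
  nlinarith [mul_le_mul_of_nonneg_left hy (mul_nonneg hk0 hm.le),
    mul_le_mul_of_nonneg_right hk hm.le]

/-- The change of the first average. -/
lemma zz_step (h : DriftYZ.Sz P i E) {f t : Finset (Fin n)} (hf : f ∈ E)
    (ht : t ∈ triangles E) (hft : f ∉ sides t) :
    |zz (i + 1) (E \ sides t) f - zz i E f| ≤
      16 / mm n i + 3 / mu n i ^ 2 * loss1 E t f + 5 * P.y i / mu n i * lossAt E t f := by
  have hmu := h.mu_pos
  have hm : 0 < mm n i := by linarith [h.m100]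
  have hy0 := h.y0
  have hY : 99 / 100 * mu n i ≤ ((triAt E f).card : ℝ) := by
    rw [h.deg_eq]
    nlinarith [(abs_le.1 (h.yb f hf)).1, h.y1]
  refine (avgE_step h hf ht hft (yy i E) (yy (i + 1) (E \ sides t)) (c := 0) (b := P.y i)
    fun g hg => by rw [sub_zero]; exact h.yb g hg).trans ?_
  rw [div_le_iff₀ (lt_of_lt_of_le (by positivity) hY)]
  have hD : ∑ T ∈ surv E t f, ∑ g ∈ (sides T).erase f,
      |yy (i + 1) (E \ sides t) g - yy i E g| ≤
      16 / mm n i * (triAt E f).card + 2 / mu n i * loss1 E t f := by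
    refine (sum_le_sum (g := fun T => ∑ g ∈ (sides T).erase f,
      (8 / mm n i + 2 / mu n i * (lossAt E t g : ℝ))) fun T hT => sum_le_sum fun g hg => ?_).trans ?_
    · refine (h.abs_dY_le (mem_surv hT (mem_erase.1 hg).2).1 t).trans (le_of_eq ?_)
      rw [show (lossAt E t g : ℝ) = (Codeg.loss E g t : ℝ) from rfl]
      ring
    · simp only [sum_add_distrib, ← mul_sum, ← loss1_cast]
      refine add_le_add ?_ le_rfl
      refine (sum_le_card_nsmul _ _ (16 / mm n i) fun T hT => ?_).trans ?_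
      · obtain ⟨h1, h2⟩ := mem_of_triAt (mem_filter.1 hT).1
        rw [sum_const, card_erase_sides h1 h2, nsmul_eq_mul]
        exact le_of_eq (by push_cast; ring)
      · rw [nsmul_eq_mul, mul_comm]
        exact mul_le_mul_of_nonneg_left (by exact_mod_cast card_surv_le t f) (by positivity)
  have h1 : 2 / mu n i * (loss1 E t f : ℝ) ≤
      3 / mu n i ^ 2 * loss1 E t f * (triAt E f).card := by
    refine le_trans ?_ (mul_le_mul_of_nonneg_left hY (by positivity))
    rw [show 3 / mu n i ^ 2 * (loss1 E t f : ℝ) * (99 / 100 * mu n i) =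
      297 / 100 / mu n i * loss1 E t f by field_simp; ring]
    gcongr
    norm_num
  have h2 : (lossAt E t f : ℝ) * (4 * P.y i) ≤
      5 * P.y i / mu n i * lossAt E t f * (triAt E f).card := by
    refine le_trans ?_ (mul_le_mul_of_nonneg_left hY (by positivity))
    rw [show 5 * P.y i / mu n i * (lossAt E t f : ℝ) * (99 / 100 * mu n i) =
      99 / 20 * ((lossAt E t f : ℝ) * P.y i) by field_simp; ring]
    nlinarith [mul_nonneg (Nat.cast_nonneg (lossAt E t f) : (0 : ℝ) ≤ _) hy0]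
  nlinarith

/-- The change of the second average. -/
lemma ww_step (h : DriftYZ.Sz P i E) (hz : ∀ g ∈ E, |zc i E g| ≤ P.z i)
    (hz0 : 0 ≤ P.z i) {e t : Finset (Fin n)} (he : e ∈ E)
    (ht : t ∈ triangles E) (het : e ∉ sides t) :
    |ww (i + 1) (E \ sides t) e - ww i E e| ≤
      32 / mm n i + 4 / mu n i ^ 3 * loss2 E t e + 7 / mu n i ^ 2 * lossAt E t e +
        6 * P.y i / mu n i ^ 2 * loss1 E t e + 5 * P.z i / mu n i * lossAt E t e := by
  have hmu := h.mu_pos
  have hm : 0 < mm n i := by linarith [h.m100]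
  have hy0 := h.y0
  set Y : ℝ := ((triAt E e).card : ℝ) with hYdef
  have hY : 99 / 100 * mu n i ≤ Y := by
    rw [hYdef, h.deg_eq]
    nlinarith [(abs_le.1 (h.yb e he)).1, h.y1]
  refine (avgE_step h he ht het (zz i E) (zz (i + 1) (E \ sides t)) (c := avgG E (yy i E))
    (b := P.z i) fun g hg => hz g hg).trans ?_
  rw [← hYdef, div_le_iff₀ (lt_of_lt_of_le (by positivity) hY)]
  have hD : ∑ T ∈ surv E t e, ∑ g ∈ (sides T).erase e,
      |zz (i + 1) (E \ sides t) g - zz i E g| ≤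
      32 / mm n i * Y + 3 / mu n i ^ 2 * loss1sum E t e + 5 * P.y i / mu n i * loss1 E t e := by
    refine (sum_le_sum (g := fun T => ∑ g ∈ (sides T).erase e,
      (16 / mm n i + 3 / mu n i ^ 2 * (loss1 E t g : ℝ) +
        5 * P.y i / mu n i * (lossAt E t g : ℝ))) fun T hT => sum_le_sum fun g hg =>
      zz_step h (mem_surv hT (mem_erase.1 hg).2).1 ht (mem_surv hT (mem_erase.1 hg).2).2).trans ?_
    simp only [sum_add_distrib, ← mul_sum, ← loss1_cast, loss1sum, Nat.cast_sum]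
    refine add_le_add (add_le_add ?_ le_rfl) le_rfl
    refine (sum_le_card_nsmul _ _ (32 / mm n i) fun T hT => ?_).trans ?_
    · obtain ⟨h1, h2⟩ := mem_of_triAt (mem_filter.1 hT).1
      rw [sum_const, card_erase_sides h1 h2, nsmul_eq_mul]
      exact le_of_eq (by push_cast; ring)
    · rw [nsmul_eq_mul, mul_comm, hYdef]
      exact mul_le_mul_of_nonneg_left (by exact_mod_cast card_surv_le t e) (by positivity)
  have hs : (loss1sum E t e : ℝ) ≤ loss2 E t e + Y * (2 * lossAt E t e) := by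
    rw [hYdef]
    exact_mod_cast loss1sum_le t e
  have h1 : 3 / mu n i ^ 2 * (loss1sum E t e : ℝ) ≤
      (4 / mu n i ^ 3 * loss2 E t e + 7 / mu n i ^ 2 * lossAt E t e) * Y := by
    refine (mul_le_mul_of_nonneg_left hs (by positivity)).trans ?_
    have e1 : 3 / mu n i ^ 2 * (loss2 E t e : ℝ) ≤ 4 / mu n i ^ 3 * loss2 E t e * Y := by
      refine le_trans ?_ (mul_le_mul_of_nonneg_left hY (by positivity))
      rw [show 4 / mu n i ^ 3 * (loss2 E t e : ℝ) * (99 / 100 * mu n i) =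
        396 / 100 / mu n i ^ 2 * loss2 E t e by field_simp; ring]
      gcongr
      norm_num
    have e2 : 0 ≤ 1 / mu n i ^ 2 * (lossAt E t e : ℝ) * Y := by positivity
    rw [mul_add, add_mul]
    refine add_le_add e1 ?_
    rw [show 3 / mu n i ^ 2 * (Y * (2 * (lossAt E t e : ℝ))) =
      6 * (1 / mu n i ^ 2 * lossAt E t e * Y) by ring, show 7 / mu n i ^ 2 * (lossAt E t e : ℝ) * Y =
      7 * (1 / mu n i ^ 2 * lossAt E t e * Y) by ring]
    linarith
  have h2 : 5 * P.y i / mu n i * (loss1 E t e : ℝ) ≤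
      6 * P.y i / mu n i ^ 2 * loss1 E t e * Y := by
    refine le_trans ?_ (mul_le_mul_of_nonneg_left hY (by positivity))
    rw [show 6 * P.y i / mu n i ^ 2 * (loss1 E t e : ℝ) * (99 / 100 * mu n i) =
      594 / 100 * (P.y i / mu n i * loss1 E t e) by field_simp; ring,
      show 5 * P.y i / mu n i * (loss1 E t e : ℝ) = 5 * (P.y i / mu n i * loss1 E t e) by ring]
    exact mul_le_mul_of_nonneg_right (by norm_num) (by positivity)
  have h3 : (lossAt E t e : ℝ) * (4 * P.z i) ≤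
      5 * P.z i / mu n i * lossAt E t e * Y := by
    refine le_trans ?_ (mul_le_mul_of_nonneg_left hY (by positivity))
    rw [show 5 * P.z i / mu n i * (lossAt E t e : ℝ) * (99 / 100 * mu n i) =
      99 / 20 * ((lossAt E t e : ℝ) * P.z i) by field_simp; ring,
      show (lossAt E t e : ℝ) * (4 * P.z i) = 4 * ((lossAt E t e : ℝ) * P.z i) by ring]
    exact mul_le_mul_of_nonneg_right (by norm_num) (by positivity)
  linarith

lemma zc_step (h : DriftYZ.Sz P i E) {e t : Finset (Fin n)} (he : e ∈ E)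
    (ht : t ∈ triangles E) (het : e ∉ sides t) :
    |zc (i + 1) (E \ sides t) e - zc i E e| ≤
      96 / mm n i + 3 / mu n i ^ 2 * loss1 E t e + 5 * P.y i / mu n i * lossAt E t e := by
  have h1 := abs_le.1 (zz_step h he ht het)
  have h2 := abs_le.1 (avgG_yy_step h ht)
  have e1 : 96 / mm n i = 16 / mm n i + 80 / mm n i := by ring
  simp only [zc]
  rw [abs_le]
  constructor <;> linarith

lemma wc_step (h : DriftYZ.Sz P i E) (hz : ∀ g ∈ E, |zc i E g| ≤ P.z i)
    (hz0 : 0 ≤ P.z i) {e t : Finset (Fin n)} (he : e ∈ E)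
    (ht : t ∈ triangles E) (het : e ∉ sides t) :
    |wc (i + 1) (E \ sides t) e - wc i E e| ≤
      112 / mm n i + 4 / mu n i ^ 3 * loss2 E t e + 7 / mu n i ^ 2 * lossAt E t e +
        6 * P.y i / mu n i ^ 2 * loss1 E t e + 5 * P.z i / mu n i * lossAt E t e := by
  have h1 := abs_le.1 (ww_step h hz hz0 he ht het)
  have h2 := abs_le.1 (avgG_yy_step h ht)
  have e1 : 112 / mm n i = 32 / mm n i + 80 / mm n i := by ring
  simp only [wc, zz, avgG_avgE]
  rw [abs_le]
  constructor <;> linarith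

/-- A second moment from pointwise bounds. -/
lemma sq_le_sum (h : DriftYZ.Sz P i E) {e : Finset (Fin n)} (he : e ∈ E) (f : ℕ → St n → ℝ)
    (g : Finset (Fin n) → ℝ)
    (hg : ∀ t ∈ avoid E e, (f (i + 1) (E \ sides t) - f i E) ^ 2 ≤ g t) :
    Flags.sq {e} f i E ≤ 2 / mu n i * ∑ t ∈ avoid E e, g t := by
  have hval : Flags.sq {e} f i E =
      DriftYZ.rate i E * ∑ t ∈ avoid E e, (f (i + 1) (E \ sides t) - f i E) ^ 2 := by
    rw [Flags.sq, avg, if_neg h.tri_ne, DriftYZ.rate, avoid, sum_filter,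
      div_mul_eq_mul_div (mm n i / 3), mul_div_assoc]
    congr 2
    refine sum_congr rfl fun t _ => ?_
    simp only [singleton_subset_iff, mem_sdiff, he, true_and]
  rw [hval]
  exact (mul_le_mul_of_nonneg_right h.rate_le (sum_nonneg fun t _ => sq_nonneg _)).trans
    (mul_le_mul_of_nonneg_left (sum_le_sum hg) (by have := h.mu_pos; positivity))

lemma card_avoid_le (h : DriftYZ.Sz P i E) (e : Finset (Fin n)) :
    ((avoid E e).card : ℝ) ≤ mm n i * mu n i := by
  have h1 : ((avoid E e).card : ℝ) ≤ (triangles E).card := by exact_mod_cast card_filter_le _ _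
  have h2 := mul_le_mul_of_nonneg_left h.gg_hi
    (mul_nonneg (by linarith [h.m100] : (0 : ℝ) ≤ mm n i) h.mu_pos.le)
  rw [← h.q_eq] at h2
  nlinarith [mul_nonneg (by linarith [h.m100] : (0 : ℝ) ≤ mm n i) h.mu_pos.le]

lemma zc_sq_arith {μ m τ y L1 L : ℝ} (hμ : 0 < μ) (_hm : 0 < m) (hL1 : 0 ≤ L1)
    (hL : 0 ≤ L) (hL1' : L1 ≤ 48 * τ) (hL' : L ≤ 2) {D : ℝ}
    (hD : |D| ≤ 96 / m + 3 / μ ^ 2 * L1 + 5 * y / μ * L) :
    D ^ 2 ≤ 27648 / m ^ 2 + 1296 * τ / μ ^ 4 * L1 + 150 * y ^ 2 / μ ^ 2 * L := by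
  have h0 := (abs_nonneg D).trans hD
  have h1 : D ^ 2 ≤ (96 / m + 3 / μ ^ 2 * L1 + 5 * y / μ * L) ^ 2 := by
    rw [← sq_abs D]
    exact pow_le_pow_left₀ (abs_nonneg _) hD 2
  refine h1.trans ?_
  have e1 : 27648 / m ^ 2 = 3 * (96 / m) ^ 2 := by ring
  have e2 : 3 * (3 / μ ^ 2 * L1) ^ 2 ≤ 1296 * τ / μ ^ 4 * L1 := by
    rw [show 3 * (3 / μ ^ 2 * L1) ^ 2 = 27 / μ ^ 4 * L1 * L1 by ring,
      show 1296 * τ / μ ^ 4 * L1 = 27 / μ ^ 4 * L1 * (48 * τ) by ring]
    exact mul_le_mul_of_nonneg_left hL1' (by positivity)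
  have e3 : 3 * (5 * y / μ * L) ^ 2 ≤ 150 * y ^ 2 / μ ^ 2 * L := by
    rw [show 3 * (5 * y / μ * L) ^ 2 = 75 * (y / μ) ^ 2 * L * L by ring,
      show 150 * y ^ 2 / μ ^ 2 * L = 75 * (y / μ) ^ 2 * L * 2 by ring]
    exact mul_le_mul_of_nonneg_left hL' (by positivity)
  nlinarith [sq_nonneg (96 / m - 3 / μ ^ 2 * L1), sq_nonneg (96 / m - 5 * y / μ * L),
    sq_nonneg (3 / μ ^ 2 * L1 - 5 * y / μ * L)]

lemma wc_sq_arith {μ m τ κ y z L2 L1 L : ℝ} (hμ : 0 < μ) (hL2 : 0 ≤ L2) (hL1 : 0 ≤ L1)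
    (hL : 0 ≤ L) (hL2' : L2 ≤ 240 * (τ + κ)) (hL1' : L1 ≤ 48 * τ) (hL' : L ≤ 2) {D : ℝ}
    (hD : |D| ≤ 112 / m + 4 / μ ^ 3 * L2 + 7 / μ ^ 2 * L + 6 * y / μ ^ 2 * L1 + 5 * z / μ * L) :
    D ^ 2 ≤ 62720 / m ^ 2 + 19200 * (τ + κ) / μ ^ 6 * L2 + 490 / μ ^ 4 * L +
      8640 * (y ^ 2 * τ) / μ ^ 4 * L1 + 250 * z ^ 2 / μ ^ 2 * L := by
  have h1 : D ^ 2 ≤ (112 / m + 4 / μ ^ 3 * L2 + 7 / μ ^ 2 * L + 6 * y / μ ^ 2 * L1 +
      5 * z / μ * L) ^ 2 := by
    rw [← sq_abs D]
    exact pow_le_pow_left₀ (abs_nonneg _) hD 2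
  refine h1.trans ?_
  have five : ∀ a b c d f : ℝ, (a + b + c + d + f) ^ 2 ≤
      5 * a ^ 2 + 5 * b ^ 2 + 5 * c ^ 2 + 5 * d ^ 2 + 5 * f ^ 2 := fun a b c d f => by
    nlinarith [sq_nonneg (a - b), sq_nonneg (a - c), sq_nonneg (a - d), sq_nonneg (a - f),
      sq_nonneg (b - c), sq_nonneg (b - d), sq_nonneg (b - f), sq_nonneg (c - d),
      sq_nonneg (c - f), sq_nonneg (d - f)]
  refine (five _ _ _ _ _).trans ?_
  refine add_le_add (add_le_add (add_le_add (add_le_add (le_of_eq (by ring)) ?_) ?_) ?_) ?_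
  · rw [show 5 * (4 / μ ^ 3 * L2) ^ 2 = 80 / μ ^ 6 * L2 * L2 by ring,
      show 19200 * (τ + κ) / μ ^ 6 * L2 = 80 / μ ^ 6 * L2 * (240 * (τ + κ)) by ring]
    exact mul_le_mul_of_nonneg_left hL2' (by positivity)
  · rw [show 5 * (7 / μ ^ 2 * L) ^ 2 = 245 / μ ^ 4 * L * L by ring,
      show 490 / μ ^ 4 * L = 245 / μ ^ 4 * L * 2 by ring]
    exact mul_le_mul_of_nonneg_left hL' (by positivity)
  · rw [show 5 * (6 * y / μ ^ 2 * L1) ^ 2 = 180 * (y / μ ^ 2) ^ 2 * L1 * L1 by ring,
      show 8640 * (y ^ 2 * τ) / μ ^ 4 * L1 = 180 * (y / μ ^ 2) ^ 2 * L1 * (48 * τ) by ring]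
    exact mul_le_mul_of_nonneg_left hL1' (by positivity)
  · rw [show 5 * (5 * z / μ * L) ^ 2 = 125 * (z / μ) ^ 2 * L * L by ring,
      show 250 * z ^ 2 / μ ^ 2 * L = 125 * (z / μ) ^ 2 * L * 2 by ring]
    exact mul_le_mul_of_nonneg_left hL' (by positivity)

lemma path_bounds (hg : Good P i E) (hs : Small n P i) {e t : Finset (Fin n)}
    (he : e ∈ E) (ht : t ∈ triangles E) (het : e ∉ sides t) :
    (loss1 E t e : ℝ) ≤ 48 * P.tau i ∧ (lossAt E t e : ℝ) ≤ 2 ∧
      (loss2 E t e : ℝ) ≤ 240 * (P.tau i + P.kap i) := by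
  have hE := hg.size.1
  refine ⟨loss1_le hE he ht het hs.tau1 hg.tau, ?_, ?_⟩
  · exact_mod_cast lossAt_le_two (E := E) (mem_complete.1 (hE he)) ht het
  · linarith [loss2_le hE he ht het hs.tau1 (by linarith [hs.kap1]) hg.tau hg.kap, hs.kap1]

end NZW

open NZW

/-- The noise of the first averaged deviation. -/
theorem noiseZ : Spec.NoiseZ := by
  refine ⟨300000, by norm_num, fun n i P E hs hg e he => ?_⟩
  have h := DriftYZ.sz hs hg
  have hmu := h.mu_pos
  have hm : 0 < mm n i := by linarith [h.m100]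
  have hy0 := h.y0
  have hτ0 : 0 < P.tau i := by linarith [hs.tau1]
  have hm4 : 1 / mm n i ≤ 4 * (P.tau i / mu n i ^ 2) := by
    refine h.inv_mm.trans ?_
    rw [mul_div_assoc']
    exact div_le_div_of_nonneg_right (by linarith [hs.tau1]) (sq_nonneg _)
  have hA : 0 ≤ P.tau i / mu n i ^ 2 := by positivity
  refine ⟨?_, fun t ht hR => ?_⟩
  · refine (sq_le_sum h he _ (fun t => 27648 / mm n i ^ 2 +
      1296 * P.tau i / mu n i ^ 4 * loss1 E t e +
      150 * P.y i ^ 2 / mu n i ^ 2 * lossAt E t e) fun t ht => ?_).trans ?_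
    · obtain ⟨ht1, ht2⟩ := mem_filter.1 ht
      obtain ⟨b1, b0, -⟩ := path_bounds hg hs he ht1 ht2
      exact zc_sq_arith hmu hm (Nat.cast_nonneg _) (Nat.cast_nonneg _) b1 b0
        (zc_step h he ht1 ht2)
    rw [sum_add_distrib, sum_add_distrib, sum_const, ← mul_sum, ← mul_sum, nsmul_eq_mul]
    refine (mul_le_mul_of_nonneg_left (add_le_add (add_le_add
      (mul_le_mul_of_nonneg_right (card_avoid_le h e) (by positivity))
      (mul_le_mul_of_nonneg_left (sum_loss1_le h he) (by positivity)))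
      (mul_le_mul_of_nonneg_left (sum_loss_le h he) (by positivity))) (by positivity)).trans ?_
    rw [show 2 / mu n i * (mm n i * mu n i * (27648 / mm n i ^ 2) +
        1296 * P.tau i / mu n i ^ 4 * (9 * mu n i ^ 3) +
        150 * P.y i ^ 2 / mu n i ^ 2 * (3 * mu n i ^ 2)) =
      55296 * (1 / mm n i) + 23328 * (P.tau i / mu n i ^ 2) + 900 * (P.y i ^ 2 / mu n i) by
        field_simp; ring]
    rw [qZ]
    have hB : 0 ≤ P.y i ^ 2 / mu n i := by positivity
    linarith
  · have het : e ∉ sides t := (mem_sdiff.1 (singleton_subset_iff.1 hR)).2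
    obtain ⟨b1, b0, -⟩ := path_bounds hg hs he ht het
    refine (zc_step h he ht het).trans ?_
    have e1 : 3 / mu n i ^ 2 * (loss1 E t e : ℝ) ≤ 144 * (P.tau i / mu n i ^ 2) := by
      rw [show 144 * (P.tau i / mu n i ^ 2) = 3 / mu n i ^ 2 * (48 * P.tau i) by ring]
      exact mul_le_mul_of_nonneg_left b1 (by positivity)
    have e2 : 5 * P.y i / mu n i * (lossAt E t e : ℝ) ≤ 10 * (P.y i / mu n i) := by
      rw [show 10 * (P.y i / mu n i) = 5 * P.y i / mu n i * 2 by ring]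
      exact mul_le_mul_of_nonneg_left b0 (by positivity)
    have hB : 0 ≤ P.y i / mu n i := by positivity
    rw [jZ, show 96 / mm n i = 96 * (1 / mm n i) by ring]
    linarith

/-- The noise of the second averaged deviation. -/
theorem noiseW : Spec.NoiseW := by
  refine ⟨2000000, by norm_num, fun n i P E hs hg e he => ?_⟩
  have h := DriftYZ.sz hs hg
  have hmu := h.mu_pos
  have hm : 0 < mm n i := by linarith [h.m100]
  have hy0 := h.y0
  have hz0 := hs.z0
  have hτ1 := hs.tau1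
  have hκ1 := hs.kap1
  have hτ0 : 0 < P.tau i := by linarith
  have hκ0 : 0 < P.kap i := by linarith
  refine ⟨?_, fun t ht hR => ?_⟩
  · refine (sq_le_sum h he _ (fun t => 62720 / mm n i ^ 2 +
      19200 * (P.tau i + P.kap i) / mu n i ^ 6 * loss2 E t e +
      490 / mu n i ^ 4 * lossAt E t e +
      8640 * (P.y i ^ 2 * P.tau i) / mu n i ^ 4 * loss1 E t e +
      250 * P.z i ^ 2 / mu n i ^ 2 * lossAt E t e) fun t ht => ?_).trans ?_
    · obtain ⟨ht1, ht2⟩ := mem_filter.1 ht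
      obtain ⟨b1, b0, b2⟩ := path_bounds hg hs he ht1 ht2
      exact wc_sq_arith hmu (Nat.cast_nonneg _) (Nat.cast_nonneg _) (Nat.cast_nonneg _) b2 b1 b0
        (wc_step h hg.z hz0 he ht1 ht2)
    have hs2 : ∑ t ∈ avoid E e, (loss2 E t e : ℝ) ≤ 27 * mu n i ^ 4 :=
      (sum_le_sum fun t _ => Nat.cast_le.2 (loss2_le_loss1sum t e)).trans (sum_loss1sum_le h he)
    rw [sum_add_distrib, sum_add_distrib, sum_add_distrib, sum_add_distrib, sum_const, ← mul_sum,
      ← mul_sum, ← mul_sum, ← mul_sum, nsmul_eq_mul]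
    refine (mul_le_mul_of_nonneg_left (add_le_add (add_le_add (add_le_add (add_le_add
      (mul_le_mul_of_nonneg_right (card_avoid_le h e) (by positivity))
      (mul_le_mul_of_nonneg_left hs2 (by positivity)))
      (mul_le_mul_of_nonneg_left (sum_loss_le h he) (by positivity)))
      (mul_le_mul_of_nonneg_left (sum_loss1_le h he) (by positivity)))
      (mul_le_mul_of_nonneg_left (sum_loss_le h he) (by positivity))) (by positivity)).trans ?_
    rw [show 2 / mu n i * (mm n i * mu n i * (62720 / mm n i ^ 2) +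
        19200 * (P.tau i + P.kap i) / mu n i ^ 6 * (27 * mu n i ^ 4) +
        490 / mu n i ^ 4 * (3 * mu n i ^ 2) +
        8640 * (P.y i ^ 2 * P.tau i) / mu n i ^ 4 * (9 * mu n i ^ 3) +
        250 * P.z i ^ 2 / mu n i ^ 2 * (3 * mu n i ^ 2)) =
      125440 * (1 / mm n i) + 1036800 * ((P.tau i + P.kap i) / mu n i ^ 3) +
        2940 * (1 / mu n i ^ 3) + 155520 * (P.y i ^ 2 * P.tau i / mu n i ^ 2) +
        1500 * (P.z i ^ 2 / mu n i) by field_simp; ring]
    rw [qW]
    have h1 : 1 / mu n i ^ 3 ≤ (P.tau i + P.kap i) / mu n i ^ 3 :=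
      div_le_div_of_nonneg_right (by linarith) (by positivity)
    have a1 : 0 ≤ P.y i ^ 2 * P.tau i / mu n i ^ 2 := by positivity
    have a2 : 0 ≤ P.z i ^ 2 / mu n i := by positivity
    have a3 : 0 ≤ 1 / mm n i := by positivity
    have a4 : 0 ≤ (P.tau i + P.kap i) / mu n i ^ 3 := by positivity
    linarith
  · have het : e ∉ sides t := (mem_sdiff.1 (singleton_subset_iff.1 hR)).2
    obtain ⟨b1, b0, -⟩ := path_bounds hg hs he ht het
    have b2 := loss2_le hg.size.1 he ht het hs.tau1 hκ0.le hg.tau hg.kap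
    refine (wc_step h hg.z hz0 he ht het).trans ?_
    set A := P.tau i / mu n i ^ 2 with hA
    set K := P.kap i / mu n i ^ 3 with hK
    set Z := P.z i / mu n i with hZ
    have hA0 : 0 ≤ A := by positivity
    have hK0 : 0 ≤ K := by positivity
    have hZ0 : 0 ≤ Z := by positivity
    have e0 : 112 / mm n i ≤ 448 * A := by
      rw [show 112 / mm n i = 112 * (1 / mm n i) by ring]
      refine (mul_le_mul_of_nonneg_left h.inv_mm (by norm_num)).trans ?_
      rw [show (112 : ℝ) * (4 / mu n i ^ 2) = 448 * (1 / mu n i ^ 2) by ring, hA]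
      exact mul_le_mul_of_nonneg_left
        (div_le_div_of_nonneg_right hτ1 (sq_nonneg _)) (by norm_num)
    have e1 : 4 / mu n i ^ 3 * (loss2 E t e : ℝ) ≤ 10 * A + 96 * K := by
      refine (mul_le_mul_of_nonneg_left b2 (by positivity)).trans ?_
      rw [show 4 / mu n i ^ 3 * (240 * P.tau i + 24 * P.kap i) =
        960 * (1 / mu n i) * A + 96 * K by rw [hA, hK]; field_simp; ring]
      have : 1 / mu n i ≤ 1 / 100 := one_div_le_one_div_of_le (by norm_num) h.mu100
      nlinarith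
    have e2 : 7 / mu n i ^ 2 * (lossAt E t e : ℝ) ≤ 14 * A := by
      refine (mul_le_mul_of_nonneg_left b0 (by positivity)).trans ?_
      rw [show 7 / mu n i ^ 2 * 2 = 14 * (1 / mu n i ^ 2) by ring, hA]
      exact mul_le_mul_of_nonneg_left
        (div_le_div_of_nonneg_right hτ1 (sq_nonneg _)) (by norm_num)
    have e3 : 6 * P.y i / mu n i ^ 2 * (loss1 E t e : ℝ) ≤ 3 * A := by
      refine (mul_le_mul_of_nonneg_left b1 (by positivity)).trans ?_
      rw [show 6 * P.y i / mu n i ^ 2 * (48 * P.tau i) = 288 * P.y i * A by rw [hA]; ring]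
      exact mul_le_mul_of_nonneg_right (by linarith [h.y1]) hA0
    have e4 : 5 * P.z i / mu n i * (lossAt E t e : ℝ) ≤ 10 * Z := by
      rw [show 10 * Z = 5 * P.z i / mu n i * 2 by rw [hZ]; ring]
      exact mul_le_mul_of_nonneg_left b0 (by positivity)
    rw [jW, ← hA, ← hK, ← hZ]
    linarith

end Vale.Agent.P046.Flags
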