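import Vale.Agent.P046.Flags.ContractLink

/-!
# The incidence of vertices and opposite edges
-/

namespace Vale.Agent.P046.Flags

open Finset Chain

variable {n : ℕ}

/-- Incidence of the vertex `b` with the edge opposite to it in a triangle. -/
noncomputable def opp (E : St n) (b : Fin n) (g : Finset (Fin n)) : ℝ :=
  if b ∉ g ∧ insert b g ∈ triangles E then 1 else 0

/-- Schur bound for the transpose. -/
lemma sum_sq_mul_le {X Y : Type*} [Fintype Y] (s : Finset X) (R : Y → X → ℝ) {Λ : ℝ}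
    (hΛ0 : 0 ≤ Λ) (hΛ : ∀ b, ∑ b', |∑ g ∈ s, R b g * R b' g| ≤ Λ) (f : X → ℝ) :
    ∑ b, (∑ g ∈ s, R b g * f g) ^ 2 ≤ Λ * ∑ g ∈ s, f g ^ 2 := by
  set v : Y → ℝ := fun b => ∑ g ∈ s, R b g * f g with hv
  set w : X → ℝ := fun g => ∑ b, v b * R b g with hw
  have hF : 0 ≤ ∑ g ∈ s, f g ^ 2 := sum_nonneg fun _ _ => sq_nonneg _
  have e1 : ∑ b, v b ^ 2 = ∑ g ∈ s, w g * f g := by
    simp only [hw, sum_mul]
    rw [sum_comm]
    refine sum_congr rfl fun b _ => ?_
    rw [pow_two]
    simp only [hv]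
    rw [mul_sum]
    exact sum_congr rfl fun g _ => by ring
  have e2 : ∑ g ∈ s, w g ^ 2 = ∑ b, ∑ b', v b * v b' * ∑ g ∈ s, R b g * R b' g := by
    simp only [hw, pow_two, sum_mul_sum]
    rw [sum_comm]
    refine sum_congr rfl fun b _ => ?_
    rw [sum_comm]
    refine sum_congr rfl fun b' _ => ?_
    rw [mul_sum]
    exact sum_congr rfl fun g _ => by ring
  have hw2 : ∑ g ∈ s, w g ^ 2 ≤ Λ * ∑ b, v b ^ 2 := by
    rw [e2]
    calc ∑ b, ∑ b', v b * v b' * ∑ g ∈ s, R b g * R b' g
        ≤ ∑ b, ∑ b', (v b ^ 2 + v b' ^ 2) / 2 * |∑ g ∈ s, R b g * R b' g| := by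
          refine sum_le_sum fun b _ => sum_le_sum fun b' _ => ?_
          refine (le_abs_self _).trans ?_
          rw [abs_mul]
          refine mul_le_mul_of_nonneg_right ?_ (abs_nonneg _)
          rw [abs_mul]
          nlinarith [sq_nonneg (|v b| - |v b'|), sq_abs (v b), sq_abs (v b')]
      _ = ∑ b, ∑ b', v b ^ 2 * |∑ g ∈ s, R b g * R b' g| := by
          simp only [add_div, add_mul, sum_add_distrib]
          rw [sum_comm (f := fun b b' => v b' ^ 2 / 2 * |∑ g ∈ s, R b g * R b' g|)]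
          rw [← sum_add_distrib]
          refine sum_congr rfl fun b _ => ?_
          rw [← sum_add_distrib]
          refine sum_congr rfl fun b' _ => ?_
          rw [sum_congr rfl fun g _ => mul_comm (R b' g) (R b g)]
          ring
      _ ≤ ∑ b, v b ^ 2 * Λ := by
          refine sum_le_sum fun b _ => ?_
          rw [← mul_sum]
          exact mul_le_mul_of_nonneg_left (hΛ b) (sq_nonneg _)
      _ = Λ * ∑ b, v b ^ 2 := by rw [← sum_mul, mul_comm]
  have hcs := sum_mul_sq_le_sq_mul_sq s w f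
  rw [← e1] at hcs
  show ∑ b, v b ^ 2 ≤ _
  have hV : 0 ≤ ∑ b, v b ^ 2 := sum_nonneg fun _ _ => sq_nonneg _
  rcases hV.eq_or_lt with h | h
  · rw [← h]; exact mul_nonneg hΛ0 hF
  · have := hcs.trans (mul_le_mul_of_nonneg_right hw2 hF)
    rw [pow_two] at this
    have h2 : (∑ b, v b ^ 2) * (∑ b, v b ^ 2) ≤ (∑ b, v b ^ 2) * (Λ * ∑ g ∈ s, f g ^ 2) := by
      linarith
    exact le_of_mul_le_mul_left h2 h

/-- Sums over triangles at a vertex through the opposite edges. -/
lemma sum_opp {E : St n} (_hE : E ⊆ complete n) (b : Fin n) (F : Finset (Fin n) → ℝ) :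
    ∑ g ∈ E, opp E b g * F g = ∑ t ∈ triV E b, F (t.erase b) := by
  simp only [opp, ite_mul, one_mul, zero_mul]
  rw [← sum_filter]
  refine sum_bij (fun g _ => insert b g) (fun g hg => ?_) (fun g hg g' hg' h => ?_)
    (fun t ht => ?_) (fun g hg => ?_)
  · exact mem_filter.2 ⟨(mem_filter.1 hg).2.2, mem_insert_self _ _⟩
  · rw [← erase_insert (mem_filter.1 hg).2.1, h, erase_insert (mem_filter.1 hg').2.1]
  · obtain ⟨htE, hb⟩ := mem_of_triV ht
    refine ⟨t.erase b, mem_filter.2 ⟨?_, notMem_erase _ _, by rwa [insert_erase hb]⟩,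
      insert_erase hb⟩
    have : t.erase b ∈ (sides t).filter (fun g => b ∉ g) := by
      rw [filter_opposite htE hb]; exact mem_singleton_self _
    exact sides_sub htE (mem_filter.1 this).1
  · rw [erase_insert (mem_filter.1 hg).2.1]

/-- The opposite mean through the incidences. -/
lemma avgO_eq {E : St n} (hE : E ⊆ complete n) (b : Fin n) (f : Finset (Fin n) → ℝ) :
    avgO E f b = (∑ g ∈ E, opp E b g * f g) / (triV E b).card := by
  rw [avgO, FlagDrift.mean, sum_opp hE]
  congr 1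
  refine sum_congr rfl fun t ht => ?_
  rw [filter_opposite (mem_of_triV ht).1 (mem_of_triV ht).2, sum_singleton]

/-- Common opposite edges of two vertices. -/
lemma two_mul_sum_opp_opp {E : St n} (hE : E ⊆ complete n) {b b' : Fin n} (_hbb : b ≠ b') :
    2 * ∑ g ∈ E, opp E b g * opp E b' g = (L2 E b b' : ℝ) := by
  have key : ∀ (c p q : Fin n), ({p, q} : Finset (Fin n)) ∈ E →
      ((c ∉ ({p, q} : Finset (Fin n)) ∧ insert c ({p, q} : Finset (Fin n)) ∈ triangles E) ↔
        ({c, p} ∈ E ∧ {c, q} ∈ E)) := by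
    intro c p q hpq
    have hne := ne_of_pair_mem hE hpq
    constructor
    · rintro ⟨hc, ht⟩
      simp only [mem_insert, mem_singleton, not_or] at hc
      obtain ⟨-, hs⟩ := mem_triangles_iff.1 ht
      rw [sides_triple hc.1 hc.2 hne] at hs
      exact ⟨hs (by simp), hs (by simp)⟩
    · rintro ⟨h1, h2⟩
      have a1 := ne_of_pair_mem hE h1
      have a2 := ne_of_pair_mem hE h2
      refine ⟨by simp [a1, a2], mem_triangles_iff.2 ⟨by simp [a1, a2, hne], ?_⟩⟩
      rw [sides_triple a1 a2 hne]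
      simp [insert_subset_iff, h1, h2, hpq]
  set S := E.filter fun g => (b ∉ g ∧ insert b g ∈ triangles E) ∧
    (b' ∉ g ∧ insert b' g ∈ triangles E) with hS
  have e1 : ∑ g ∈ E, opp E b g * opp E b' g = (S.card : ℝ) := by
    rw [hS, ← sum_boole]
    refine sum_congr rfl fun g _ => ?_
    simp only [opp]
    split_ifs <;> simp_all
  have e2 : L2 E b b' = 2 * S.card := by
    rw [L2, card_eq_sum_card_fiberwise (f := fun q : Fin n × Fin n => ({q.1, q.2} : Finset (Fin n)))
      (t := S)]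
    · rw [sum_congr rfl fun g hg => ?_, sum_const, smul_eq_mul, mul_comm]
      obtain ⟨hgE, hgS⟩ := mem_filter.1 hg
      obtain ⟨p, q, hpq, rfl⟩ := card_eq_two.1 (mem_powersetCard.1 (hE hgE)).2
      have := key b p q hgE
      have := key b' p q hgE
      rw [show (univ.filter fun r : Fin n × Fin n => _).filter _ = {(p, q), (q, p)} from ?_,
        card_pair (by simp [hpq])]
      ext ⟨r, r'⟩
      simp only [mem_filter, mem_univ, true_and, mem_insert, mem_singleton, Prod.mk.injEq]
      constructor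
      · rintro ⟨hr, hset⟩
        have hrr := ne_of_pair_mem hE hr.2.2.2.2
        have h1 : r ∈ ({p, q} : Finset (Fin n)) := hset ▸ (by simp)
        have h2 : r' ∈ ({p, q} : Finset (Fin n)) := hset ▸ (by simp)
        simp only [mem_insert, mem_singleton] at h1 h2
        rcases h1 with rfl | rfl <;> rcases h2 with rfl | rfl <;> simp_all
      · rintro (⟨rfl, rfl⟩ | ⟨rfl, rfl⟩) <;> simp_all [Finset.pair_comm]
    · rintro ⟨r, r'⟩ hr
      simp only [coe_filter, mem_univ, true_and] at hr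
      obtain ⟨h1, h2, h3, h4, h5⟩ := hr
      exact mem_filter.2 ⟨h5, (key b r r' h5).2 ⟨h1, h2⟩, (key b' r r' h5).2 ⟨h3, h4⟩⟩
  rw [e1, e2]
  push_cast
  ring

/-- Linearity of the global mean. -/
lemma avgG_eq (E : St n) (f : Finset (Fin n) → ℝ) :
    avgG E f = (∑ g ∈ E, ((triAt E g).card : ℝ) * f g) / (3 * (triangles E).card) := by
  rw [avgG, FlagDrift.mean, ← sum_div, div_div, ← sum_triAt E (fun e _ => f e)]
  simp

end Vale.Agent.P046.Flags
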