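import Vale.Agent.P046.Codeg
import Vale.Agent.P046.Flags.Defs

/-!
# Second moment of the joint loss of two sides of a triangle

One step lowers the codegrees of the sides `{a,c}` and `{b,c}` of a triangle `abc` by `k` and
`k'`. Summed over the steps avoiding the triangle, `(k + k') ^ 2` is `4 mu ^ 2` up to the
deviation of the codegrees, the triple codegrees and the link walks.
-/

namespace Vale.Agent.P046.Flags.SecondOrder

open Finset Chain

variable {n : ℕ} {E : St n}

/-- The common neighbourhood of a pair. -/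
def cn (E : St n) (a c : Fin n) : Finset (Fin n) :=
  univ.filter fun d => {a, d} ∈ E ∧ {c, d} ∈ E

lemma sides_edge {u : Finset (Fin n)} (hu : u ∈ triangles E) {x d : Fin n} (hx : x ∈ u)
    (hd : d ∈ u) (hxd : x ≠ d) : ({x, d} : Finset (Fin n)) ∈ sides u ∧ {x, d} ∈ E := by
  have h : ({x, d} : Finset (Fin n)) ∈ sides u :=
    mem_powersetCard.2 ⟨insert_subset hx (singleton_subset_iff.2 hd), card_pair hxd⟩
  exact ⟨h, (mem_filter.1 hu).2 h⟩

lemma mem_star_triangle {u : Finset (Fin n)} (hu : u ∈ triangles E) {g : Finset (Fin n)}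
    (hg : g ∈ sides u) : u ∈ Codeg.star E g :=
  mem_filter.2 ⟨hu, hg⟩

lemma ne_of_edge (hsz : E ⊆ complete n) {a c : Fin n} (h : ({a, c} : Finset (Fin n)) ∈ E) :
    a ≠ c := by
  rintro rfl
  have := (mem_powersetCard.1 (hsz h)).2
  simp at this

/-- The common neighbours are no more than the triangles at the pair. -/
lemma card_cn_le (hsz : E ⊆ complete n) {a c : Fin n} (hac : ({a, c} : Finset (Fin n)) ∈ E) :
    (cn E a c).card ≤ deg E {a, c} := by
  have hne := ne_of_edge hsz hac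
  have hkey : ∀ d ∈ cn E a c, a ≠ d ∧ c ≠ d := fun d hd =>
    ⟨ne_of_edge hsz (mem_filter.1 hd).2.1, ne_of_edge hsz (mem_filter.1 hd).2.2⟩
  refine card_le_card_of_injOn (fun d => insert d ({a, c} : Finset (Fin n))) (fun d hd => ?_)
    (fun d hd d' hd' h => ?_)
  · obtain ⟨had, hcd⟩ := hkey d hd
    have hcard : (insert d ({a, c} : Finset (Fin n))).card = 3 := by
      rw [card_insert_of_notMem (by simp [had.symm, hcd.symm]), card_pair hne]
    have hsub : sides (insert d ({a, c} : Finset (Fin n))) ⊆ E := by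
      intro f hf
      obtain ⟨hfs, hf2⟩ := mem_powersetCard.1 hf
      obtain ⟨p, q, hpq, rfl⟩ := card_eq_two.1 hf2
      have hp : p = d ∨ p = a ∨ p = c := by simpa using hfs (mem_insert_self p _)
      have hq : q = d ∨ q = a ∨ q = c := by simpa using hfs (mem_insert_of_mem (mem_singleton_self q))
      have h1 := (mem_filter.1 hd).2.1
      have h2 := (mem_filter.1 hd).2.2
      rcases hp with rfl | rfl | rfl <;> rcases hq with rfl | rfl | rfl <;>
        first
          | exact absurd rfl hpq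
          | assumption
          | (rw [pair_comm]; assumption)
    exact mem_coe.2 (mem_filter.2 ⟨mem_filter.2 ⟨mem_powersetCard.2 ⟨subset_univ _, hcard⟩, hsub⟩,
      mem_powersetCard.2 ⟨subset_insert _ _, card_pair hne⟩⟩)
  · simp only at h
    have hd'' : d ∈ insert d' ({a, c} : Finset (Fin n)) := by rw [← h]; exact mem_insert_self d _
    simp only [mem_insert, mem_singleton] at hd''
    rcases hd'' with rfl | rfl | rfl
    · rfl
    · exact absurd rfl (hkey _ hd).1
    · exact absurd rfl (hkey _ hd).2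

/-- A step `u` meeting a triangle at `g` contains its apex and an end of `g`. -/
lemma exists_apex {g u v : Finset (Fin n)} (hv : v ∈ Codeg.star E g)
    (hd : ¬ Disjoint (sides v) (sides u)) (hg : g ∉ sides u) :
    ∃ d x, v = insert d g ∧ d ∉ g ∧ x ∈ g ∧ x ∈ u ∧ d ∈ u := by
  obtain ⟨hvT, hgv⟩ := mem_filter.1 hv
  obtain ⟨hgs, hg2⟩ := mem_powersetCard.1 hgv
  have hv3 : v.card = 3 := (mem_powersetCard.1 (mem_filter.1 hvT).1).2
  obtain ⟨d, hd'⟩ : ∃ d, v \ g = {d} := card_eq_one.1 (by rw [card_sdiff_of_subset hgs]; omega)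
  obtain ⟨hdv, hdg⟩ := mem_sdiff.1 (hd' ▸ mem_singleton_self d)
  have hveq : v = insert d g := by
    refine (eq_of_subset_of_card_le (insert_subset hdv hgs) ?_).symm
    rw [hv3, card_insert_of_notMem hdg, hg2]
  obtain ⟨f, hfv, hfu⟩ := not_disjoint_iff.1 hd
  obtain ⟨hfs, hf2⟩ := mem_powersetCard.1 hfv
  obtain ⟨hfus, -⟩ := mem_powersetCard.1 hfu
  have hdf : d ∈ f := by
    by_contra hnot
    have hfg : f ⊆ g := fun x hx => by
      have := hveq ▸ hfs hx
      rcases mem_insert.1 this with rfl | h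
      · exact absurd hx hnot
      · exact h
    exact hg ((eq_of_subset_of_card_le hfg (by omega)) ▸ hfu)
  obtain ⟨x, hxf, hxd⟩ := exists_mem_ne (s := f) (by omega) d
  have hxg : x ∈ g := by
    rcases mem_insert.1 (hveq ▸ hfs hxf) with h | h
    · exact absurd h hxd
    · exact h
  exact ⟨d, x, hveq, hdg, hxg, hfus hxf, hfus hdf⟩

lemma apex_mem_cn {a c d : Fin n} {v : Finset (Fin n)} (hv : v ∈ triangles E)
    (heq : v = insert d {a, c}) (hd : d ∉ ({a, c} : Finset (Fin n))) : d ∈ cn E a c := by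
  simp only [mem_insert, mem_singleton, not_or] at hd
  subst heq
  exact mem_filter.2 ⟨mem_univ _,
    (sides_edge hv (by simp) (by simp) (Ne.symm hd.1)).2,
    (sides_edge hv (by simp) (by simp) (Ne.symm hd.2)).2⟩

variable (hsz : E ⊆ complete n) {tau kap : ℝ}
  (hT3 : ∀ a b d : Fin n, a ≠ b → a ≠ d → b ≠ d → (T3 E a b d : ℝ) ≤ tau)
  (hW3 : ∀ a x z : Fin n, a ≠ x → a ≠ z → (W3 E a x z : ℝ) ≤ kap)

include hsz hT3 in
/-- Few steps kill two triangles at one edge. -/
lemma card_double {a c : Fin n} (hac : ({a, c} : Finset (Fin n)) ∈ E) :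
    (((triangles E).filter fun u => ({a, c} : Finset (Fin n)) ∉ sides u ∧
        2 ≤ Codeg.loss E {a, c} u).card : ℝ) ≤ 2 * deg E {a, c} * tau := by
  have hne := ne_of_edge hsz hac
  set P : Finset (Fin n × Fin n) :=
    (cn E a c ×ˢ cn E a c).filter fun q => ({q.1, q.2} : Finset (Fin n)) ∈ E
  have hsub : ((triangles E).filter fun u => ({a, c} : Finset (Fin n)) ∉ sides u ∧
      2 ≤ Codeg.loss E {a, c} u) ⊆
      (P ×ˢ ({a, c} : Finset (Fin n))).image fun q => {q.2, q.1.1, q.1.2} := by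
    intro u hu
    obtain ⟨huT, hgu, h2⟩ := mem_filter.1 hu
    obtain ⟨v₁, hv₁, v₂, hv₂, hne12⟩ := one_lt_card.1 h2
    obtain ⟨hs₁, hm₁⟩ := mem_filter.1 hv₁
    obtain ⟨hs₂, hm₂⟩ := mem_filter.1 hv₂
    obtain ⟨d₁, x₁, e₁, hd₁, hx₁, hx₁u, hd₁u⟩ := exists_apex hs₁ hm₁ hgu
    obtain ⟨d₂, x₂, e₂, hd₂, -, -, hd₂u⟩ := exists_apex hs₂ hm₂ hgu
    have hdd : d₁ ≠ d₂ := fun h => hne12 (by rw [e₁, e₂, h])
    have hu3 : u.card = 3 := (mem_powersetCard.1 (mem_filter.1 huT).1).2
    have hxd₁ : x₁ ≠ d₁ := fun h => hd₁ (h ▸ hx₁)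
    have hxd₂ : x₁ ≠ d₂ := fun h => hd₂ (h ▸ hx₁)
    have hueq : u = {x₁, d₁, d₂} := by
      refine (eq_of_subset_of_card_le (insert_subset hx₁u (insert_subset hd₁u
        (singleton_subset_iff.2 hd₂u))) ?_).symm
      rw [hu3, card_insert_of_notMem (by simp [hxd₁, hxd₂]), card_pair hdd]
    exact mem_image.2 ⟨((d₁, d₂), x₁), mem_product.2 ⟨mem_filter.2 ⟨mem_product.2
      ⟨apex_mem_cn (mem_filter.1 hs₁).1 e₁ hd₁,
        apex_mem_cn (mem_filter.1 hs₂).1 e₂ hd₂⟩,
      (sides_edge huT hd₁u hd₂u hdd).2⟩, hx₁⟩, hueq.symm⟩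
  have hP : (P.card : ℝ) ≤ deg E {a, c} * tau := by
    have hPsub : P ⊆ (cn E a c).biUnion fun d =>
        ((univ : Finset (Fin n)).filter fun c' =>
          {a, c'} ∈ E ∧ {c, c'} ∈ E ∧ {d, c'} ∈ E).image fun c' => (d, c') := by
      intro q hq
      obtain ⟨hq1, hq2⟩ := mem_filter.1 hq
      obtain ⟨h1, h2⟩ := mem_product.1 hq1
      exact mem_biUnion.2 ⟨q.1, h1, mem_image.2 ⟨q.2, mem_filter.2 ⟨mem_univ _,
        (mem_filter.1 h2).2.1, (mem_filter.1 h2).2.2, hq2⟩, rfl⟩⟩
    have h1 : (P.card : ℝ) ≤ ∑ d ∈ cn E a c, (T3 E a c d : ℝ) := by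
      exact_mod_cast (card_le_card hPsub).trans (card_biUnion_le.trans
        (sum_le_sum fun d _ => card_image_le))
    have h2 : ∑ d ∈ cn E a c, (T3 E a c d : ℝ) ≤ ((cn E a c).card : ℝ) * tau := by
      rw [← nsmul_eq_mul, ← sum_const]
      exact sum_le_sum fun d hd => hT3 a c d hne (ne_of_edge hsz (mem_filter.1 hd).2.1)
        (ne_of_edge hsz (mem_filter.1 hd).2.2)
    rcases (cn E a c).eq_empty_or_nonempty with h0 | ⟨d, hd⟩
    · rw [h0] at h1
      simp only [sum_empty] at h1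
      have hd0 : (deg E {a, c} : ℝ) ≥ 0 := Nat.cast_nonneg _
      rcases n.eq_zero_or_pos with hn | hn
      · subst hn; exact a.elim0
      · by_cases hdeg : deg E {a, c} = 0
        · rw [hdeg]; simpa using h1
        · obtain ⟨v, hv⟩ := card_pos.1 (Nat.pos_of_ne_zero hdeg)
          obtain ⟨hgs, hg2⟩ := mem_powersetCard.1 (mem_filter.1 hv).2
          have hv3 : v.card = 3 := (mem_powersetCard.1 (mem_filter.1 (mem_filter.1 hv).1).1).2
          obtain ⟨d, hd⟩ : (v \ {a, c}).Nonempty :=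
            card_pos.1 (by rw [card_sdiff_of_subset hgs]; omega)
          obtain ⟨hdv, hdg⟩ := mem_sdiff.1 hd
          simp only [mem_insert, mem_singleton, not_or] at hdg
          have : d ∈ cn E a c := mem_filter.2 ⟨mem_univ _,
            (sides_edge (mem_filter.1 hv).1 (hgs (by simp)) hdv (Ne.symm hdg.1)).2,
            (sides_edge (mem_filter.1 hv).1 (hgs (by simp)) hdv (Ne.symm hdg.2)).2⟩
          simp [h0] at this
    · have ht0 : 0 ≤ tau := (Nat.cast_nonneg _).trans (hT3 a c d hne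
        (ne_of_edge hsz (mem_filter.1 hd).2.1) (ne_of_edge hsz (mem_filter.1 hd).2.2))
      exact h1.trans (h2.trans (mul_le_mul_of_nonneg_right
        (by exact_mod_cast card_cn_le hsz hac) ht0))
  have h3 := (card_le_card hsub).trans card_image_le
  rw [card_product, card_pair hne] at h3
  have h4 : (((triangles E).filter fun u => ({a, c} : Finset (Fin n)) ∉ sides u ∧
      2 ≤ Codeg.loss E {a, c} u).card : ℝ) ≤ (P.card : ℝ) * 2 := by exact_mod_cast h3
  linarith

include hsz hT3 hW3 in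
/-- Few steps kill triangles at two sides of one triangle. -/
lemma card_joint {a b c : Fin n} (hab : ({a, b} : Finset (Fin n)) ∈ E)
    (hac : ({a, c} : Finset (Fin n)) ∈ E) (hbc : ({b, c} : Finset (Fin n)) ∈ E)
    {Y : ℝ} (hY : ∀ f ∈ E, (deg E f : ℝ) ≤ Y) :
    (((triangles E).filter fun u => ({a, c} : Finset (Fin n)) ∉ sides u ∧
        ({b, c} : Finset (Fin n)) ∉ sides u ∧
        1 ≤ Codeg.loss E {a, c} u ∧ 1 ≤ Codeg.loss E {b, c} u).card : ℝ)
      ≤ (tau + 1) * Y + kap := by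
  have nab := ne_of_edge hsz hab
  have nac := ne_of_edge hsz hac
  have nbc := ne_of_edge hsz hbc
  set D3 : Finset (Fin n) := univ.filter fun d => {a, d} ∈ E ∧ {b, d} ∈ E ∧ {c, d} ∈ E
  set Wp : Finset (Fin n × Fin n) := univ.filter fun q => {c, q.1} ∈ E ∧ {c, q.2} ∈ E ∧
    {a, q.1} ∈ E ∧ {q.1, q.2} ∈ E ∧ {q.2, b} ∈ E ∧ q.1 ≠ b ∧ q.2 ≠ a
  have hsub : ((triangles E).filter fun u => ({a, c} : Finset (Fin n)) ∉ sides u ∧
      ({b, c} : Finset (Fin n)) ∉ sides u ∧
      1 ≤ Codeg.loss E {a, c} u ∧ 1 ≤ Codeg.loss E {b, c} u) ⊆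
      Codeg.star E {a, b} ∪ D3.biUnion (fun d => Codeg.star E {c, d}) ∪
        Wp.image (fun q => {c, q.1, q.2}) := by
    intro u hu
    obtain ⟨huT, hgu, hhu, hk, hk'⟩ := mem_filter.1 hu
    obtain ⟨v₁, hv₁⟩ := card_pos.1 hk
    obtain ⟨v₂, hv₂⟩ := card_pos.1 hk'
    obtain ⟨hs₁, hm₁⟩ := mem_filter.1 hv₁
    obtain ⟨hs₂, hm₂⟩ := mem_filter.1 hv₂
    obtain ⟨d, x, e₁, hd, hx, hxu, hdu⟩ := exists_apex hs₁ hm₁ hgu
    obtain ⟨d', x', e₂, hd', hx', hxu', hdu'⟩ := exists_apex hs₂ hm₂ hhu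
    have hdn := apex_mem_cn (mem_filter.1 hs₁).1 e₁ hd
    have hdn' := apex_mem_cn (mem_filter.1 hs₂).1 e₂ hd'
    simp only [cn, mem_filter, mem_univ, true_and] at hdn hdn'
    have hu3 : u.card = 3 := (mem_powersetCard.1 (mem_filter.1 huT).1).2
    simp only [mem_insert, mem_singleton, not_or] at hd hd' hx hx'
    by_cases hcu : c ∈ u
    · have hau : a ∉ u := fun h => hgu (sides_edge huT h hcu nac).1
      have hbu : b ∉ u := fun h => hhu (sides_edge huT h hcu nbc).1
      by_cases hdd : d = d'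
      · subst hdd
        exact mem_union_left _ (mem_union_right _ (mem_biUnion.2 ⟨d,
          mem_filter.2 ⟨mem_univ _, hdn.1, hdn'.1, hdn.2⟩,
          mem_star_triangle huT (sides_edge huT hcu hdu (Ne.symm hd.2)).1⟩))
      · have hueq : u = {c, d, d'} := by
          refine (eq_of_subset_of_card_le (insert_subset hcu (insert_subset hdu
            (singleton_subset_iff.2 hdu'))) ?_).symm
          rw [hu3, card_insert_of_notMem (by simp [Ne.symm hd.2, Ne.symm hd'.2]), card_pair hdd]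
        refine mem_union_right _ (mem_image.2 ⟨(d, d'), mem_filter.2 ⟨mem_univ _, hdn.2, hdn'.2,
          hdn.1, (sides_edge huT hdu hdu' hdd).2, by rw [pair_comm]; exact hdn'.1, ?_, ?_⟩,
          hueq.symm⟩)
        · exact fun h => hbu (h ▸ hdu)
        · exact fun h => hau (h ▸ hdu')
    · have hxa : x = a := by
        rcases hx with h | h
        · exact h
        · exact absurd (h ▸ hxu) hcu
      have hxb : x' = b := by
        rcases hx' with h | h
        · exact h
        · exact absurd (h ▸ hxu') hcu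
      exact mem_union_left _ (mem_union_left _
        (mem_star_triangle huT (sides_edge huT (hxa ▸ hxu) (hxb ▸ hxu') nab).1))
  have hD3 : (D3.card : ℝ) ≤ tau := hT3 a b c nab nac nbc
  have hWp : (Wp.card : ℝ) ≤ kap := hW3 c a b nac.symm nbc.symm
  have hb : ((D3.biUnion fun d => Codeg.star E {c, d}).card : ℝ) ≤ (D3.card : ℝ) * Y := by
    refine le_trans (Nat.cast_le.2 card_biUnion_le) ?_
    push_cast
    rw [← nsmul_eq_mul, ← sum_const]
    exact sum_le_sum fun d hd => hY _ (mem_filter.1 hd).2.2.2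
  have hstar : ((Codeg.star E {a, b}).card : ℝ) ≤ Y := hY _ hab
  have hY0 : 0 ≤ Y := (Nat.cast_nonneg _).trans hstar
  calc _ ≤ ((Codeg.star E {a, b} ∪ D3.biUnion (fun d => Codeg.star E {c, d}) ∪
        Wp.image (fun q => {c, q.1, q.2})).card : ℝ) := Nat.cast_le.2 (card_le_card hsub)
    _ ≤ ((Codeg.star E {a, b}).card : ℝ) + (D3.biUnion fun d => Codeg.star E {c, d}).card +
        (Wp.image fun q => ({c, q.1, q.2} : Finset (Fin n))).card := by
      exact_mod_cast (card_union_le _ _).trans (Nat.add_le_add_right (card_union_le _ _) _)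
    _ ≤ Y + (D3.card : ℝ) * Y + Wp.card :=
      add_le_add (add_le_add hstar hb) (Nat.cast_le.2 card_image_le)
    _ ≤ _ := by nlinarith

include hsz hT3 hW3 in
/-- The second moment of the joint loss. -/
theorem pair_loss_sq {a b c : Fin n} {mu y : ℝ} (hmu : 100 ≤ mu) (hy1 : y ≤ 1 / 100)
    (hy : ∀ f ∈ E, |(deg E f : ℝ) - mu| ≤ y * mu) (htau : 1 ≤ tau)
    (hab : ({a, b} : Finset (Fin n)) ∈ E) (hac : ({a, c} : Finset (Fin n)) ∈ E)
    (hbc : ({b, c} : Finset (Fin n)) ∈ E) :
    |∑ u ∈ (triangles E).filter (fun u => ({a, b} : Finset (Fin n)) ∉ sides u ∧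
        ({a, c} : Finset (Fin n)) ∉ sides u ∧ ({b, c} : Finset (Fin n)) ∉ sides u),
        ((Codeg.loss E {a, c} u : ℝ) + Codeg.loss E {b, c} u) ^ 2 - 4 * mu ^ 2|
      ≤ 20 * y * mu ^ 2 + 200 * tau * mu + 20 * kap := by
  set g : Finset (Fin n) := {a, c}
  set h : Finset (Fin n) := {b, c}
  set e : Finset (Fin n) := {a, b}
  set S := (triangles E).filter (fun u => e ∉ sides u ∧ g ∉ sides u ∧ h ∉ sides u) with hS
  set k : Finset (Fin n) → ℝ := fun u => (Codeg.loss E g u : ℝ)
  set k' : Finset (Fin n) → ℝ := fun u => (Codeg.loss E h u : ℝ)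
  have hy0 : 0 ≤ y := by
    have := (abs_nonneg _).trans (hy e hab)
    exact nonneg_of_mul_nonneg_left this (by linarith)
  have hYb : ∀ f ∈ E, (deg E f : ℝ) ≤ 2 * mu := fun f hf => by
    have := (abs_le.1 (hy f hf)).2
    nlinarith
  have hk3 : ∀ {f : Finset (Fin n)} {u}, u ∈ triangles E → f ∉ sides u →
      0 ≤ (Codeg.loss E f u : ℝ) ∧ (Codeg.loss E f u : ℝ) ≤ 3 := fun hu hf =>
    ⟨Nat.cast_nonneg _, by exact_mod_cast Codeg.loss_le_three hu hf⟩
  -- one codegree
  have hone : ∀ f : Finset (Fin n), f ∈ E → ∀ o1 o2 : Finset (Fin n), o1 ∈ E → o2 ∈ E →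
      ∀ (hSf : S = ((triangles E).filter (fun u => f ∉ sides u)).filter
        (fun u => o1 ∉ sides u ∧ o2 ∉ sides u)),
      |∑ u ∈ S, (Codeg.loss E f u : ℝ) - 2 * mu ^ 2| ≤ 7 * y * mu ^ 2 + 16 * mu := by
    intro f hf o1 o2 ho1 ho2 hSf
    have hsum := Codeg.sum_loss E f
    have hfull : |∑ u ∈ Codeg.star E f, ∑ f' ∈ (sides u).erase f, ((deg E f' : ℝ) - 1)
        - 2 * mu ^ 2| ≤ 7 * y * mu ^ 2 + 3 * mu := by
      have hin : ∀ u ∈ Codeg.star E f,
          |∑ f' ∈ (sides u).erase f, ((deg E f' : ℝ) - 1) - 2 * mu| ≤ 2 * y * mu + 2 := by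
        intro u hu
        obtain ⟨hu1, hu2⟩ := mem_filter.1 hu
        have hc : ((sides u).erase f).card = 2 := by rw [card_erase_of_mem hu2, card_sides hu1]
        have hrw : ∑ f' ∈ (sides u).erase f, ((deg E f' : ℝ) - 1) - 2 * mu
            = ∑ f' ∈ (sides u).erase f, ((deg E f' : ℝ) - mu - 1) := by
          simp only [sum_sub_distrib, sum_const, hc, nsmul_eq_mul]
          push_cast
          ring
        rw [hrw]
        refine (abs_sum_le_sum_abs _ _).trans ((sum_le_card_nsmul _ _ (y * mu + 1) fun f' hf' => ?_).trans ?_)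
        · have := abs_le.1 (hy f' ((mem_filter.1 hu1).2 (mem_of_mem_erase hf')))
          exact abs_le.2 ⟨by linarith, by linarith⟩
        · rw [hc, nsmul_eq_mul]; push_cast; linarith
      have hdeg := abs_le.1 (hy f hf)
      have hcard : ((Codeg.star E f).card : ℝ) = deg E f := rfl
      have hdev : |∑ u ∈ Codeg.star E f, (∑ f' ∈ (sides u).erase f, ((deg E f' : ℝ) - 1) - 2 * mu)|
          ≤ (deg E f : ℝ) * (2 * y * mu + 2) := by
        refine (abs_sum_le_sum_abs _ _).trans ((sum_le_sum hin).trans_eq ?_)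
        rw [sum_const, nsmul_eq_mul, hcard]
      rw [sum_sub_distrib, sum_const, nsmul_eq_mul, hcard] at hdev
      have hb := abs_le.1 hdev
      have hd : (deg E f : ℝ) * (2 * y * mu + 2) ≤ (101 / 100 * mu) * (2 * y * mu + 2) :=
        mul_le_mul_of_nonneg_right (by nlinarith) (by positivity)
      have hp : 0 ≤ y * mu ^ 2 := by positivity
      have hl := mul_le_mul_of_nonneg_left hdeg.2 (show (0:ℝ) ≤ 2 * mu by linarith)
      have hr := mul_le_mul_of_nonneg_left hdeg.1 (show (0:ℝ) ≤ 2 * mu by linarith)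
      exact abs_le.2 ⟨by nlinarith [hb.1], by nlinarith [hb.2]⟩
    rw [← hsum] at hfull
    have hdiff : 0 ≤ ∑ u ∈ (triangles E).filter (fun u => f ∉ sides u), (Codeg.loss E f u : ℝ)
          - ∑ u ∈ S, (Codeg.loss E f u : ℝ) ∧
        ∑ u ∈ (triangles E).filter (fun u => f ∉ sides u), (Codeg.loss E f u : ℝ)
          - ∑ u ∈ S, (Codeg.loss E f u : ℝ) ≤ 12 * mu := by
      rw [hSf, ← sum_filter_add_sum_filter_not ((triangles E).filter (fun u => f ∉ sides u))
        (fun u => o1 ∉ sides u ∧ o2 ∉ sides u), add_sub_cancel_left]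
      refine ⟨sum_nonneg fun u _ => Nat.cast_nonneg _, (sum_le_card_nsmul _ _ 3 fun u hu => ?_).trans ?_⟩
      · obtain ⟨h1, -⟩ := mem_filter.1 hu
        exact (hk3 (mem_filter.1 h1).1 (mem_filter.1 h1).2).2
      · rw [nsmul_eq_mul]
        have hc : (((triangles E).filter (fun u => f ∉ sides u)).filter
            (fun u => ¬ (o1 ∉ sides u ∧ o2 ∉ sides u))).card ≤ deg E o1 + deg E o2 := by
          refine (card_le_card (t := Codeg.star E o1 ∪ Codeg.star E o2) fun u hu => ?_).trans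
            (card_union_le _ _)
          obtain ⟨h1, h2⟩ := mem_filter.1 hu
          rcases not_and_or.1 h2 with h | h
          · exact mem_union_left _ (mem_star_triangle (mem_filter.1 h1).1 (not_not.1 h))
          · exact mem_union_right _ (mem_star_triangle (mem_filter.1 h1).1 (not_not.1 h))
        have hc' : ((((triangles E).filter (fun u => f ∉ sides u)).filter
            (fun u => ¬ (o1 ∉ sides u ∧ o2 ∉ sides u))).card : ℝ)
            ≤ (deg E o1 : ℝ) + deg E o2 := by exact_mod_cast hc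
        nlinarith [hYb o1 ho1, hYb o2 ho2]
    have := abs_le.1 hfull
    exact abs_le.2 ⟨by linarith [hdiff.2], by linarith [hdiff.1]⟩
  have hg1 := hone g hac e h hab hbc (by
    rw [hS, filter_filter]; exact filter_congr fun u _ => by tauto)
  have hh1 := hone h hbc e g hab hac (by
    rw [hS, filter_filter]; exact filter_congr fun u _ => by tauto)
  -- the quadratic remainder
  set Bg := (triangles E).filter (fun u => g ∉ sides u ∧ 2 ≤ Codeg.loss E g u) with hBg
  set Bh := (triangles E).filter (fun u => h ∉ sides u ∧ 2 ≤ Codeg.loss E h u) with hBh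
  set Bj := (triangles E).filter (fun u => g ∉ sides u ∧ h ∉ sides u ∧
    1 ≤ Codeg.loss E g u ∧ 1 ≤ Codeg.loss E h u) with hBj
  have hpt : ∀ u ∈ S, 0 ≤ (k u + k' u) ^ 2 - k u - k' u ∧
      (k u + k' u) ^ 2 - k u - k' u ≤ (if u ∈ Bg then 6 else 0) + (if u ∈ Bh then 6 else 0)
        + (if u ∈ Bj then 18 else 0) := by
    intro u hu
    obtain ⟨huT, -, hgu, hhu⟩ := mem_filter.1 hu
    obtain ⟨ha0, ha3⟩ := hk3 huT hgu
    obtain ⟨hb0, hb3⟩ := hk3 huT hhu
    have hsq : ∀ m : ℕ, 0 ≤ (m : ℝ) ^ 2 - m := fun m => by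
      rcases Nat.eq_zero_or_pos m with hm | hm
      · simp [hm]
      · nlinarith [(show (1:ℝ) ≤ m by exact_mod_cast hm)]
    have e1 : k u ^ 2 - k u ≤ (if u ∈ Bg then (6:ℝ) else 0) := by
      by_cases h2 : 2 ≤ Codeg.loss E g u
      · rw [if_pos (mem_filter.2 ⟨huT, hgu, h2⟩)]; simp only [k]; nlinarith
      · have hle : (Codeg.loss E g u : ℝ) ≤ 1 := by exact_mod_cast (by omega)
        rw [if_neg fun hm => h2 (mem_filter.1 hm).2.2]; simp only [k]; nlinarith
    have e2 : k' u ^ 2 - k' u ≤ (if u ∈ Bh then (6:ℝ) else 0) := by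
      by_cases h2 : 2 ≤ Codeg.loss E h u
      · rw [if_pos (mem_filter.2 ⟨huT, hhu, h2⟩)]; simp only [k']; nlinarith
      · have hle : (Codeg.loss E h u : ℝ) ≤ 1 := by exact_mod_cast (by omega)
        rw [if_neg fun hm => h2 (mem_filter.1 hm).2.2]; simp only [k']; nlinarith
    have e3 : 2 * (k u * k' u) ≤ (if u ∈ Bj then (18:ℝ) else 0) := by
      by_cases h2 : 1 ≤ Codeg.loss E g u ∧ 1 ≤ Codeg.loss E h u
      · rw [if_pos (mem_filter.2 ⟨huT, hgu, hhu, h2⟩)]; simp only [k, k']; nlinarith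
      · rw [if_neg fun hm => h2 (mem_filter.1 hm).2.2.2]
        rcases not_and_or.1 h2 with h3 | h3
        · simp [k, Nat.lt_one_iff.1 (not_le.1 h3)]
        · simp [k', Nat.lt_one_iff.1 (not_le.1 h3)]
    constructor
    · simp only [k, k']; nlinarith [hsq (Codeg.loss E g u), hsq (Codeg.loss E h u)]
    · nlinarith
  have hR : ∑ u ∈ S, ((k u + k' u) ^ 2 - k u - k' u)
      ≤ 6 * (Bg.card : ℝ) + 6 * Bh.card + 18 * Bj.card := by
    refine (sum_le_sum fun u hu => (hpt u hu).2).trans ?_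
    rw [sum_add_distrib, sum_add_distrib]
    have hb : ∀ (B : Finset (Finset (Fin n))) (r : ℝ), 0 ≤ r →
        ∑ u ∈ S, (if u ∈ B then r else 0) ≤ r * B.card := fun B r hr => by
      rw [sum_ite_mem, sum_const, nsmul_eq_mul, mul_comm]
      exact mul_le_mul_of_nonneg_left (Nat.cast_le.2 (card_le_card inter_subset_right)) hr
    linarith [hb Bg 6 (by norm_num), hb Bh 6 (by norm_num), hb Bj 18 (by norm_num)]
  have hR0 : 0 ≤ ∑ u ∈ S, ((k u + k' u) ^ 2 - k u - k' u) := sum_nonneg fun u hu => (hpt u hu).1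
  have b1 : (Bg.card : ℝ) ≤ 4 * mu * tau :=
    (card_double hsz hT3 hac).trans (by nlinarith [hYb g hac])
  have b2 : (Bh.card : ℝ) ≤ 4 * mu * tau :=
    (card_double hsz hT3 hbc).trans (by nlinarith [hYb h hbc])
  have b3 : (Bj.card : ℝ) ≤ (tau + 1) * (2 * mu) + kap :=
    card_joint hsz hT3 hW3 hab hac hbc hYb
  have hk0 : 0 ≤ kap :=
    (Nat.cast_nonneg _).trans (hW3 c a b (ne_of_edge hsz hac).symm (ne_of_edge hsz hbc).symm)
  simp only [sum_sub_distrib] at hR hR0
  have hg2 := abs_le.1 hg1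
  have hh2 := abs_le.1 hh1
  have hp : 0 ≤ y * mu ^ 2 := by positivity
  have hmt : mu ≤ mu * tau := le_mul_of_one_le_right (by linarith) htau
  simp only [k, k'] at hR hR0
  exact abs_le.2 ⟨by linarith [hg2.1, hh2.1], by linarith [hg2.2, hh2.2]⟩

end Vale.Agent.P046.Flags.SecondOrder
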