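import Vale.Agent.P046.Flags.Paths
import Vale.Agent.P046.Flags.Basic
import Vale.Agent.P046.Flags.DriftY

/-!
# Sums of the path counts over a step, and one step changes of the averaging operators
-/

namespace Vale.Agent.P046.Flags.NZW

open Finset Chain

variable {n i : ℕ} {P : Env} {E : St n}

/-- The steps keeping `e`. -/
def avoid (E : St n) (e : Finset (Fin n)) : St n := (triangles E).filter fun t => e ∉ sides t

/-- The triangles at `f` surviving the removal of `t`. -/
def surv (E : St n) (t f : Finset (Fin n)) : St n :=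
  (triAt E f).filter fun T => Disjoint (sides T) (sides t)

/-- The triangles destroyed by the removal of `t`. -/
def killed (E : St n) (t : Finset (Fin n)) : St n :=
  (triangles E).filter fun T => ¬ Disjoint (sides T) (sides t)

lemma mem_surv {t f T g : Finset (Fin n)} (hT : T ∈ surv E t f) (hg : g ∈ sides T) :
    g ∈ E ∧ g ∉ sides t :=
  ⟨sides_sub (mem_of_triAt (mem_filter.1 hT).1).1 hg,
    fun h => disjoint_left.1 (mem_filter.1 hT).2 hg h⟩

lemma triAt_sdiff (t f : Finset (Fin n)) :
    triAt (E \ sides t) f =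
      triAt E f \ (triAt E f).filter (fun T => ¬ Disjoint (sides T) (sides t)) := by
  ext T
  simp only [triAt, triangles_sdiff, mem_filter, mem_sdiff]
  tauto

lemma surv_eq (t f : Finset (Fin n)) :
    surv E t f = triAt E f \ (triAt E f).filter (fun T => ¬ Disjoint (sides T) (sides t)) := by
  ext T
  simp only [surv, mem_filter, mem_sdiff]
  tauto

lemma card_surv_le (t f : Finset (Fin n)) : (surv E t f).card ≤ (triAt E f).card :=
  card_filter_le _ _

/-- The total loss of one edge over the steps keeping it. -/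
lemma sum_loss_le (h : DriftYZ.Sz P i E) {g : Finset (Fin n)} (hg : g ∈ E) :
    ∑ t ∈ avoid E g, (lossAt E t g : ℝ) ≤ 3 * mu n i ^ 2 := by
  have hmu := h.mu_pos
  have hy := h.y1
  have e : ∑ t ∈ avoid E g, (lossAt E t g : ℝ) =
      ∑ u ∈ Codeg.star E g, ∑ f ∈ (sides u).erase g, ((deg E f : ℝ) - 1) := Codeg.sum_loss E g
  rw [e]
  refine (sum_le_card_nsmul _ _ (203 / 100 * mu n i) fun u hu => ?_).trans ?_
  · obtain ⟨hu1, hu2⟩ := mem_filter.1 hu
    refine (sum_le_card_nsmul _ _ (101 / 100 * mu n i) fun f hf => ?_).trans ?_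
    · have hd : ((deg E f : ℝ)) ≤ mu n i * (1 + P.y i) :=
        h.deg_le (sides_sub hu1 (mem_erase.1 hf).2)
      nlinarith
    · rw [DriftYZ.card_erase_sides hu1 hu2, nsmul_eq_mul]
      push_cast
      linarith
  · have hd : ((Codeg.star E g).card : ℝ) ≤ mu n i * (1 + P.y i) := h.deg_le hg
    rw [nsmul_eq_mul]
    nlinarith

/-- One step of the recursion for the sums over all removals. -/
lemma sum_step_le (h : DriftYZ.Sz P i E) {e : Finset (Fin n)} (he : e ∈ E)
    (φ : Finset (Fin n) → Finset (Fin n) → ℝ) (hφ : ∀ t g, 0 ≤ φ t g) {K : ℝ} (hK0 : 0 ≤ K)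
    (hK : ∀ g ∈ E, ∑ t ∈ avoid E g, φ t g ≤ K) :
    ∑ t ∈ avoid E e, ∑ T ∈ surv E t e, ∑ g ∈ (sides T).erase e, φ t g ≤ 3 * mu n i * K := by
  calc ∑ t ∈ avoid E e, ∑ T ∈ surv E t e, ∑ g ∈ (sides T).erase e, φ t g
      ≤ ∑ t ∈ avoid E e, ∑ T ∈ triAt E e, ∑ g ∈ (sides T).erase e,
          (if g ∉ sides t then φ t g else 0) := by
        refine sum_le_sum fun t _ => le_trans (le_of_eq ?_)
          (sum_le_sum_of_subset_of_nonneg (show surv E t e ⊆ triAt E e from filter_subset _ _)
            fun T _ _ => sum_nonneg fun g _ => ?_)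
        · exact sum_congr rfl fun T hT => sum_congr rfl fun g hg =>
            (if_pos (mem_surv hT (mem_erase.1 hg).2).2).symm
        · split_ifs <;> first | exact hφ t g | exact le_rfl
    _ = ∑ T ∈ triAt E e, ∑ g ∈ (sides T).erase e, ∑ t ∈ avoid E e,
          (if g ∉ sides t then φ t g else 0) := by
        rw [sum_comm]
        exact sum_congr rfl fun T _ => sum_comm
    _ ≤ ∑ T ∈ triAt E e, ∑ _g ∈ (sides T).erase e, K := by
        refine sum_le_sum fun T hT => sum_le_sum fun g hg => ?_
        refine (sum_le_sum_of_subset_of_nonneg (filter_subset _ _) fun t _ _ => ?_).trans ?_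
        · split_ifs <;> first | exact hφ t g | exact le_rfl
        · rw [← sum_filter]
          exact hK g (sides_sub (mem_of_triAt hT).1 (mem_erase.1 hg).2)
    _ ≤ 3 * mu n i * K := by
        have hd := h.deg_le he
        have e2 : ∀ T ∈ triAt E e, ∑ _g ∈ (sides T).erase e, K = 2 * K := fun T hT => by
          rw [sum_const, card_erase_sides (mem_of_triAt hT).1 (mem_of_triAt hT).2, nsmul_eq_mul]
          norm_num
        rw [sum_congr rfl e2, sum_const, nsmul_eq_mul]
        nlinarith [h.y1, h.mu_pos, mul_nonneg h.mu_pos.le hK0]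

lemma loss1_cast (t e : Finset (Fin n)) :
    (loss1 E t e : ℝ) = ∑ T ∈ surv E t e, ∑ g ∈ (sides T).erase e, (lossAt E t g : ℝ) := by
  simp only [loss1, surv, Nat.cast_sum]

lemma sum_loss1_le (h : DriftYZ.Sz P i E) {e : Finset (Fin n)} (he : e ∈ E) :
    ∑ t ∈ avoid E e, (loss1 E t e : ℝ) ≤ 9 * mu n i ^ 3 := by
  simp only [loss1_cast]
  refine (sum_step_le h he (fun t g => (lossAt E t g : ℝ)) (fun _ _ => Nat.cast_nonneg _)
    (by positivity) fun g hg => sum_loss_le h hg).trans ?_
  exact le_of_eq (by ring)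

/-- The losses at the first step, summed over the first step. -/
def loss1sum (E : St n) (t e : Finset (Fin n)) : ℕ :=
  ∑ T ∈ surv E t e, ∑ f ∈ (sides T).erase e, loss1 E t f

lemma sum_loss1sum_le (h : DriftYZ.Sz P i E) {e : Finset (Fin n)} (he : e ∈ E) :
    ∑ t ∈ avoid E e, (loss1sum E t e : ℝ) ≤ 27 * mu n i ^ 4 := by
  simp only [loss1sum, Nat.cast_sum]
  refine (sum_step_le h he (fun t g => (loss1 E t g : ℝ)) (fun _ _ => Nat.cast_nonneg _)
    (by have := h.mu_pos; positivity) fun g hg => sum_loss1_le h hg).trans ?_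
  exact le_of_eq (by ring)

lemma loss2_le_loss1sum (t e : Finset (Fin n)) : loss2 E t e ≤ loss1sum E t e :=
  sum_le_sum fun _ _ => sum_le_sum fun _ _ => sum_le_sum fun _ _ =>
    sum_le_sum_of_subset (erase_subset _ _)

lemma loss1sum_le (t e : Finset (Fin n)) :
    loss1sum E t e ≤ loss2 E t e + (triAt E e).card * (2 * lossAt E t e) := by
  have key : ∀ T ∈ surv E t e, ∀ f ∈ (sides T).erase e, loss1 E t f ≤
      (∑ U ∈ surv E t f, ∑ g ∈ ((sides U).erase f).erase e, lossAt E t g) + lossAt E t e := by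
    intro T _ f hf
    have hfe : f ≠ e := (mem_erase.1 hf).1
    calc loss1 E t f ≤ ∑ U ∈ surv E t f, ((∑ g ∈ ((sides U).erase f).erase e, lossAt E t g) +
          if e ∈ sides U then lossAt E t e else 0) := by
          refine sum_le_sum fun U _ => ?_
          by_cases hU : e ∈ sides U
          · rw [if_pos hU, sum_erase_add _ _ (mem_erase.2 ⟨hfe.symm, hU⟩)]
          · rw [if_neg hU, erase_eq_of_notMem fun h' => hU (mem_erase.1 h').2, add_zero]
      _ ≤ _ := by
          rw [sum_add_distrib]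
          refine Nat.add_le_add_left ?_ _
          rw [← sum_filter, sum_const, smul_eq_mul]
          have h1 : ((surv E t f).filter fun U => e ∈ sides U).card ≤ 1 := by
            refine le_trans (card_le_card fun U hU => ?_) (FlagDrift.pair_card_le_one E hfe)
            obtain ⟨hU1, hU2⟩ := mem_filter.1 hU
            obtain ⟨hU3, hU4⟩ := mem_of_triAt (mem_filter.1 hU1).1
            exact mem_filter.2 ⟨hU3, hU4, hU2⟩
          simpa using Nat.mul_le_mul_right (lossAt E t e) h1
  refine (sum_le_sum fun T hT => sum_le_sum (key T hT)).trans ?_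
  simp only [sum_add_distrib]
  refine Nat.add_le_add le_rfl ?_
  calc ∑ T ∈ surv E t e, ∑ _f ∈ (sides T).erase e, lossAt E t e
      ≤ ∑ _T ∈ surv E t e, 2 * lossAt E t e := by
        refine sum_le_sum fun T hT => ?_
        obtain ⟨h1, h2⟩ := mem_of_triAt (mem_filter.1 hT).1
        rw [sum_const, card_erase_sides h1 h2, smul_eq_mul]
    _ ≤ _ := by
        rw [sum_const, smul_eq_mul]
        exact Nat.mul_le_mul_right _ (card_surv_le t e)

lemma card_killed_le (h : DriftYZ.Sz P i E) {t : Finset (Fin n)} (ht : t ∈ triangles E) :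
    ((killed E t).card : ℝ) ≤ 4 * mu n i := by
  refine (FlagDrift.hit_upper E (sides t)).trans ?_
  refine (sum_le_sum (g := fun _ => mu n i * (1 + P.y i)) fun f hf =>
    h.deg_le (sides_sub ht hf)).trans ?_
  rw [sum_const, card_sides ht, nsmul_eq_mul]
  push_cast
  nlinarith [h.y1, h.mu_pos]

/-- The losses of all edges, weighted by their codegrees. -/
lemma sum_all_loss_le (h : DriftYZ.Sz P i E) (t : Finset (Fin n)) :
    ∑ T ∈ triangles E, ∑ g ∈ sides T, (lossAt E t g : ℝ) ≤
      mu n i * (1 + P.y i) * (3 * (killed E t).card) := by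
  rw [← sum_triAt E fun g _ => (lossAt E t g : ℝ)]
  have e1 : ∑ g ∈ E, (lossAt E t g : ℝ) = 3 * ((killed E t).card : ℝ) := by
    have hs := sum_triAt E fun _ S => if ¬ Disjoint (sides S) (sides t) then (1 : ℝ) else 0
    have e3 : ∀ S ∈ triangles E, ∑ _g ∈ sides S,
        (if ¬ Disjoint (sides S) (sides t) then (1 : ℝ) else 0) =
          3 * (if ¬ Disjoint (sides S) (sides t) then (1 : ℝ) else 0) := fun S hS => by
      rw [sum_const, card_sides hS, nsmul_eq_mul]
      norm_num
    rw [sum_congr rfl e3, ← mul_sum] at hs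
    rw [killed, ← sum_boole, ← hs]
    exact sum_congr rfl fun g _ => by rw [lossAt, ← sum_boole]
  rw [← e1, mul_sum]
  refine sum_le_sum fun g hg => ?_
  rw [sum_const, nsmul_eq_mul]
  exact mul_le_mul_of_nonneg_right (h.deg_le hg) (Nat.cast_nonneg _)

/-- The change of a mean when few points are lost. -/
lemma mean_step {α : Type*} [DecidableEq α] (A L : Finset α) (z z' : α → ℝ) {B : ℝ}
    (hA : A.Nonempty) (hL : L ⊆ A) (h2 : 2 * (L.card : ℝ) ≤ A.card)
    (hB : ∀ a ∈ L, |z a - FlagDrift.mean A z| ≤ B) :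
    |FlagDrift.mean (A \ L) z' - FlagDrift.mean A z| ≤
      2 * ((∑ a ∈ A \ L, |z' a - z a|) + L.card * B) / A.card := by
  have hD : (0 : ℝ) < A.card := by exact_mod_cast hA.card_pos
  have hlt : L.card < A.card := by
    have hc : (L.card : ℝ) < A.card := by linarith [(Nat.cast_nonneg L.card : (0 : ℝ) ≤ _)]
    exact_mod_cast hc
  have hch := FlagDrift.mean_change A (fun _ : Unit => L) z (fun _ => z') () hL hlt
  have hn := FlagDrift.abs_num_le A (fun _ : Unit => L) z (fun _ => z') () hB
  beta_reduce at hch hn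
  rw [hch, abs_div, abs_of_pos (by linarith : (0 : ℝ) < (A.card : ℝ) - L.card),
    div_le_div_iff₀ (by linarith) hD]
  have h0 := (abs_nonneg _).trans hn
  nlinarith [mul_le_mul_of_nonneg_right hn hD.le, mul_nonneg h0 (sub_nonneg.2 h2)]

/-- The change of an average over the triangles at an edge. -/
lemma avgE_step (h : DriftYZ.Sz P i E) {f t : Finset (Fin n)} (hf : f ∈ E)
    (ht : t ∈ triangles E) (hft : f ∉ sides t) (x x' : Finset (Fin n) → ℝ) {c b : ℝ}
    (hb : ∀ g ∈ E, |x g - c| ≤ b) :
    |avgE (E \ sides t) x' f - avgE E x f| ≤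
      ((∑ T ∈ surv E t f, ∑ g ∈ (sides T).erase f, |x' g - x g|) + lossAt E t f * (4 * b)) /
        (triAt E f).card := by
  have h99 := h.deg_ge hf
  have hA : (triAt E f).Nonempty := card_pos.1 (by
    exact_mod_cast (by linarith : (0 : ℝ) < (triAt E f).card))
  have hl : (lossAt E t f : ℝ) ≤ 2 := by
    exact_mod_cast lossAt_le_two (E := E) (card_eq_two.2 (by
      obtain ⟨T, hT⟩ := hA
      exact card_eq_two.1 (mem_sides.1 (mem_of_triAt hT).2).2)) ht hft
  have hhalf : ∀ T ∈ triAt E f, |(∑ g ∈ (sides T).erase f, x g) / 2 - c| ≤ b := by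
    intro T hT
    obtain ⟨h1, h2⟩ := mem_of_triAt hT
    have e : (∑ g ∈ (sides T).erase f, x g) / 2 - c =
        (∑ g ∈ (sides T).erase f, (x g - c)) / 2 := by
      rw [sum_sub_distrib, sum_const, card_erase_sides h1 h2, nsmul_eq_mul]
      push_cast
      ring
    rw [e, abs_div, abs_two, div_le_iff₀ two_pos]
    refine (abs_sum_le_sum_abs _ _).trans ((sum_le_card_nsmul _ _ b fun g hg =>
      hb g (sides_sub h1 (mem_erase.1 hg).2)).trans ?_)
    rw [card_erase_sides h1 h2, nsmul_eq_mul]
    push_cast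
    linarith
  have hb0 : 0 ≤ b := by
    obtain ⟨T, hT⟩ := hA
    exact (abs_nonneg _).trans (hhalf T hT)
  have hm : |FlagDrift.mean (triAt E f) (fun T => (∑ g ∈ (sides T).erase f, x g) / 2) - c| ≤ b := by
    rw [← mean_sub_const hA]
    exact abs_mean_le hb0 hhalf
  simp only [avgE, triAt_sdiff]
  refine (mean_step _ _ _ _ (B := 2 * b) hA (filter_subset _ _) ?_ fun T hT => ?_).trans ?_
  · show 2 * (lossAt E t f : ℝ) ≤ _
    linarith
  · have h1 := abs_le.1 (hhalf T (mem_filter.1 hT).1)
    have h2 := abs_le.1 hm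
    rw [abs_le]
    constructor <;> linarith
  · refine div_le_div_of_nonneg_right ?_ (Nat.cast_nonneg _)
    rw [← surv_eq]
    have hterm : ∑ T ∈ surv E t f, |(∑ g ∈ (sides T).erase f, x' g) / 2 -
        (∑ g ∈ (sides T).erase f, x g) / 2| ≤
        (∑ T ∈ surv E t f, ∑ g ∈ (sides T).erase f, |x' g - x g|) / 2 := by
      rw [sum_div]
      refine sum_le_sum fun T _ => ?_
      rw [← sub_div, ← sum_sub_distrib, abs_div, abs_two]
      exact div_le_div_of_nonneg_right (abs_sum_le_sum_abs _ _) zero_le_two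
    change 2 * (_ + (lossAt E t f : ℝ) * (2 * b)) ≤ _
    linarith

/-- The change of a global average. -/
lemma avgG_step (h : DriftYZ.Sz P i E) {t : Finset (Fin n)} (ht : t ∈ triangles E)
    (x x' : Finset (Fin n) → ℝ) {b : ℝ} (hb0 : 0 ≤ b) (hb : ∀ g ∈ E, |x g| ≤ b) :
    |avgG (E \ sides t) x' - avgG E x| ≤
      2 * ((∑ T ∈ triangles E, ∑ g ∈ sides T, |x' g - x g|) / 3 + (killed E t).card * (2 * b)) /
        (triangles E).card := by
  have hQ := h.q_pos
  have hA : (triangles E).Nonempty := nonempty_iff_ne_empty.2 h.tri_ne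
  have hterm : ∀ T ∈ triangles E, |(∑ g ∈ sides T, x g) / 3| ≤ b := fun T hT => by
    rw [abs_div, abs_of_pos (by norm_num : (0 : ℝ) < 3), div_le_iff₀ (by norm_num : (0 : ℝ) < 3)]
    refine (abs_sum_le_sum_abs _ _).trans ((sum_le_card_nsmul _ _ b fun g hg =>
      hb g (sides_sub hT hg)).trans ?_)
    rw [card_sides hT, nsmul_eq_mul]
    push_cast
    linarith
  have e : triangles (E \ sides t) = triangles E \ killed E t := by
    ext T
    simp only [triangles_sdiff, killed, mem_filter, mem_sdiff]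
    tauto
  simp only [avgG, e]
  refine (mean_step _ _ _ _ (B := 2 * b) hA (filter_subset _ _) ?_ fun T hT => ?_).trans ?_
  · have := card_killed_le h ht
    have h1 := mul_le_mul (mul_le_mul_of_nonneg_right h.m100 h.mu_pos.le) h.gg_lo (by norm_num)
      (mul_nonneg (by linarith [h.m100]) h.mu_pos.le)
    have h2 := h.q_eq
    show 2 * ((killed E t).card : ℝ) ≤ _
    linarith [h.mu_pos]
  · have h1 := abs_le.1 (hterm T (mem_filter.1 hT).1)
    have h2 := abs_le.1 (abs_mean_le hb0 hterm)
    rw [abs_le]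
    constructor <;> linarith
  · refine div_le_div_of_nonneg_right (mul_le_mul_of_nonneg_left ?_ zero_le_two)
      (Nat.cast_nonneg _)
    refine add_le_add ?_ le_rfl
    rw [sum_div]
    refine (sum_le_sum_of_subset_of_nonneg sdiff_subset fun _ _ _ => abs_nonneg _).trans
      (sum_le_sum fun T _ => ?_)
    rw [← sub_div, ← sum_sub_distrib, abs_div, abs_of_pos (by norm_num : (0 : ℝ) < 3)]
    exact div_le_div_of_nonneg_right (abs_sum_le_sum_abs _ _) (by norm_num)

end Vale.Agent.P046.Flags.NZW
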