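import Vale.Agent.P046.Flags.Defs

/-!
# Deterministic path counts

`lossAt E t g` is the number of triangles at `g` destroyed by the removal of `t`. Sums of it
over the flags one and two steps away from an edge are controlled by the triple codegrees and
the link walks; over all removals they are controlled by codegrees.
-/

namespace Vale.Agent.P046.Flags

open Finset Chain

variable {n : ℕ}

/-- Common neighbours. -/
def nbr (E : St n) (a b : Fin n) : Finset (Fin n) :=
  univ.filter fun x => {a, x} ∈ E ∧ {b, x} ∈ E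

/-- The triangles at `g` destroyed by removing `t`. -/
def lossAt (E : St n) (t g : Finset (Fin n)) : ℕ :=
  ((triAt E g).filter fun S => ¬ Disjoint (sides S) (sides t)).card

lemma mem_complete {e : Finset (Fin n)} : e ∈ complete n ↔ e.card = 2 := by
  simp [complete, mem_powersetCard]

lemma edge_ne {E : St n} (hE : E ⊆ complete n) {a x : Fin n} (h : {a, x} ∈ E) : a ≠ x := by
  intro hax
  have := mem_complete.1 (hE h)
  simp [hax] at this

lemma sides_subset {E : St n} {t : Finset (Fin n)} (ht : t ∈ triangles E) : sides t ⊆ E :=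
  (mem_filter.1 ht).2

lemma card_tri {E : St n} {t : Finset (Fin n)} (ht : t ∈ triangles E) : t.card = 3 :=
  (mem_powersetCard.1 (mem_filter.1 ht).1).2

lemma pair_mem_sides {t : Finset (Fin n)} {a b : Fin n} (hab : a ≠ b) :
    ({a, b} : Finset (Fin n)) ∈ sides t ↔ a ∈ t ∧ b ∈ t := by
  simp [sides, mem_powersetCard, insert_subset_iff, card_pair hab]

lemma mem_sides {t g : Finset (Fin n)} : g ∈ sides t ↔ g ⊆ t ∧ g.card = 2 := by
  simp [sides, mem_powersetCard]

lemma pair_mem_of_tri {E : St n} {t : Finset (Fin n)} (ht : t ∈ triangles E) {a b : Fin n}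
    (ha : a ∈ t) (hb : b ∈ t) (hab : a ≠ b) : {a, b} ∈ E :=
  sides_subset ht ((pair_mem_sides hab).2 ⟨ha, hb⟩)

lemma triple_shape {E : St n} {e T : Finset (Fin n)} (he : e.card = 2) (hT : T ∈ triAt E e) :
    ∃ x, x ∉ e ∧ T = insert x e := by
  obtain ⟨hT1, hT2⟩ := mem_filter.1 hT
  have hsub := (mem_sides.1 hT2).1
  have hc : (T \ e).card = 1 := by rw [card_sdiff_of_subset hsub, card_tri hT1, he]
  obtain ⟨x, hx⟩ := card_eq_one.1 hc
  have hxm : x ∈ T \ e := by rw [hx]; exact mem_singleton_self x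
  refine ⟨x, (mem_sdiff.1 hxm).2, ?_⟩
  rw [← sdiff_union_of_subset hsub, hx, singleton_union]

lemma nbr_of_triAt {E : St n} {a b x : Fin n} (_hab : a ≠ b) (hxa : x ≠ a) (hxb : x ≠ b)
    (hT : insert x ({a, b} : Finset (Fin n)) ∈ triAt E {a, b}) : x ∈ nbr E a b := by
  have ht := (mem_filter.1 hT).1
  exact mem_filter.2 ⟨mem_univ _, pair_mem_of_tri ht (by simp) (by simp) hxa.symm,
    pair_mem_of_tri ht (by simp) (by simp) hxb.symm⟩

/-- A destroyed triangle meets `t` in a side through one end of `g`. -/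
lemma loss_shape {E : St n} {t g S : Finset (Fin n)} (hg : g.card = 2)
    (_ht : t ∈ triangles E) (hgt : g ∉ sides t) (hS : S ∈ triAt E g)
    (hST : ¬ Disjoint (sides S) (sides t)) :
    ∃ w ∈ t, w ∉ g ∧ S = insert w g ∧ ∃ z ∈ g, z ∈ t := by
  obtain ⟨w, hw, rfl⟩ := triple_shape hg hS
  obtain ⟨s, hs1, hs2⟩ := not_disjoint_iff.1 hST
  obtain ⟨hsS, hsc⟩ := mem_sides.1 hs1
  obtain ⟨hst, -⟩ := mem_sides.1 hs2
  have hwt : w ∈ t := by
    by_contra hwt
    have hsg : s ⊆ g := fun y hy => by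
      rcases mem_insert.1 (hsS hy) with rfl | h
      · exact absurd (hst hy) hwt
      · exact h
    exact hgt (by rwa [← eq_of_subset_of_card_le hsg (by omega)])
  obtain ⟨z, hz, hzw⟩ := exists_mem_ne (by omega : 1 < s.card) w
  refine ⟨w, hwt, hw, rfl, z, ?_, hst hz⟩
  exact (mem_insert.1 (hsS hz)).resolve_left hzw

/-- At most two triangles at a surviving edge are destroyed. -/
lemma lossAt_le_two {E : St n} {t g : Finset (Fin n)} (hg : g.card = 2)
    (ht : t ∈ triangles E) (hgt : g ∉ sides t) : lossAt E t g ≤ 2 := by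
  by_cases h : ∃ z ∈ g, z ∈ t
  · obtain ⟨z, hzg, hzt⟩ := h
    have hsub : ((triAt E g).filter fun S => ¬ Disjoint (sides S) (sides t)) ⊆
        (t.erase z).image fun w => insert w g := by
      intro S hS
      obtain ⟨hS1, hS2⟩ := mem_filter.1 hS
      obtain ⟨w, hwt, hwg, rfl, -⟩ := loss_shape hg ht hgt hS1 hS2
      exact mem_image.2 ⟨w, mem_erase.2 ⟨fun e => hwg (e ▸ hzg), hwt⟩, rfl⟩
    refine (card_le_card hsub).trans (card_image_le.trans ?_)
    rw [card_erase_of_mem hzt, card_tri ht]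
  · have : lossAt E t g = 0 := by
      refine card_eq_zero.2 (filter_eq_empty_iff.2 fun S hS hST => h ?_)
      exact (loss_shape hg ht hgt hS hST).choose_spec.2.2.2
    omega

/-- Where a surviving pair with a positive loss can sit. -/
lemma loss_pos {E : St n} (hE : E ⊆ complete n) {t : Finset (Fin n)} {p x : Fin n}
    (hpx : {p, x} ∈ E) (ht : t ∈ triangles E) (hgt : ({p, x} : Finset (Fin n)) ∉ sides t)
    (h : 0 < lossAt E t {p, x}) :
    x ∈ t ∧ p ∉ t ∨ p ∈ t ∧ x ∉ t ∧ ∃ w ∈ t, w ≠ p ∧ x ∈ nbr E p w := by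
  have hne := edge_ne hE hpx
  have hcard := card_pair hne
  obtain ⟨S, hS⟩ := card_pos.1 h
  obtain ⟨hS1, hS2⟩ := mem_filter.1 hS
  obtain ⟨w, hwt, hwg, rfl, z, hzg, hzt⟩ := loss_shape hcard ht hgt hS1 hS2
  simp only [mem_insert, mem_singleton, not_or] at hwg hzg
  by_cases hpt : p ∈ t
  · have hxt : x ∉ t := fun hx => hgt ((pair_mem_sides hne).2 ⟨hpt, hx⟩)
    refine Or.inr ⟨hpt, hxt, w, hwt, hwg.1, mem_filter.2 ⟨mem_univ _, hpx, ?_⟩⟩
    exact pair_mem_of_tri (mem_filter.1 hS1).1 (by simp) (by simp) hwg.2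
  · rcases hzg with rfl | rfl
    · exact absurd hzt hpt
    · exact Or.inl ⟨hzt, hpt⟩

lemma card_nbr_inter {E : St n} (a b w : Fin n) :
    ((nbr E a b).filter fun x => {w, x} ∈ E).card ≤ T3 E a b w := by
  refine card_le_card fun x hx => ?_
  simp only [nbr, mem_filter, mem_univ, true_and] at hx ⊢
  exact ⟨hx.1.1, hx.1.2, hx.2⟩

/-- The possible third vertices of a flag at `ab` with a destroyed side. -/
def reach (E : St n) (t : Finset (Fin n)) (a b : Fin n) : Finset (Fin n) :=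
  t ∪ (t.filter fun w => w ≠ a ∧ w ≠ b).biUnion fun w => (nbr E a b).filter fun x => {w, x} ∈ E

lemma card_reach_le {E : St n} {t : Finset (Fin n)} (ht : t ∈ triangles E) {a b : Fin n}
    (hab : a ≠ b) {τ : ℝ}
    (hT : ∀ a b d : Fin n, a ≠ b → a ≠ d → b ≠ d → (T3 E a b d : ℝ) ≤ τ) (hτ : 0 ≤ τ) :
    ((reach E t a b).card : ℝ) ≤ 3 + 3 * τ := by
  set W := t.filter fun w => w ≠ a ∧ w ≠ b
  have h1 : ((reach E t a b).card : ℝ) ≤
      t.card + ∑ w ∈ W, (((nbr E a b).filter fun x => {w, x} ∈ E).card : ℝ) := by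
    have := (card_union_le t (W.biUnion fun w => (nbr E a b).filter fun x => {w, x} ∈ E)).trans
      (Nat.add_le_add_left card_biUnion_le _)
    exact_mod_cast this
  refine h1.trans (add_le_add (by rw [card_tri ht]; norm_num) ?_)
  have h3 : (W.card : ℝ) ≤ 3 := by
    have := (card_filter_le t fun w => w ≠ a ∧ w ≠ b).trans_eq (card_tri ht)
    exact_mod_cast this
  refine (sum_le_sum fun w hw => ?_).trans ((sum_const τ).trans_le ?_)
  · obtain ⟨-, hwa, hwb⟩ := mem_filter.1 hw
    exact le_trans (by exact_mod_cast card_nbr_inter a b w) (hT a b w hab hwa.symm hwb.symm)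
  · rw [nsmul_eq_mul]; nlinarith

/-- The third vertex of a flag at `ab` with a destroyed side is in `reach`. -/
lemma mem_reach {E : St n} (hE : E ⊆ complete n) {t : Finset (Fin n)} (ht : t ∈ triangles E)
    {a b x : Fin n} (hab : a ≠ b) (he : ({a, b} : Finset (Fin n)) ∉ sides t)
    (hx : x ∈ nbr E a b) (hgt : ({a, x} : Finset (Fin n)) ∉ sides t)
    (h : 0 < lossAt E t {a, x}) : x ∈ reach E t a b := by
  have hax := (mem_filter.1 hx).2.1
  rcases loss_pos hE hax ht hgt h with ⟨hxt, -⟩ | ⟨hat, -, w, hwt, hwa, hxw⟩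
  · exact mem_union_left _ hxt
  · refine mem_union_right _ (mem_biUnion.2 ⟨w, mem_filter.2 ⟨hwt, hwa, ?_⟩,
      mem_filter.2 ⟨hx, (mem_filter.1 hxw).2.2⟩⟩)
    rintro rfl
    exact he ((pair_mem_sides hab).2 ⟨hat, hwt⟩)

/-- Losses one step away from `e`. -/
def loss1 (E : St n) (t e : Finset (Fin n)) : ℕ :=
  ∑ T ∈ (triAt E e).filter (fun T => Disjoint (sides T) (sides t)),
    ∑ g ∈ (sides T).erase e, lossAt E t g

/-- Losses two steps away from `e`, except at `e` itself. -/
def loss2 (E : St n) (t e : Finset (Fin n)) : ℕ :=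
  ∑ T ∈ (triAt E e).filter (fun T => Disjoint (sides T) (sides t)),
    ∑ f ∈ (sides T).erase e, ∑ U ∈ (triAt E f).filter (fun U => Disjoint (sides U) (sides t)),
      ∑ g ∈ ((sides U).erase f).erase e, lossAt E t g

lemma sides_erase_pair {a b x : Fin n} (hab : a ≠ b) (hxa : x ≠ a) (hxb : x ≠ b) :
    (sides (insert x ({a, b} : Finset (Fin n)))).erase {a, b} = {{a, x}, {b, x}} := by
  ext g
  simp only [mem_erase, mem_sides, mem_insert, mem_singleton]
  constructor
  · rintro ⟨hne, hsub, hc⟩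
    obtain ⟨u, v, huv, rfl⟩ := card_eq_two.1 hc
    simp only [insert_subset_iff, singleton_subset_iff, mem_insert, mem_singleton] at hsub
    obtain ⟨hu, hv⟩ := hsub
    rcases hu with rfl | rfl | rfl <;> rcases hv with rfl | rfl | rfl <;>
      first
      | exact absurd rfl huv
      | exact Or.inl rfl
      | exact Or.inr rfl
      | exact Or.inl (pair_comm _ _)
      | exact Or.inr (pair_comm _ _)
      | exact absurd rfl hne
      | exact absurd (pair_comm _ _) hne
  · rintro (rfl | rfl)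
    · refine ⟨fun h => ?_, by simp [insert_subset_iff], card_pair hxa.symm⟩
      have : x ∈ ({a, b} : Finset (Fin n)) := h ▸ (by simp)
      simp [hxa, hxb] at this
    · refine ⟨fun h => ?_, by simp [insert_subset_iff], card_pair hxb.symm⟩
      have : x ∈ ({a, b} : Finset (Fin n)) := h ▸ (by simp)
      simp [hxa, hxb] at this

lemma flag_data {E : St n} {t T : Finset (Fin n)} {a b : Fin n} (hab : a ≠ b)
    (hT : T ∈ (triAt E {a, b}).filter fun T => Disjoint (sides T) (sides t)) :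
    ∃ x, x ≠ a ∧ x ≠ b ∧ x ∈ nbr E a b ∧ T = insert x {a, b} ∧
      (sides T).erase {a, b} = {{a, x}, {b, x}} ∧
      ({a, x} : Finset (Fin n)) ∉ sides t ∧ ({b, x} : Finset (Fin n)) ∉ sides t := by
  obtain ⟨hT1, hT2⟩ := mem_filter.1 hT
  obtain ⟨x, hx, rfl⟩ := triple_shape (card_pair hab) hT1
  simp only [mem_insert, mem_singleton, not_or] at hx
  refine ⟨x, hx.1, hx.2, nbr_of_triAt hab hx.1 hx.2 hT1, rfl, sides_erase_pair hab hx.1 hx.2,
    ?_, ?_⟩ <;>
  · refine disjoint_left.1 hT2 (mem_sides.2 ⟨?_, card_pair ?_⟩)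
    · simp [insert_subset_iff]
    · first | exact Ne.symm hx.1 | exact Ne.symm hx.2

/-- One step: `O(τ)`. -/
theorem loss1_le {E : St n} (hE : E ⊆ complete n) {t e : Finset (Fin n)} (he : e ∈ E)
    (ht : t ∈ triangles E) (het : e ∉ sides t) {τ : ℝ} (hτ : 1 ≤ τ)
    (hT : ∀ a b d : Fin n, a ≠ b → a ≠ d → b ≠ d → (T3 E a b d : ℝ) ≤ τ) :
    (loss1 E t e : ℝ) ≤ 48 * τ := by
  obtain ⟨a, b, hab, rfl⟩ := card_eq_two.1 (mem_complete.1 (hE he))
  set s := (triAt E ({a, b} : Finset (Fin n))).filter fun T => Disjoint (sides T) (sides t)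
  set X := reach E t a b ∪ reach E t b a with hX
  have hb : ∀ T ∈ s, ∑ g ∈ (sides T).erase {a, b}, lossAt E t g ≤
      if T ∈ X.image (fun x => insert x ({a, b} : Finset (Fin n))) then 4 else 0 := by
    intro T hTs
    obtain ⟨x, hxa, hxb, hxN, rfl, hsd, hat, hbt⟩ := flag_data hab hTs
    rw [hsd]
    split_ifs with hm
    · refine (sum_le_card_nsmul _ _ 2 fun g hg => ?_).trans ?_
      · rcases mem_insert.1 hg with rfl | hg
        · exact lossAt_le_two (card_pair hxa.symm) ht hat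
        · rw [mem_singleton.1 hg]; exact lossAt_le_two (card_pair hxb.symm) ht hbt
      · have : ({{a, x}, {b, x}} : Finset (Finset (Fin n))).card ≤ 2 := card_le_two
        rw [smul_eq_mul]; omega
    · rw [Nat.le_zero, sum_eq_zero_iff]
      intro g hg
      by_contra hg0
      apply hm
      refine mem_image.2 ⟨x, ?_, rfl⟩
      rcases mem_insert.1 hg with rfl | hg
      · exact mem_union_left _ (mem_reach hE ht hab het hxN hat (Nat.pos_of_ne_zero hg0))
      · rw [mem_singleton.1 hg] at hg0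
        refine mem_union_right _ (mem_reach hE ht hab.symm (by rwa [pair_comm]) ?_ hbt
          (Nat.pos_of_ne_zero hg0))
        simp only [nbr, mem_filter, mem_univ, true_and] at hxN ⊢
        exact hxN.symm
  have h1 : loss1 E t {a, b} ≤ 4 * ((reach E t a b).card + (reach E t b a).card) := by
    refine (sum_le_sum hb).trans ?_
    rw [sum_ite, sum_const_zero, add_zero, sum_const, smul_eq_mul, mul_comm]
    refine Nat.mul_le_mul_left _ (le_trans (card_le_card (t := X.image
      (fun x => insert x ({a, b} : Finset (Fin n)))) fun T hT' => (mem_filter.1 hT').2) ?_)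
    exact card_image_le.trans (card_union_le _ _)
  have h2 : (loss1 E t {a, b} : ℝ) ≤
      4 * ((reach E t a b).card + (reach E t b a).card) := by exact_mod_cast h1
  linarith [card_reach_le ht hab hT (by linarith), card_reach_le ht hab.symm hT (by linarith)]

/-- Pairs of third vertices for the second step from the end `p` of the edge `pq`. -/
def reach2 (E : St n) (t : Finset (Fin n)) (p q : Fin n) : Finset (Fin n × Fin n) :=
  ((reach E t q p).image fun x => (x, q)) ∪
    ((t.filter fun x => {p, x} ∈ E).biUnion fun x => (reach E t x p).image fun c => (x, c)) ∪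
    ((t.filter fun c => c ≠ p ∧ c ≠ q).biUnion fun c =>
      ((nbr E p q).filter fun x => {c, x} ∈ E).image fun x => (x, c)) ∪
    (t.filter fun w => w ≠ p).biUnion fun w =>
      (univ : Finset (Fin n × Fin n)).filter fun z => {p, z.1} ∈ E ∧ {p, z.2} ∈ E ∧
        {q, z.1} ∈ E ∧ {z.1, z.2} ∈ E ∧ {z.2, w} ∈ E ∧ z.1 ≠ w ∧ z.2 ≠ q

lemma card_biUnion_three {γ : Type} [DecidableEq γ] (s : Finset (Fin n))
    (F : Fin n → Finset γ) (B : ℝ) (hs : (s.card : ℝ) ≤ 3) (hB : 0 ≤ B)
    (hF : ∀ w ∈ s, ((F w).card : ℝ) ≤ B) : ((s.biUnion F).card : ℝ) ≤ 3 * B := by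
  have h1 : ((s.biUnion F).card : ℝ) ≤ ∑ w ∈ s, ((F w).card : ℝ) := by
    exact_mod_cast card_biUnion_le
  refine h1.trans ((sum_le_sum hF).trans ?_)
  rw [sum_const, nsmul_eq_mul]
  exact mul_le_mul_of_nonneg_right hs hB

lemma card_image_cast {β γ : Type} [DecidableEq γ] (s : Finset β) (F : β → γ) :
    ((s.image F).card : ℝ) ≤ s.card := Nat.cast_le.2 card_image_le

lemma card_filter_three {E : St n} {t : Finset (Fin n)} (ht : t ∈ triangles E) (P : Fin n → Prop)
    [DecidablePred P] : ((t.filter P).card : ℝ) ≤ 3 := by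
  have := (card_filter_le t P).trans_eq (card_tri ht)
  exact_mod_cast this

lemma card_union_cast {γ : Type} [DecidableEq γ] (A B : Finset γ) :
    ((A ∪ B).card : ℝ) ≤ A.card + B.card := by exact_mod_cast card_union_le A B

lemma card_part2_le {E : St n} (hE : E ⊆ complete n) {t : Finset (Fin n)}
    (ht : t ∈ triangles E) (p : Fin n) {τ : ℝ} (hτ : 1 ≤ τ)
    (hT : ∀ a b d : Fin n, a ≠ b → a ≠ d → b ≠ d → (T3 E a b d : ℝ) ≤ τ) :
    (((t.filter fun x => {p, x} ∈ E).biUnion fun x =>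
      (reach E t x p).image fun c => (x, c)).card : ℝ) ≤ 3 * (3 + 3 * τ) := by
  refine card_biUnion_three _ _ _ ?_ ?_ fun x hx => ?_
  · exact card_filter_three ht _
  · linarith
  have hne := edge_ne hE (mem_filter.1 hx).2
  exact (card_image_cast _ _).trans (card_reach_le ht hne.symm hT (by linarith))

lemma card_part3_le {E : St n} {t : Finset (Fin n)}
    (ht : t ∈ triangles E) {p q : Fin n} (hpq : p ≠ q) {τ : ℝ} (hτ : 1 ≤ τ)
    (hT : ∀ a b d : Fin n, a ≠ b → a ≠ d → b ≠ d → (T3 E a b d : ℝ) ≤ τ) :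
    (((t.filter fun c => c ≠ p ∧ c ≠ q).biUnion fun c =>
      ((nbr E p q).filter fun x => {c, x} ∈ E).image fun x => (x, c)).card : ℝ) ≤ 3 * τ := by
  refine card_biUnion_three _ _ _ (card_filter_three ht (fun c => c ≠ p ∧ c ≠ q)) (by linarith)
    fun c hc => ?_
  obtain ⟨-, h1, h2⟩ := mem_filter.1 hc
  exact (card_image_cast _ _).trans
    ((Nat.cast_le.2 (card_nbr_inter p q c)).trans (hT p q c hpq (Ne.symm h1) (Ne.symm h2)))

lemma card_part4_le {E : St n} {t : Finset (Fin n)}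
    (ht : t ∈ triangles E) {p q : Fin n} (hpq : p ≠ q) {κ : ℝ} (hκ : 0 ≤ κ)
    (hW : ∀ a x z : Fin n, a ≠ x → a ≠ z → (W3 E a x z : ℝ) ≤ κ) :
    (((t.filter fun w => w ≠ p).biUnion fun w =>
      (univ : Finset (Fin n × Fin n)).filter fun z => {p, z.1} ∈ E ∧ {p, z.2} ∈ E ∧
        {q, z.1} ∈ E ∧ {z.1, z.2} ∈ E ∧ {z.2, w} ∈ E ∧ z.1 ≠ w ∧ z.2 ≠ q).card : ℝ) ≤ 3 * κ := by
  refine card_biUnion_three _ _ _ (card_filter_three ht (fun w => w ≠ p)) hκ fun w hw => ?_
  exact hW p q w hpq (Ne.symm (mem_filter.1 hw).2)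

lemma card_reach2_le {E : St n} (hE : E ⊆ complete n) {t : Finset (Fin n)}
    (ht : t ∈ triangles E) {p q : Fin n} (hpq : p ≠ q) {τ κ : ℝ} (hτ : 1 ≤ τ) (hκ : 0 ≤ κ)
    (hT : ∀ a b d : Fin n, a ≠ b → a ≠ d → b ≠ d → (T3 E a b d : ℝ) ≤ τ)
    (hW : ∀ a x z : Fin n, a ≠ x → a ≠ z → (W3 E a x z : ℝ) ≤ κ) :
    ((reach2 E t p q).card : ℝ) ≤ 30 * τ + 3 * κ := by
  have h1 := (card_image_cast (reach E t q p) fun x => (x, q)).trans
    (card_reach_le ht hpq.symm hT (by linarith))
  have h2 := card_part2_le hE ht p hτ hT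
  have h3 := card_part3_le ht hpq hτ hT
  have h4 := card_part4_le ht hpq hκ hW
  unfold reach2
  refine (card_union_cast _ _).trans ?_
  refine (add_le_add (card_union_cast _ _) le_rfl).trans ?_
  refine (add_le_add (add_le_add (card_union_cast _ _) le_rfl) le_rfl).trans ?_
  linarith

/-- The two vertices of a second step with a destroyed side are in `reach2`. -/
lemma mem_reach2 {E : St n} (hE : E ⊆ complete n) {t : Finset (Fin n)} (ht : t ∈ triangles E)
    {p q x c : Fin n} (hpq : p ≠ q) (het : ({p, q} : Finset (Fin n)) ∉ sides t)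
    (hx : x ∈ nbr E p q) (hc : c ∈ nbr E p x)
    (hft : ({p, x} : Finset (Fin n)) ∉ sides t) {g : Finset (Fin n)}
    (hg : g = {p, c} ∨ g = {x, c}) (hgt : g ∉ sides t) (hge : g ≠ {p, q})
    (h : 0 < lossAt E t g) : (x, c) ∈ reach2 E t p q := by
  simp only [nbr, mem_filter, mem_univ, true_and] at hx hc
  have hqx : x ∈ nbr E q p := mem_filter.2 ⟨mem_univ _, hx.2, hx.1⟩
  have hpx := edge_ne hE hx.1
  by_cases hcq : c = q
  · subst hcq
    rcases hg with rfl | rfl
    · exact absurd rfl hge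
    · rw [pair_comm] at h hgt
      exact mem_union_left _ (mem_union_left _ (mem_union_left _ (mem_image.2
        ⟨x, mem_reach hE ht hpq.symm (by rwa [pair_comm]) hqx hgt h, rfl⟩)))
  have hcp : c ≠ p := (edge_ne hE hc.1).symm
  by_cases hct : c ∈ t
  · exact mem_union_left _ (mem_union_right _ (mem_biUnion.2 ⟨c,
      mem_filter.2 ⟨hct, hcp, hcq⟩, mem_image.2 ⟨x, mem_filter.2
        ⟨mem_filter.2 ⟨mem_univ _, hx.1, hx.2⟩, by rw [pair_comm]; exact hc.2⟩, rfl⟩⟩))
  by_cases hxt : x ∈ t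
  · refine mem_union_left _ (mem_union_left _ (mem_union_right _ (mem_biUnion.2 ⟨x,
      mem_filter.2 ⟨hxt, hx.1⟩, mem_image.2 ⟨c, ?_, rfl⟩⟩)))
    rcases hg with rfl | rfl
    · rcases loss_pos hE hc.1 ht hgt h with ⟨hct', -⟩ | ⟨hpt, -⟩
      · exact absurd hct' hct
      · exact absurd ((pair_mem_sides hpx).2 ⟨hpt, hxt⟩) hft
    · exact mem_reach hE ht hpx.symm (by rwa [pair_comm])
        (mem_filter.2 ⟨mem_univ _, hc.2, hc.1⟩) hgt h
  rcases hg with rfl | rfl
  · rcases loss_pos hE hc.1 ht hgt h with ⟨hct', -⟩ | ⟨hpt, -, w, hwt, hwp, hcw⟩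
    · exact absurd hct' hct
    · refine mem_union_right _ (mem_biUnion.2 ⟨w, mem_filter.2 ⟨hwt, hwp⟩,
        mem_filter.2 ⟨mem_univ _, hx.1, hc.1, hx.2, hc.2, ?_, ?_, hcq⟩⟩)
      · show ({c, w} : Finset (Fin n)) ∈ E
        rw [pair_comm]; exact (mem_filter.1 hcw).2.2
      · rintro rfl; exact hxt hwt
  · rcases loss_pos hE hc.2 ht hgt h with ⟨hct', -⟩ | ⟨hxt', -⟩
    · exact absurd hct' hct
    · exact absurd hxt' hxt

/-- Two steps: `O(τ + κ)`. -/
theorem loss2_le {E : St n} (hE : E ⊆ complete n) {t e : Finset (Fin n)} (he : e ∈ E)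
    (ht : t ∈ triangles E) (het : e ∉ sides t) {τ κ : ℝ} (hτ : 1 ≤ τ) (hκ : 0 ≤ κ)
    (hT : ∀ a b d : Fin n, a ≠ b → a ≠ d → b ≠ d → (T3 E a b d : ℝ) ≤ τ)
    (hW : ∀ a x z : Fin n, a ≠ x → a ≠ z → (W3 E a x z : ℝ) ≤ κ) :
    (loss2 E t e : ℝ) ≤ 240 * τ + 24 * κ := by
  obtain ⟨a, b, hab, rfl⟩ := card_eq_two.1 (mem_complete.1 (hE he))
  set s := (triAt E ({a, b} : Finset (Fin n))).filter fun T => Disjoint (sides T) (sides t) with hs
  set J := fun f : Finset (Fin n) => ∑ U ∈ (triAt E f).filter (fun U => Disjoint (sides U) (sides t)),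
      ∑ g ∈ ((sides U).erase f).erase {a, b}, lossAt E t g with hJ
  have one : ∀ p q : Fin n, p ≠ q → ({p, q} : Finset (Fin n)) = {a, b} → ∀ x, x ≠ p → x ∈ nbr E p q →
      ({p, x} : Finset (Fin n)) ∉ sides t →
      J {p, x} ≤ 4 * ((reach2 E t p q).filter fun z => z.1 = x).card := by
    intro p q hpq hpe x hxp hxN hft
    set Y := ((reach2 E t p q).filter fun z => z.1 = x).image
      fun z => insert z.2 ({p, x} : Finset (Fin n)) with hY
    refine (sum_le_sum (g := fun U => if U ∈ Y then 4 else 0) fun U hU => ?_).trans ?_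
    · obtain ⟨c, hcp, hcx, hcN, rfl, hsd, hpt, hxt⟩ := flag_data hxp.symm hU
      rw [hsd]
      split_ifs with hm
      · refine (sum_le_card_nsmul _ _ 2 fun g hg => ?_).trans ?_
        · rcases mem_insert.1 (mem_of_mem_erase hg) with rfl | hg'
          · exact lossAt_le_two (card_pair hcp.symm) ht hpt
          · rw [mem_singleton.1 hg']; exact lossAt_le_two (card_pair hcx.symm) ht hxt
        · have := (card_erase_le (s := ({{p, c}, {x, c}} : Finset (Finset (Fin n))))
            (a := ({a, b} : Finset (Fin n)))).trans card_le_two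
          rw [smul_eq_mul]; omega
      · rw [Nat.le_zero, sum_eq_zero_iff]
        intro g hg
        by_contra hg0
        apply hm
        obtain ⟨hge, hg'⟩ := mem_erase.1 hg
        simp only [mem_insert, mem_singleton] at hg'
        refine mem_image.2 ⟨(x, c), mem_filter.2 ⟨mem_reach2 hE ht hpq (by rwa [hpe]) hxN hcN hft
          hg' ?_ (by rwa [hpe]) (Nat.pos_of_ne_zero hg0), rfl⟩, rfl⟩
        rcases hg' with rfl | rfl
        · exact hpt
        · exact hxt
    · rw [sum_ite, sum_const_zero, add_zero, sum_const, smul_eq_mul, mul_comm]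
      exact Nat.mul_le_mul_left _
        ((card_le_card (t := Y) fun U hU' => (mem_filter.1 hU').2).trans card_image_le)
  let F : Fin n → ℕ := fun x => 4 * ((reach2 E t a b).filter fun z => z.1 = x).card +
    4 * ((reach2 E t b a).filter fun z => z.1 = x).card
  have hsub : s ⊆ (univ.filter fun x => x ≠ a ∧ x ≠ b).image fun x => insert x ({a, b} : Finset (Fin n)) := by
    intro T hTs
    obtain ⟨x, hxa, hxb, -, rfl, -⟩ := flag_data hab hTs
    exact mem_image.2 ⟨x, mem_filter.2 ⟨mem_univ _, hxa, hxb⟩, rfl⟩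
  set Xs := (univ.filter fun x => x ≠ a ∧ x ≠ b).filter fun x => insert x ({a, b} : Finset (Fin n)) ∈ s
  have hinj : ∀ x ∈ Xs, ∀ y ∈ Xs,
      insert x ({a, b} : Finset (Fin n)) = insert y ({a, b} : Finset (Fin n)) → x = y := by
    intro x hx y hy hxy
    obtain ⟨-, hxa, hxb⟩ := mem_filter.1 (mem_filter.1 hx).1
    have : x ∈ insert y ({a, b} : Finset (Fin n)) := hxy ▸ mem_insert_self _ _
    simpa [hxa, hxb] using this
  have himg : s = Xs.image fun x => insert x ({a, b} : Finset (Fin n)) := by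
    ext T
    refine ⟨fun hT' => ?_, fun hT' => ?_⟩
    · obtain ⟨x, hx, rfl⟩ := mem_image.1 (hsub hT')
      exact mem_image.2 ⟨x, mem_filter.2 ⟨hx, hT'⟩, rfl⟩
    · obtain ⟨x, hx, rfl⟩ := mem_image.1 hT'
      exact (mem_filter.1 hx).2
  have h1 : loss2 E t {a, b} ≤ ∑ x ∈ Xs, F x := by
    show ∑ T ∈ s, ∑ f ∈ (sides T).erase {a, b}, J f ≤ _
    rw [himg, sum_image hinj]
    refine sum_le_sum fun x hx => ?_
    obtain ⟨y, hya, hyb, hyN, hxy, hsd, hat, hbt⟩ := flag_data hab (mem_filter.1 hx).2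
    obtain ⟨-, hxa, hxb⟩ := mem_filter.1 (mem_filter.1 hx).1
    have : x ∈ insert y ({a, b} : Finset (Fin n)) := hxy ▸ mem_insert_self _ _
    obtain rfl : x = y := by simpa [hxa, hxb] using this
    rw [hsd]
    have hp : ({a, x} : Finset (Fin n)) ≠ {b, x} := fun h => by
      have : a ∈ ({b, x} : Finset (Fin n)) := h ▸ (by simp)
      simp [hab, Ne.symm hxa] at this
    rw [sum_pair hp]
    refine add_le_add (one a b hab rfl x hya hyN hat) (one b a hab.symm (pair_comm _ _) x hyb ?_ hbt)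
    simp only [nbr, mem_filter, mem_univ, true_and] at hyN ⊢
    exact hyN.symm
  have h2 : ∑ x ∈ Xs, F x ≤ 4 * (reach2 E t a b).card + 4 * (reach2 E t b a).card := by
    refine (sum_le_sum_of_subset (subset_univ _)).trans ?_
    simp only [F, sum_add_distrib, ← mul_sum]
    refine add_le_add (Nat.mul_le_mul_left _ ?_) (Nat.mul_le_mul_left _ ?_) <;>
      exact (card_eq_sum_card_fiberwise (fun z _ => mem_univ z.1)).symm.le
  have h3 : (loss2 E t {a, b} : ℝ) ≤
      4 * (reach2 E t a b).card + 4 * (reach2 E t b a).card := by exact_mod_cast h1.trans h2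
  linarith [card_reach2_le hE ht hab hτ hκ hT hW, card_reach2_le hE ht hab.symm hτ hκ hT hW]

end Vale.Agent.P046.Flags
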