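import Vale.Agent.P046.Flags.SecondOrderNoise
import Vale.Agent.P046.Flags.DriftY

/-!
# Drift of the second order average

Both means drift like the same state dependent constant, up to the error of the linearised drift.
-/

namespace Vale.Agent.P046.Flags.SecondOrder

open Finset Chain

variable {n : ℕ} {P : Env} {i : ℕ} {E : St n}

/-- The mean at `e` drifts like the constant. -/
lemma inc_vv_near {C : ℝ} (hC : 1 ≤ C) (hs : Small n P i) (hg : Good P i E)
    (hY : ∀ g ∈ E, |inc {g} (fun k F => yy k F g) i E| ≤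
      C * (P.z i + P.y i ^ 2 + 1 / mu n i))
    {e : Finset (Fin n)} (he : e ∈ E) :
    |inc {e} (fun k F => vv k F e) i E - 2 * rate i E * ratio n i ^ 2| ≤
      (20 * C + 100000) * err P n i := by
  have hmu := hs.mu_pos
  have hmb := hs.mu_big
  have hy := hs.y0
  have hy1 := hs.y1
  have hr0 := rate_nonneg (E := E) hs
  obtain ⟨hA1, hA2⟩ := triAt_card_bounds hs hg he
  have hA : (FlagDrift.flags (Uat e) (req e) E).Nonempty := by
    rw [flags_at he]; exact triAt_nonempty hs hg he
  have hgen := abs_inc_mean_sub_le (Uat e) (req e) (R := {e}) (singleton_subset_iff.2 he)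
    (triangles_ne_empty hs hg) hr0 (fun k F => vv k F e) (fun k F t => phi k F e t) hA
    (by rw [flags_at he]; rfl)
    (fun t ht => by rw [flags_at (mem_sdiff.2 ⟨he, (steps_single.1 ht).2⟩)]; rfl)
    (B := 2 * (2 * P.y i ^ 2)) (J := 2500 * (P.y i / mu n i + 1 / mu n i ^ 2))
    (H := 3 * mu n i) (H0 := 2 * mu n i) (Hd := 2 * P.y i * mu n i + 4) (L := 3)
    (by positivity) (by norm_num)
    (fun t ht => by exact_mod_cast lost_at_card ht he)
    (by rw [flags_at he]; linarith)
    (fun a ha => abs_centred_le (by positivity) (fun x hx => by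
      rw [flags_at he] at hx
      obtain ⟨hx1, hx2⟩ := mem_of_triAt hx
      exact abs_le.2 ⟨by linarith [(phi_mem hg hx1 hx2).1, sq_nonneg (P.y i)],
        (phi_mem hg hx1 hx2).2⟩) ha)
    (fun a ha t ht hnl => by
      rw [flags_at he] at ha
      exact abs_phi_change_le' hs hg (mem_of_triAt ha).1 (mem_of_triAt ha).2
        (steps_single.1 ht).1 ((kept_at ha (steps_single.1 ht).2).1 hnl))
    (fun a ha => by
      have h := FlagDrift.hits_near (Uat e) (req e) {e} E ha
        (disjoint_singleton_right.2 (notMem_erase e _))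
      rw [flags_at he] at ha
      obtain ⟨ha1, ha2⟩ := mem_of_triAt ha
      have hc : (req e a).card = 2 := card_erase_sides ha1 ha2
      rw [hc, card_singleton] at h
      have hd : |∑ f ∈ req e a, (deg E f : ℝ) - 2 * mu n i| ≤ 2 * (P.y i * mu n i) := by
        have : 2 * mu n i = ∑ _f ∈ req e a, mu n i := by rw [sum_const, hc, nsmul_eq_mul]; norm_num
        rw [this, ← sum_sub_distrib]
        refine (abs_sum_le_sum_abs _ _).trans ((sum_le_card_nsmul _ _ (P.y i * mu n i)
          fun f hf => triAt_near hs hg (sides_sub ha1 (mem_of_mem_erase hf))).trans ?_)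
        rw [card_erase_sides ha1 ha2, nsmul_eq_mul]; norm_num
      push_cast at h
      exact abs_le.2 ⟨by linarith [(abs_le.1 h).1, (abs_le.1 hd).1],
        by linarith [(abs_le.1 h).2, (abs_le.1 hd).2]⟩)
    (fun a ha => by
      have h := FlagDrift.hits_near (Uat e) (req e) {e} E ha
        (disjoint_singleton_right.2 (notMem_erase e _))
      rw [flags_at he] at ha
      obtain ⟨ha1, ha2⟩ := mem_of_triAt ha
      have hc : (req e a).card = 2 := card_erase_sides ha1 ha2
      rw [hc, card_singleton] at h
      push_cast at h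
      have hd : ∑ f ∈ req e a, (deg E f : ℝ) ≤ (2:ℕ) • (101 / 100 * mu n i) := by
        rw [← hc]
        exact sum_le_card_nsmul _ _ _ fun f hf =>
          (triAt_card_bounds hs hg (sides_sub ha1 (mem_of_mem_erase hf))).2
      rw [nsmul_eq_mul] at hd
      push_cast at hd
      linarith [(abs_le.1 h).2])
  rw [flags_at he] at hgen
  have hmean : |FlagDrift.mean (triAt E e) (fun a => rate i E *
      ∑ t ∈ (FlagDrift.steps {e} E).filter (fun t => a ∉ FlagDrift.lost (Uat e) (req e) E t),
        (phi (i + 1) (E \ sides t) e a - phi i E e a)) - 2 * rate i E * ratio n i ^ 2| ≤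
      (20 * C + 40000) * err P n i := by
    have h0 : 0 ≤ (20 * C + 40000) * err P n i :=
      mul_nonneg (by linarith) (le_trans (by positivity) (inv_sq_le hs))
    rw [← mean_sub_const (triAt_nonempty hs hg he)]
    refine abs_mean_le h0 fun a ha => ?_
    obtain ⟨ha1, ha2⟩ := mem_of_triAt ha
    have hfil : (FlagDrift.steps {e} E).filter
        (fun t => a ∉ FlagDrift.lost (Uat e) (req e) E t) = FlagDrift.steps (sides a) E := by
      ext t
      rw [mem_filter]
      constructor
      · rintro ⟨h1, h2⟩
        exact mem_filter.2 ⟨(steps_single.1 h1).1, (kept_at ha (steps_single.1 h1).2).1 h2⟩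
      · intro h
        obtain ⟨h1, h2⟩ := mem_filter.1 h
        have heu := disjoint_left.1 h2 ha2
        exact ⟨steps_single.2 ⟨h1, heu⟩, (kept_at ha heu).2 h2⟩
    simp only [hfil]
    exact flag_drift hC hs hg hY ha1 ha2
  obtain ⟨e1, e2, e3, e4, -, e5⟩ := err_ge hs
  have e6 := inv_sq_le hs
  have hrest : rate i E * ((2 * P.y i * mu n i + 4) * (2 * (2 * P.y i ^ 2)) +
      2 * (3 * mu n i) * (2500 * (P.y i / mu n i + 1 / mu n i ^ 2)) +
      2 * (3 * mu n i) * 3 * (2 * (2 * P.y i ^ 2)) / ((triAt E e).card : ℝ)) ≤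
      9 * (P.y i * P.y i ^ 2) + 15302 * (P.y i / mu n i) + 15300 * (1 / mu n i ^ 2) := by
    have hX : 0 ≤ (2 * P.y i * mu n i + 4) * (2 * (2 * P.y i ^ 2)) +
      2 * (3 * mu n i) * (2500 * (P.y i / mu n i + 1 / mu n i ^ 2)) +
      2 * (3 * mu n i) * 3 * (2 * (2 * P.y i ^ 2)) / ((triAt E e).card : ℝ) := by positivity
    calc _ ≤ (102 / 100 / mu n i) * ((2 * P.y i * mu n i + 4) * (2 * (2 * P.y i ^ 2)) +
          2 * (3 * mu n i) * (2500 * (P.y i / mu n i + 1 / mu n i ^ 2)) +
          2 * (3 * mu n i) * 3 * (2 * (2 * P.y i ^ 2)) / (99 / 100 * mu n i)) := by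
          gcongr
          exact rate_le hs hg
      _ = (204 / 25) * (P.y i * P.y i ^ 2) + 15300 * (P.y i / mu n i) + 15300 * (1 / mu n i ^ 2)
            + (408 / 25 + 2448 / 33) * P.y i * (P.y i / mu n i) := by field_simp; ring
      _ ≤ _ := by
          have hp : 0 ≤ P.y i / mu n i := by positivity
          have hq : 0 ≤ P.y i * P.y i ^ 2 := by positivity
          have := mul_le_mul_of_nonneg_right
            (show (408 / 25 + 2448 / 33) * P.y i ≤ 2 by linarith) hp
          linarith
  have b1 := abs_le.1 hgen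
  have b2 := abs_le.1 hmean
  exact abs_le.2 ⟨by linarith, by linarith⟩

/-- The global mean drifts like the same constant, also while `e` is alive. -/
lemma inc_vG_near {C : ℝ} (hC : 1 ≤ C) (hs : Small n P i) (hg : Good P i E)
    (hY : ∀ g ∈ E, |inc {g} (fun k F => yy k F g) i E| ≤
      C * (P.z i + P.y i ^ 2 + 1 / mu n i))
    {e : Finset (Fin n)} (he : e ∈ E) :
    |inc {e} (fun k F => vG k F) i E - 2 * rate i E * ratio n i ^ 2| ≤
      (20 * C + 100000) * err P n i := by
  have hmu := hs.mu_pos
  have hmb := hs.mu_big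
  have hm := hs.mm_ge
  have hm2 := mm_big hs
  have hy := hs.y0
  have hy1 := hs.y1
  have hr0 := rate_nonneg (E := E) hs
  have hne := triangles_ne_empty hs hg
  have hQ := card_triangles_ge hs hg
  have h8 : 8 * mu n i ≤ 33 / 100 * (mm n i * mu n i) := by nlinarith
  have hgen := abs_inc_mean_sub_le (U3 n) sides (R := (∅ : St n)) (empty_subset E) hne hr0
    (fun k F => vG k F) (fun k F t => phiG k F t)
    (by rw [flags_all]; exact nonempty_iff_ne_empty.2 hne)
    (by rw [flags_all]; exact vG_eq i E)
    (fun t _ => by rw [flags_all]; exact vG_eq _ _)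
    (B := 2 * (2 * P.y i ^ 2)) (J := 2500 * (P.y i / mu n i + 1 / mu n i ^ 2))
    (H := 4 * mu n i) (H0 := 3 * mu n i) (Hd := 3 * P.y i * mu n i + 6) (L := 4 * mu n i)
    (by positivity) (by positivity)
    (fun t ht => lost_all_card hs hg (mem_filter.1 ht).1)
    (by rw [flags_all]; linarith)
    (fun a ha => abs_centred_le (by positivity) (fun x hx => by
      rw [flags_all] at hx
      exact abs_le.2 ⟨by linarith [(phiG_mem hg hx).1, sq_nonneg (P.y i)],
        (phiG_mem hg hx).2⟩) ha)
    (fun a ha t ht hnl => by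
      rw [flags_all] at ha
      have hd := (kept_all ha).1 hnl
      simp only [phiG, ← sub_div, ← sum_sub_distrib]
      rw [abs_div, abs_of_pos (by norm_num : (0:ℝ) < 3), div_le_iff₀ (by norm_num)]
      refine (abs_sum_le_sum_abs _ _).trans ((sum_le_card_nsmul _ _ _ fun f hf =>
        abs_phi_change_le' hs hg ha hf (mem_filter.1 ht).1 hd).trans ?_)
      rw [card_sides ha, nsmul_eq_mul]
      push_cast
      linarith)
    (fun a ha => by
      have h := FlagDrift.hits_near (U3 n) sides (∅ : St n) E ha (disjoint_empty_right _)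
      rw [flags_all] at ha
      rw [card_sides ha, card_empty] at h
      have hd : |∑ f ∈ sides a, (deg E f : ℝ) - 3 * mu n i| ≤ 3 * (P.y i * mu n i) := by
        have : 3 * mu n i = ∑ _f ∈ sides a, mu n i := by
          rw [sum_const, card_sides ha, nsmul_eq_mul]; norm_num
        rw [this, ← sum_sub_distrib]
        refine (abs_sum_le_sum_abs _ _).trans ((sum_le_card_nsmul _ _ (P.y i * mu n i)
          fun f hf => triAt_near hs hg (sides_sub ha hf)).trans ?_)
        rw [card_sides ha, nsmul_eq_mul]; norm_num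
      push_cast at h
      exact abs_le.2 ⟨by linarith [(abs_le.1 h).1, (abs_le.1 hd).1],
        by linarith [(abs_le.1 h).2, (abs_le.1 hd).2]⟩)
    (fun a ha => by
      have h := FlagDrift.hits_near (U3 n) sides (∅ : St n) E ha (disjoint_empty_right _)
      rw [flags_all] at ha
      rw [card_sides ha, card_empty] at h
      push_cast at h
      have hd : ∑ f ∈ sides a, (deg E f : ℝ) ≤ (3:ℕ) • (101 / 100 * mu n i) := by
        rw [← card_sides ha]
        exact sum_le_card_nsmul _ _ _ fun f hf => (triAt_card_bounds hs hg (sides_sub ha hf)).2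
      rw [nsmul_eq_mul] at hd
      push_cast at hd
      linarith [(abs_le.1 h).2])
  rw [flags_all] at hgen
  have hmean : |FlagDrift.mean (triangles E) (fun a => rate i E *
      ∑ t ∈ (FlagDrift.steps (∅ : St n) E).filter (fun t => a ∉ FlagDrift.lost (U3 n) sides E t),
        (phiG (i + 1) (E \ sides t) a - phiG i E a)) - 2 * rate i E * ratio n i ^ 2| ≤
      (20 * C + 40000) * err P n i := by
    have h0 : 0 ≤ (20 * C + 40000) * err P n i :=
      mul_nonneg (by linarith) (le_trans (by positivity) (inv_sq_le hs))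
    rw [← mean_sub_const (nonempty_iff_ne_empty.2 hne)]
    refine abs_mean_le h0 fun a ha => ?_
    have hfil : (FlagDrift.steps (∅ : St n) E).filter
        (fun t => a ∉ FlagDrift.lost (U3 n) sides E t) = FlagDrift.steps (sides a) E := by
      ext t
      rw [mem_filter, kept_all ha]
      simp [FlagDrift.steps]
    simp only [hfil]
    have hrw : rate i E * ∑ t ∈ FlagDrift.steps (sides a) E,
        (phiG (i + 1) (E \ sides t) a - phiG i E a) - 2 * rate i E * ratio n i ^ 2 =
        (∑ f ∈ sides a, (rate i E * (∑ t ∈ FlagDrift.steps (sides a) E,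
          (phi (i + 1) (E \ sides t) f a - phi i E f a)) - 2 * rate i E * ratio n i ^ 2)) / 3 := by
      have hp : ∀ t, phiG (i + 1) (E \ sides t) a - phiG i E a =
          (∑ f ∈ sides a, (phi (i + 1) (E \ sides t) f a - phi i E f a)) / 3 := fun t => by
        rw [phiG, phiG, sum_sub_distrib, sub_div]
      rw [sum_congr rfl fun t _ => hp t, ← sum_div, sum_comm,
        sum_sub_distrib (s := sides a)
          (fun f => rate i E * ∑ t ∈ FlagDrift.steps (sides a) E,
            (phi (i + 1) (E \ sides t) f a - phi i E f a)) (fun _ => 2 * rate i E * ratio n i ^ 2),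
        ← mul_sum, sum_const, card_sides ha, nsmul_eq_mul]
      push_cast
      ring
    rw [hrw, abs_div, abs_of_pos (by norm_num : (0:ℝ) < 3), div_le_iff₀ (by norm_num)]
    refine (abs_sum_le_sum_abs _ _).trans ((sum_le_card_nsmul _ _ _ fun f hf =>
      flag_drift hC hs hg hY ha hf).trans ?_)
    rw [card_sides ha, nsmul_eq_mul]
    push_cast
    linarith
  obtain ⟨e1, e2, e3, e4, -, e5⟩ := err_ge hs
  have e6 := inv_sq_le hs
  have hdiff : |inc {e} (fun k F => vG k F) i E - inc (∅ : St n) (fun k F => vG k F) i E| ≤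
      8400 * (1 / mu n i ^ 2) := by
    have hsub : FlagDrift.steps {e} E ⊆ FlagDrift.steps (∅ : St n) E := fun t ht =>
      mem_filter.2 ⟨(steps_single.1 ht).1, disjoint_empty_left _⟩
    rw [inc_eq_sum (singleton_subset_iff.2 he) hne, inc_eq_sum (empty_subset E) hne, ← mul_sub,
      abs_mul, abs_of_nonneg hr0, ← sum_sdiff hsub, sub_add_eq_sub_sub_swap, sub_self, zero_sub,
      abs_neg]
    have hc : ((FlagDrift.steps (∅ : St n) E \ FlagDrift.steps {e} E).card : ℝ) ≤
        101 / 100 * mu n i := by
      refine le_trans (Nat.cast_le.2 (card_le_card fun t ht => ?_)) (triAt_card_bounds hs hg he).2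
      obtain ⟨h1, h2⟩ := mem_sdiff.1 ht
      have h1' := (mem_filter.1 h1).1
      exact mem_filter.2 ⟨h1', by_contra fun h => h2 (steps_single.2 ⟨h1', h⟩)⟩
    calc rate i E * |∑ t ∈ FlagDrift.steps (∅ : St n) E \ FlagDrift.steps {e} E,
          (vG (i + 1) (E \ sides t) - vG i E)|
        ≤ (102 / 100 / mu n i) * ((101 / 100 * mu n i) * (2000 / mm n i)) := by
          refine mul_le_mul (rate_le hs hg) ?_ (abs_nonneg _) (by positivity)
          refine (abs_sum_le_sum_abs _ _).trans ((sum_le_card_nsmul _ _ _ fun t ht =>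
            abs_vG_change hs hg (mem_filter.1 (mem_sdiff.1 ht).1).1).trans ?_)
          rw [nsmul_eq_mul]
          exact mul_le_mul_of_nonneg_right hc (by positivity)
      _ = (10302 / 5) * (1 / mm n i) := by field_simp; ring
      _ ≤ (10302 / 5) * (4 / mu n i ^ 2) :=
          mul_le_mul_of_nonneg_left (inv_mm_le hs) (by norm_num)
      _ ≤ _ := by
          have : 0 ≤ 1 / mu n i ^ 2 := by positivity
          rw [show (4:ℝ) / mu n i ^ 2 = 4 * (1 / mu n i ^ 2) by ring]
          linarith
  have hrest : rate i E * ((3 * P.y i * mu n i + 6) * (2 * (2 * P.y i ^ 2)) +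
      2 * (4 * mu n i) * (2500 * (P.y i / mu n i + 1 / mu n i ^ 2)) +
      2 * (4 * mu n i) * (4 * mu n i) * (2 * (2 * P.y i ^ 2)) / ((triangles E).card : ℝ)) ≤
      13 * (P.y i * P.y i ^ 2) + 20402 * (P.y i / mu n i) + 20400 * (1 / mu n i ^ 2) := by
    calc _ ≤ (102 / 100 / mu n i) * ((3 * P.y i * mu n i + 6) * (2 * (2 * P.y i ^ 2)) +
          2 * (4 * mu n i) * (2500 * (P.y i / mu n i + 1 / mu n i ^ 2)) +
          2 * (4 * mu n i) * (4 * mu n i) * (2 * (2 * P.y i ^ 2)) /
            (33 / 100 * (mu n i ^ 2 / 4 * mu n i))) := by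
          gcongr
          · exact rate_le hs hg
          · refine le_trans ?_ hQ
            exact mul_le_mul_of_nonneg_left (mul_le_mul_of_nonneg_right
              (by linarith [mu_sq_le hs]) hmu.le) (by norm_num)
      _ = (306 / 25) * (P.y i * P.y i ^ 2) + 20400 * (P.y i / mu n i) + 20400 * (1 / mu n i ^ 2)
            + (612 / 25) * P.y i * (P.y i / mu n i)
            + (102 / 100 * 51200 / 33) * (P.y i ^ 2 / mu n i ^ 2) := by field_simp; ring
      _ ≤ _ := by
          have hp : 0 ≤ P.y i / mu n i := by positivity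
          have hq : 0 ≤ P.y i * P.y i ^ 2 := by positivity
          have hiy : P.y i * (1 / mu n i) ≤ 1 / 10000 := by
            have h1 := mul_le_mul hy1 (one_div_le_one_div_of_le (by norm_num) hmb) (by positivity)
              (by norm_num)
            linarith
          have h1 := mul_le_mul_of_nonneg_right hiy hp
          have h2 := mul_le_mul_of_nonneg_right (show (612 / 25) * P.y i ≤ 1 by linarith) hp
          rw [show P.y i * (1 / mu n i) * (P.y i / mu n i) = P.y i ^ 2 / mu n i ^ 2 by ring] at h1
          linarith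
  have b1 := abs_le.1 hgen
  have b2 := abs_le.1 hmean
  have b3 := abs_le.1 hdiff
  exact abs_le.2 ⟨by linarith, by linarith⟩

theorem driftV : Spec.DriftV := by
  obtain ⟨C, hC, hY⟩ := DriftYZ.driftY
  refine ⟨2 * (20 * C + 100000), by linarith, fun n i P E hs hg e he => ?_⟩
  have hne := triangles_ne_empty hs hg
  have h1 := abs_le.1 (inc_vv_near hC hs hg (hY n i P E hs hg) he)
  have h2 := abs_le.1 (inc_vG_near hC hs hg (hY n i P E hs hg) he)
  have h : inc {e} (fun k F => vc k F e) i E =
      inc {e} (fun k F => vv k F e) i E - inc {e} (fun k F => vG k F) i E := by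
    simp only [inc_eq_sum (singleton_subset_iff.2 he) hne, ← mul_sub, ← sum_sub_distrib]
    congr 1
    exact sum_congr rfl fun t _ => by rw [vc, vc]; ring
  rw [h]
  exact abs_le.2 ⟨by linarith, by linarith⟩

end Vale.Agent.P046.Flags.SecondOrder
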