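import Vale.Agent.P046.Flags.StepPhi

/-!
# Drift of the squared deviation at one flag
-/

namespace Vale.Agent.P046.Flags.SecondOrder

open Finset Chain

variable {n : ℕ} {P : Env} {i : ℕ} {E : St n}

/-- All triples. -/
def U3 (n : ℕ) : St n := (univ : Finset (Fin n)).powersetCard 3

/-- The triples at `e`. -/
def Uat (e : Finset (Fin n)) : St n := (U3 n).filter fun t => e ∈ sides t

/-- The edges of a flag at `e`. -/
def req (e t : Finset (Fin n)) : St n := (sides t).erase e

lemma flags_all (F : St n) : FlagDrift.flags (U3 n) sides F = triangles F := rfl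

lemma flags_at {F : St n} {e : Finset (Fin n)} (he : e ∈ F) :
    FlagDrift.flags (Uat e) (req e) F = triAt F e := by
  ext t
  constructor
  · intro h
    obtain ⟨h12, h3⟩ := mem_filter.1 h
    obtain ⟨h1, h2⟩ := mem_filter.1 h12
    exact mem_filter.2 ⟨mem_filter.2 ⟨h1, fun g hg => (eq_or_ne g e).elim (fun h => h ▸ he)
      fun h => h3 (mem_erase.2 ⟨h, hg⟩)⟩, h2⟩
  · intro h
    obtain ⟨h12, h2⟩ := mem_filter.1 h
    obtain ⟨h1, h3⟩ := mem_filter.1 h12
    exact mem_filter.2 ⟨mem_filter.2 ⟨h1, h2⟩, (erase_subset _ _).trans h3⟩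

lemma steps_single {e u : Finset (Fin n)} :
    u ∈ FlagDrift.steps {e} E ↔ u ∈ triangles E ∧ e ∉ sides u := by
  simp [FlagDrift.steps]

lemma kept_at {e t u : Finset (Fin n)} (hts : t ∈ triAt E e) (hu : e ∉ sides u) :
    t ∉ FlagDrift.lost (Uat e) (req e) E u ↔ Disjoint (sides t) (sides u) := by
  obtain ⟨ht, het⟩ := mem_of_triAt hts
  have he : e ∈ E := sides_sub ht het
  simp only [FlagDrift.lost, flags_at he, mem_filter, hts, true_and, not_not, req]
  rw [disjoint_left, disjoint_left]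
  constructor
  · intro h g hg hgu
    rcases eq_or_ne g e with rfl | hne
    · exact hu hgu
    · exact h (mem_erase.2 ⟨hne, hg⟩) hgu
  · exact fun h g hg => h (mem_of_mem_erase hg)

lemma kept_all {t u : Finset (Fin n)} (ht : t ∈ triangles E) :
    t ∉ FlagDrift.lost (U3 n) sides E u ↔ Disjoint (sides t) (sides u) := by
  simp [FlagDrift.lost, flags_all, ht]

lemma sdiff_lost_at {e u : Finset (Fin n)} (_he : e ∈ E) (hu : e ∉ sides u) :
    triAt E e \ FlagDrift.lost (Uat e) (req e) E u =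
      (triAt E e).filter fun t => Disjoint (sides t) (sides u) := by
  ext t
  simp only [mem_sdiff, mem_filter]
  exact ⟨fun h => ⟨h.1, (kept_at h.1 hu).1 h.2⟩, fun h => ⟨h.1, (kept_at h.1 hu).2 h.2⟩⟩

lemma sdiff_lost_all (u : Finset (Fin n)) :
    triangles E \ FlagDrift.lost (U3 n) sides E u =
      (triangles E).filter fun t => Disjoint (sides t) (sides u) := by
  ext t
  simp only [mem_sdiff, mem_filter]
  exact ⟨fun h => ⟨h.1, (kept_all h.1).1 h.2⟩, fun h => ⟨h.1, (kept_all h.1).2 h.2⟩⟩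

lemma lost_at_card {e u : Finset (Fin n)} (hu : u ∈ FlagDrift.steps {e} E) (he : e ∈ E) :
    (FlagDrift.lost (Uat e) (req e) E u).card ≤ 3 := by
  obtain ⟨huT, heu⟩ := steps_single.1 hu
  refine (card_le_card (t := (sides u).biUnion fun f =>
    (triangles E).filter fun t => e ∈ sides t ∧ f ∈ sides t) fun t ht => ?_).trans
    (card_biUnion_le.trans ?_)
  · obtain ⟨h1, h2⟩ := mem_filter.1 ht
    rw [flags_at he] at h1
    obtain ⟨g, hg, hgu⟩ := not_disjoint_iff.1 h2
    exact mem_biUnion.2 ⟨g, hgu, mem_filter.2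
      ⟨(mem_of_triAt h1).1, (mem_of_triAt h1).2, mem_of_mem_erase hg⟩⟩
  · refine (sum_le_sum (g := fun _ => 1) fun f hf => ?_).trans (by simp [card_sides huT])
    exact FlagDrift.pair_card_le_one E fun h => heu (h ▸ hf)

lemma lost_all_card (hs : Small n P i) (hg : Good P i E) {u : Finset (Fin n)}
    (hu : u ∈ triangles E) :
    ((FlagDrift.lost (U3 n) sides E u).card : ℝ) ≤ 4 * mu n i := by
  refine (FlagDrift.hit_upper E (sides u)).trans
    ((sum_le_card_nsmul _ _ (101 / 100 * mu n i) fun f hf =>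
      (triAt_card_bounds hs hg (sides_sub hu hf)).2).trans ?_)
  rw [card_sides hu, nsmul_eq_mul]
  linarith [hs.mu_pos]

lemma mm_big (hs : Small n P i) : 2500 ≤ mm n i := by
  nlinarith [mu_sq_le hs, hs.mu_big]

lemma card_triangles_ge (hs : Small n P i) (hg : Good P i E) :
    33 / 100 * (mm n i * mu n i) ≤ ((triangles E).card : ℝ) := by
  have h := (one_add_gg_bounds hs hg).1
  have hm : (0:ℝ) < E.card * mu n i := by
    rw [card_eq_mm hg.size]; exact mul_pos (by linarith [hs.mm_ge]) hs.mu_pos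
  rw [gg, add_sub_cancel, le_div_iff₀ hm, card_eq_mm hg.size] at h
  linarith [mul_nonneg (show (0:ℝ) ≤ mm n i by linarith [hs.mm_ge]) hs.mu_pos.le]

lemma rate_le (hs : Small n P i) (hg : Good P i E) : rate i E ≤ 102 / 100 / mu n i := by
  rw [le_div_iff₀ hs.mu_pos]
  linarith [rate_mul_mu_le hs hg]

lemma rate_mul_card (hs : Small n P i) (hg : Good P i E) :
    rate i E * (triangles E).card = mm n i / 3 := by
  have h : (0:ℝ) < (triangles E).card :=
    lt_of_lt_of_le (mul_pos (by norm_num) (mul_pos (by linarith [hs.mm_ge]) hs.mu_pos))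
      (card_triangles_ge hs hg)
  rw [rate]
  field_simp

lemma err_ge (hs : Small n P i) :
    P.y i * P.z i ≤ err P n i ∧ P.y i * P.y i ^ 2 ≤ err P n i ∧ P.y i / mu n i ≤ err P n i ∧
      P.tau i / mu n i ^ 2 ≤ err P n i ∧
      (0 ≤ P.kap i / mu n i ^ 3 ∧ P.kap i / mu n i ^ 3 ≤ err P n i) := by
  have hmu := hs.mu_pos
  have hy := hs.y0
  have a1 : 0 ≤ P.y i * P.z i := mul_nonneg hy hs.z0
  have a2 : 0 ≤ P.y i * P.y i ^ 2 := by positivity
  have a3 : 0 ≤ P.y i / mu n i := by positivity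
  have a4 : 0 ≤ P.y i * P.w i := mul_nonneg hy hs.w0
  have a5 : 0 ≤ P.tau i / mu n i ^ 2 := div_nonneg (by linarith [hs.tau1]) (by positivity)
  have a6 : 0 ≤ P.kap i / mu n i ^ 3 := div_nonneg (by linarith [hs.kap1]) (by positivity)
  have h : err P n i = P.y i * P.z i + P.y i * P.y i ^ 2 + P.y i * P.w i + P.y i / mu n i
      + P.z i ^ 2 + P.tau i / mu n i ^ 2 + P.kap i / mu n i ^ 3 := by rw [err]; ring
  rw [h]
  refine ⟨?_, ?_, ?_, ?_, ?_, ?_⟩ <;> nlinarith [sq_nonneg (P.z i)]

lemma inv_sq_le (hs : Small n P i) : 1 / mu n i ^ 2 ≤ err P n i :=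
  (div_le_div_of_nonneg_right hs.tau1 (by positivity)).trans (err_ge hs).2.2.2.1

/-- The total loss seen by a flag is at most `6 mu ^ 2`. -/
lemma sum_ksum_le (hs : Small n P i) (hg : Good P i E) {e t : Finset (Fin n)}
    (ht : t ∈ triangles E) (he : e ∈ sides t) :
    ∑ u ∈ FlagDrift.steps (sides t) E, ksum E e t u ≤ 6 * mu n i ^ 2 := by
  simp only [ksum]
  rw [sum_comm]
  refine (sum_le_card_nsmul _ _ (3 * mu n i ^ 2) fun g hg' => ?_).trans ?_
  · have hgt := mem_of_mem_erase hg'
    calc ∑ u ∈ FlagDrift.steps (sides t) E, (Codeg.loss E g u : ℝ)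
        ≤ ∑ u ∈ (triangles E).filter (fun u => g ∉ sides u), (Codeg.loss E g u : ℝ) :=
          sum_le_sum_of_subset_of_nonneg (fun u hu => by
            obtain ⟨h1, h2⟩ := mem_filter.1 hu
            exact mem_filter.2 ⟨h1, disjoint_left.1 h2 hgt⟩) fun u _ _ => Nat.cast_nonneg _
      _ = ∑ v ∈ Codeg.star E g, ∑ f ∈ (sides v).erase g, ((deg E f : ℝ) - 1) := Codeg.sum_loss E g
      _ ≤ ∑ _v ∈ Codeg.star E g, 2 * (101 / 100 * mu n i) := by
          refine sum_le_sum fun v hv => ?_
          obtain ⟨hv1, hv2⟩ := mem_filter.1 hv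
          refine (sum_le_card_nsmul _ _ (101 / 100 * mu n i) fun f hf => ?_).trans ?_
          · rw [deg_eq_card]
            linarith [(triAt_card_bounds hs hg (sides_sub hv1 (mem_of_mem_erase hf))).2]
          · rw [card_erase_sides hv1 hv2, nsmul_eq_mul]; norm_num
      _ ≤ 3 * mu n i ^ 2 := by
          rw [sum_const, nsmul_eq_mul]
          have := (triAt_card_bounds hs hg (sides_sub ht hgt)).2
          rw [show (Codeg.star E g).card = (triAt E g).card from rfl]
          nlinarith [hs.mu_pos]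
  · rw [card_erase_sides ht he, nsmul_eq_mul]
    push_cast
    linarith

/-- The drift of the flag function is a state dependent constant up to the error. -/
lemma flag_drift {C : ℝ} (hC : 1 ≤ C) (hs : Small n P i) (hg : Good P i E)
    (hY : ∀ g ∈ E, |inc {g} (fun k F => yy k F g) i E| ≤
      C * (P.z i + P.y i ^ 2 + 1 / mu n i))
    {e t : Finset (Fin n)} (ht : t ∈ triangles E) (he : e ∈ sides t) :
    |rate i E * ∑ u ∈ FlagDrift.steps (sides t) E,
        (phi (i + 1) (E \ sides u) e t - phi i E e t) - 2 * rate i E * ratio n i ^ 2|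
      ≤ (20 * C + 40000) * err P n i := by
  obtain ⟨hr1, hr4, hr24⟩ := ratio_bounds hs
  have hmu := hs.mu_pos
  have hmb := hs.mu_big
  have hm := hs.mm_ge
  have hr0 := rate_nonneg (E := E) hs
  have hrate := rate_le hs hg
  have hy := hs.y0
  have hy1 := hs.y1
  set S := FlagDrift.steps (sides t) E with hS
  have hsy := abs_ysum_le hg ht he
  -- linear part
  have hlin : |rate i E * ∑ u ∈ S, dsum i E e t u| ≤
      2 * (C * (P.z i + P.y i ^ 2 + 1 / mu n i) + 80 / mu n i) := by
    simp only [dsum]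
    rw [sum_comm, mul_sum]
    refine (abs_sum_le_sum_abs _ _).trans ((sum_le_card_nsmul _ _
      (C * (P.z i + P.y i ^ 2 + 1 / mu n i) + 80 / mu n i) fun g hg' => ?_).trans ?_)
    · have hgt := mem_of_mem_erase hg'
      have hgE := sides_sub ht hgt
      have hJ : JumpLE {g} (fun k F => yy k F g) i E (20 / mu n i) := by
        intro u hu hsub
        have hgu : g ∉ sides u := (mem_sdiff.1 (singleton_subset_iff.1 hsub)).2
        simp only [dy_eq hs]
        have hyb := abs_le.1 (hg.y g hgE)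
        refine (abs_sub _ _).trans ?_
        rw [abs_of_nonneg (mul_nonneg (by linarith) (sub_nonneg.2 hr1)),
          abs_of_nonneg (show (0:ℝ) ≤ (Codeg.loss E g u : ℝ) * ratio n i / mu n i from
            div_nonneg (mul_nonneg (Nat.cast_nonneg _) (by linarith)) hmu.le)]
        have hl : (Codeg.loss E g u : ℝ) * ratio n i ≤ 3 * 4 :=
          mul_le_mul (by exact_mod_cast Codeg.loss_le_three hu hgu) hr4 (by linarith) (by norm_num)
        have h1 : (1 + yy i E g) * (ratio n i - 1) ≤ 25 * (1 / mm n i) := by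
          have := mul_le_mul (show 1 + yy i E g ≤ 101 / 100 by linarith) hr24
            (sub_nonneg.2 hr1) (by norm_num)
          have h0 : 0 ≤ 1 / mm n i := by positivity
          rw [show 24 / mm n i = 24 * (1 / mm n i) by ring] at this
          linarith
        have h2 : (Codeg.loss E g u : ℝ) * ratio n i / mu n i ≤ 12 * (1 / mu n i) := by
          rw [mul_one_div]; exact div_le_div_of_nonneg_right (by linarith) hmu.le
        have h3 : 25 * (1 / mm n i) ≤ 1 / mu n i := by
          have h4 := inv_mm_le hs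
          rw [show 4 / mu n i ^ 2 = 4 * (1 / mu n i) * (1 / mu n i) by ring] at h4
          have h5 : 1 / mu n i ≤ 1 / 100 := one_div_le_one_div_of_le (by norm_num) hmb
          nlinarith [(show (0:ℝ) ≤ 1 / mu n i by positivity)]
        rw [show 20 / mu n i = 20 * (1 / mu n i) by ring]
        linarith [(show (0:ℝ) ≤ 1 / mu n i by positivity)]
      have h := rate_sum_sub_inc_le hs hg hgt (mem_triangles_iff.1 ht).2 (card_sides ht).le _
        (by positivity) hJ
      have h' := hY g hgE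
      rw [show 4 * (20 / mu n i) = 80 / mu n i by ring] at h
      exact abs_le.2 ⟨by linarith [(abs_le.1 h).1, (abs_le.1 h').1],
        by linarith [(abs_le.1 h).2, (abs_le.1 h').2]⟩
    · rw [card_erase_sides ht he, nsmul_eq_mul]; norm_num
  -- quadratic part
  set s := ysum i E e t with hsdef
  set A := (2 + s) * (ratio n i - 1) with hA
  have hA0 : 0 ≤ A := mul_nonneg (by linarith [(abs_le.1 hsy).1]) (sub_nonneg.2 hr1)
  have hA1 : A ≤ 50 / mm n i := by
    calc A ≤ (25 / 12) * (24 / mm n i) :=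
          mul_le_mul (by linarith [(abs_le.1 hsy).2]) hr24 (sub_nonneg.2 hr1) (by norm_num)
      _ = _ := by ring
  have hK2 := abs_le.1 (sum_ksum_sq hs hg ht he)
  have hK1 := sum_ksum_le hs hg ht he
  have hK0 : 0 ≤ ∑ u ∈ S, ksum E e t u := sum_nonneg fun u hu =>
    (ksum_mem ht he (mem_filter.1 hu).1 (mem_filter.1 hu).2).1
  set S1 := ∑ u ∈ S, ksum E e t u with hS1
  set S2 := ∑ u ∈ S, ksum E e t u ^ 2 with hS2
  have hquad : rate i E * ∑ u ∈ S, dsum i E e t u ^ 2 / 2 - 2 * rate i E * ratio n i ^ 2 =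
      rate i E * (S.card : ℝ) * A ^ 2 / 2 - rate i E * A * (ratio n i / mu n i) * S1
        + rate i E * (ratio n i / mu n i) ^ 2 * (S2 - 4 * mu n i ^ 2) / 2 := by
    have : ∀ u, dsum i E e t u ^ 2 / 2 = A ^ 2 / 2 - A * (ratio n i / mu n i) * ksum E e t u
        + (ratio n i / mu n i) ^ 2 / 2 * ksum E e t u ^ 2 := fun u => by
      rw [dsum_eq hs ht he]; ring
    simp only [this, sum_add_distrib, sum_sub_distrib, ← mul_sum, sum_const, nsmul_eq_mul, hS1, hS2]
    field_simp
    ring
  have hT1 : 0 ≤ rate i E * (S.card : ℝ) * A ^ 2 / 2 ∧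
      rate i E * (S.card : ℝ) * A ^ 2 / 2 ≤ 1668 * (1 / mu n i ^ 2) := by
    refine ⟨by positivity, ?_⟩
    have h1 : rate i E * (S.card : ℝ) ≤ mm n i / 3 := by
      rw [← rate_mul_card hs hg]
      exact mul_le_mul_of_nonneg_left (Nat.cast_le.2 (card_le_card (filter_subset _ _))) hr0
    have h2 : A ^ 2 ≤ (50 / mm n i) ^ 2 := pow_le_pow_left₀ hA0 hA1 2
    calc rate i E * (S.card : ℝ) * A ^ 2 / 2 ≤ (mm n i / 3) * (50 / mm n i) ^ 2 / 2 := by
          gcongr
      _ = 1250 / 3 * (1 / mm n i) := by field_simp; ring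
      _ ≤ 1250 / 3 * (4 / mu n i ^ 2) := mul_le_mul_of_nonneg_left (inv_mm_le hs) (by norm_num)
      _ ≤ _ := by
          rw [show 1250 / 3 * (4 / mu n i ^ 2) = 5000 / 3 * (1 / mu n i ^ 2) by ring]
          exact mul_le_mul_of_nonneg_right (by norm_num) (by positivity)
  have hT2 : 0 ≤ rate i E * A * (ratio n i / mu n i) * S1 ∧
      rate i E * A * (ratio n i / mu n i) * S1 ≤ 4896 * (1 / mu n i ^ 2) := by
    have hrm : 0 ≤ ratio n i / mu n i := div_nonneg (by linarith) hmu.le
    refine ⟨mul_nonneg (mul_nonneg (mul_nonneg hr0 hA0) hrm) hK0, ?_⟩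
    calc rate i E * A * (ratio n i / mu n i) * S1
        ≤ (102 / 100 / mu n i) * (50 / mm n i) * (4 / mu n i) * (6 * mu n i ^ 2) := by gcongr
      _ = 1224 * (1 / mm n i) := by field_simp; ring
      _ ≤ 1224 * (4 / mu n i ^ 2) := mul_le_mul_of_nonneg_left (inv_mm_le hs) (by norm_num)
      _ = _ := by ring
  have hT3 : |rate i E * (ratio n i / mu n i) ^ 2 * (S2 - 4 * mu n i ^ 2) / 2| ≤
      200 * (P.y i / mu n i) + 1700 * (P.tau i / mu n i ^ 2) + 200 * (P.kap i / mu n i ^ 3) := by
    rw [abs_div, abs_two, abs_mul, abs_of_nonneg (mul_nonneg hr0 (sq_nonneg _))]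
    calc rate i E * (ratio n i / mu n i) ^ 2 * |S2 - 4 * mu n i ^ 2| / 2
        ≤ (102 / 100 / mu n i) * (4 / mu n i) ^ 2 *
            (20 * P.y i * mu n i ^ 2 + 200 * P.tau i * mu n i + 20 * P.kap i) / 2 := by
          have habs : |S2 - 4 * mu n i ^ 2| ≤
              20 * P.y i * mu n i ^ 2 + 200 * P.tau i * mu n i + 20 * P.kap i :=
            abs_le.2 ⟨hK2.1, hK2.2⟩
          have hrm : 0 ≤ ratio n i / mu n i := div_nonneg (by linarith) hmu.le
          gcongr
      _ = (816 / 5) * (P.y i / mu n i) + 1632 * (P.tau i / mu n i ^ 2)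
            + (816 / 5) * (P.kap i / mu n i ^ 3) := by field_simp; ring
      _ ≤ _ := by
          obtain ⟨-, -, -, -, hkk, -⟩ := err_ge hs
          have hyy : 0 ≤ P.y i / mu n i := by positivity
          have htt : 0 ≤ P.tau i / mu n i ^ 2 := div_nonneg (by linarith [hs.tau1]) (by positivity)
          linarith
  have hmain : rate i E * ∑ u ∈ S, (phi (i + 1) (E \ sides u) e t - phi i E e t) =
      s * (rate i E * ∑ u ∈ S, dsum i E e t u) + rate i E * ∑ u ∈ S, dsum i E e t u ^ 2 / 2 := by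
    simp only [phi_change, sum_add_distrib, ← mul_sum, ← hsdef]
    ring
  rw [hmain, add_sub_assoc, hquad]
  obtain ⟨e1, e2, e3, e4, -, e5⟩ := err_ge hs
  have e6 := inv_sq_le hs
  have hs1 : |s * (rate i E * ∑ u ∈ S, dsum i E e t u)| ≤
      4 * C * (P.y i * P.z i) + 4 * C * (P.y i * P.y i ^ 2) + (4 * C + 320) * (P.y i / mu n i) := by
    rw [abs_mul]
    refine (mul_le_mul hsy hlin (abs_nonneg _) (by linarith)).trans_eq ?_
    ring
  have m1 := mul_le_mul_of_nonneg_left e1 (show (0:ℝ) ≤ 4 * C by linarith)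
  have m2 := mul_le_mul_of_nonneg_left e2 (show (0:ℝ) ≤ 4 * C by linarith)
  have m3 := mul_le_mul_of_nonneg_left e3 (show (0:ℝ) ≤ 4 * C + 520 by linarith)
  have b := abs_le.1 hT3
  have c := abs_le.1 hs1
  have h0 : 0 ≤ err P n i := le_trans (by positivity) e6
  have h1 : 0 ≤ C * err P n i := mul_nonneg (by linarith) h0
  exact abs_le.2 ⟨by linarith [hT1.1, hT2.2], by linarith [hT1.2, hT2.1]⟩

end Vale.Agent.P046.Flags.SecondOrder
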