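import Vale.Agent.P046.Flags.SecondOrderFlag

/-!
# Noise of the second order average
-/

namespace Vale.Agent.P046.Flags.SecondOrder

open Finset Chain

variable {n : ℕ} {P : Env} {i : ℕ} {E : St n}

/-- The flag function of the global mean. -/
noncomputable def phiG (i : ℕ) (E : St n) (t : Finset (Fin n)) : ℝ :=
  (∑ e ∈ sides t, phi i E e t) / 3

lemma vG_eq (i : ℕ) (E : St n) :
    vG i E = FlagDrift.mean (triangles E) (phiG i E) := rfl

lemma phiG_mem (hg : Good P i E) {t : Finset (Fin n)} (ht : t ∈ triangles E) :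
    0 ≤ phiG i E t ∧ phiG i E t ≤ 2 * P.y i ^ 2 := by
  refine ⟨div_nonneg (sum_nonneg fun e he => (phi_mem hg ht he).1) (by norm_num), ?_⟩
  rw [phiG, div_le_iff₀ (by norm_num)]
  refine (sum_le_card_nsmul _ _ _ fun e he => (phi_mem hg ht he).2).trans ?_
  rw [card_sides ht, nsmul_eq_mul]
  push_cast
  linarith

lemma abs_centred_le {α : Type*} {A : Finset α} {z : α → ℝ} {B : ℝ} (hB : 0 ≤ B)
    (h : ∀ a ∈ A, |z a| ≤ B) {a : α} (ha : a ∈ A) : |z a - FlagDrift.mean A z| ≤ 2 * B :=
  (abs_sub _ _).trans (by linarith [h a ha, abs_mean_le hB h])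

/-- The change of a mean when few flags are lost. -/
lemma mean_step_le {α : Type*} [DecidableEq α] {A : Finset α} (L : Finset (Fin n) → Finset α)
    (z : α → ℝ) (z' : Finset (Fin n) → α → ℝ) (u : Finset (Fin n)) {B a : ℝ} (hL : L u ⊆ A)
    (hhalf : 2 * ((L u).card : ℝ) ≤ A.card) (ha : 0 < a) (haA : a ≤ A.card)
    (hB : ∀ x ∈ A, |z x - FlagDrift.mean A z| ≤ B) :
    |FlagDrift.mean (A \ L u) (z' u) - FlagDrift.mean A z| ≤
      2 / a * ((∑ x ∈ A \ L u, |z' u x - z x|) + (L u).card * B) := by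
  have hlt : (L u).card < A.card := by
    have : ((L u).card : ℝ) < A.card := by linarith
    exact_mod_cast this
  rw [FlagDrift.mean_change A L z z' u hL hlt, abs_div]
  have h0 := (abs_nonneg _).trans (FlagDrift.abs_num_le A L z z' u fun x hx => hB x (hL hx))
  rw [abs_of_pos (show (0:ℝ) < (A.card : ℝ) - (L u).card by linarith),
    div_le_iff₀ (show (0:ℝ) < (A.card : ℝ) - (L u).card by linarith)]
  refine (FlagDrift.abs_num_le A L z z' u fun x hx => hB x (hL hx)).trans ?_
  calc _ = 2 / a * ((∑ x ∈ A \ L u, |z' u x - z x|) + (L u).card * B) * (a / 2) := by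
        field_simp
    _ ≤ _ := mul_le_mul_of_nonneg_left (by linarith) (mul_nonneg (by positivity) h0)

/-- One step changes the global mean by `O(1 / mm)`. -/
lemma abs_vG_change (hs : Small n P i) (hg : Good P i E) {u : Finset (Fin n)}
    (hu : u ∈ triangles E) : |vG (i + 1) (E \ sides u) - vG i E| ≤ 2000 / mm n i := by
  have hmu := hs.mu_pos
  have hmb := hs.mu_big
  have hm := hs.mm_ge
  have hm2 := mm_big hs
  have hy := hs.y0
  have hy1 := hs.y1
  set A := triangles E with hA
  set L : Finset (Fin n) → St n := FlagDrift.lost (U3 n) sides E with hL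
  have hQ := card_triangles_ge hs hg
  have hLc := lost_all_card hs hg hu
  have hsub : L u ⊆ A := filter_subset _ _
  have hhalf : 2 * ((L u).card : ℝ) ≤ A.card := by
    have : 8 * mu n i ≤ 33 / 100 * (mm n i * mu n i) := by nlinarith
    linarith
  have h := mean_step_le L (phiG i E) (fun u => phiG (i + 1) (E \ sides u)) u hsub hhalf
    (show 0 < 33 / 100 * (mm n i * mu n i) by positivity) hQ
    (fun x hx => abs_centred_le (B := 2 * P.y i ^ 2) (by positivity)
      (fun a ha => abs_le.2 ⟨by linarith [(phiG_mem hg ha).1, sq_nonneg (P.y i)],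
        (phiG_mem hg ha).2⟩) hx)
  rw [vG_eq, vG_eq, ← flags_all (E \ sides u), FlagDrift.flags_sdiff, flags_all]
  refine h.trans ?_
  -- the loss seen by all flags
  have hloss : ∑ g ∈ E \ sides u, (Codeg.loss E g u : ℝ) ≤ 12 * mu n i := by
    set V := A.filter fun v => ¬ Disjoint (sides v) (sides u) with hV
    have h1 : ∀ g, Codeg.loss E g u = ∑ v ∈ V, if g ∈ sides v then 1 else 0 := by
      intro g
      rw [sum_boole, Nat.cast_id, Codeg.loss, Codeg.star, filter_comm]
    have h2 : ∑ g ∈ E \ sides u, Codeg.loss E g u ≤ 3 * V.card := by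
      simp only [h1]
      rw [sum_comm, mul_comm, ← smul_eq_mul, ← sum_const]
      refine sum_le_sum fun v hv => ?_
      rw [sum_boole, Nat.cast_id]
      refine le_of_le_of_eq (card_le_card (t := sides v) fun g hg' => (mem_filter.1 hg').2) ?_
      exact card_sides (mem_filter.1 hv).1
    have h3 : ((∑ g ∈ E \ sides u, Codeg.loss E g u : ℕ) : ℝ) ≤ ((3 * V.card : ℕ) : ℝ) :=
      Nat.cast_le.2 h2
    push_cast at h3
    have h4 : (V.card : ℝ) ≤ 4 * mu n i := hLc
    linarith
  have hksum : ∑ t ∈ A \ L u, ∑ e ∈ sides t, ksum E e t u ≤ 25 * mu n i ^ 2 := by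
    rw [hA, hL, sdiff_lost_all]
    calc ∑ t ∈ (triangles E).filter (fun t => Disjoint (sides t) (sides u)),
          ∑ e ∈ sides t, ksum E e t u
        ≤ ∑ t ∈ triangles E, ∑ g ∈ sides t,
            2 * (if g ∈ sides u then 0 else (Codeg.loss E g u : ℝ)) := by
          refine (sum_le_sum (g := fun t => ∑ g ∈ sides t,
            2 * (if g ∈ sides u then 0 else (Codeg.loss E g u : ℝ))) fun t ht => le_of_eq ?_).trans
            (sum_le_sum_of_subset_of_nonneg (filter_subset _ _)
              fun t _ _ => sum_nonneg fun g _ => by split_ifs <;> positivity)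
          obtain ⟨htT, htd⟩ := mem_filter.1 ht
          simp only [ksum]
          rw [sum_congr rfl fun e he => sum_erase_eq_sub he, sum_sub_distrib, sum_const,
            card_sides htT, nsmul_eq_mul, ← mul_sum]
          push_cast
          rw [sum_congr rfl fun g hg' => if_neg (disjoint_left.1 htd hg')]
          ring
      _ = ∑ g ∈ E, ∑ _t ∈ triAt E g,
            2 * (if g ∈ sides u then 0 else (Codeg.loss E g u : ℝ)) := (sum_triAt E _).symm
      _ ≤ ∑ g ∈ E, 2 * (101 / 100 * mu n i) *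
            (if g ∈ sides u then 0 else (Codeg.loss E g u : ℝ)) := by
          refine sum_le_sum fun g hg' => ?_
          rw [sum_const, nsmul_eq_mul, ← mul_assoc]
          refine mul_le_mul_of_nonneg_right ?_ (by split_ifs <;> positivity)
          linarith [(triAt_card_bounds hs hg hg').2]
      _ ≤ _ := by
          rw [← mul_sum, sum_ite, sum_const_zero, zero_add, ← sdiff_eq_filter]
          nlinarith
  have hΔ : ∑ t ∈ A \ L u, |phiG (i + 1) (E \ sides u) t - phiG i E t| ≤
      420 / mm n i * (A.card : ℝ) + 900 * ((P.y i / mu n i + 1 / mu n i ^ 2) * mu n i ^ 2) := by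
    have hp : ∀ t ∈ A \ L u, |phiG (i + 1) (E \ sides u) t - phiG i E t| ≤
        420 / mm n i + 100 / 3 * (P.y i / mu n i + 1 / mu n i ^ 2) *
          ∑ e ∈ sides t, ksum E e t u := by
      intro t ht
      rw [hA, hL, sdiff_lost_all, mem_filter] at ht
      rw [phiG, phiG, ← sub_div, ← sum_sub_distrib, abs_div, abs_of_pos (by norm_num : (0:ℝ) < 3),
        div_le_iff₀ (by norm_num)]
      refine (abs_sum_le_sum_abs _ _).trans
        ((sum_le_sum fun e he => abs_phi_change_le hs hg ht.1 he hu ht.2).trans_eq ?_)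
      rw [sum_add_distrib, sum_const, card_sides ht.1, nsmul_eq_mul, ← mul_sum]
      push_cast
      ring
    refine (sum_le_sum hp).trans ?_
    rw [sum_add_distrib, sum_const, nsmul_eq_mul, ← mul_sum]
    have h1 : ((A \ L u).card : ℝ) ≤ A.card := Nat.cast_le.2 (card_le_card sdiff_subset)
    have hq : 0 ≤ P.y i / mu n i + 1 / mu n i ^ 2 := by positivity
    have h2 := mul_le_mul_of_nonneg_left hksum
      (show (0:ℝ) ≤ 100 / 3 * (P.y i / mu n i + 1 / mu n i ^ 2) by positivity)
    have h3 := mul_le_mul_of_nonneg_left h1 (show (0:ℝ) ≤ 420 / mm n i by positivity)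
    have h4 : 0 ≤ (P.y i / mu n i + 1 / mu n i ^ 2) * mu n i ^ 2 := by positivity
    linarith
  have hcardA : (A.card : ℝ) ≤ 101 / 300 * (mm n i * mu n i) := by
    have h := (one_add_gg_bounds hs hg).2
    have hm0 : (0:ℝ) < E.card * mu n i := by rw [card_eq_mm hg.size]; positivity
    rw [gg, add_sub_cancel, div_le_iff₀ hm0, card_eq_mm hg.size] at h
    linarith
  calc _ ≤ 2 / (33 / 100 * (mm n i * mu n i)) *
        ((420 / mm n i * (101 / 300 * (mm n i * mu n i))
          + 900 * ((P.y i / mu n i + 1 / mu n i ^ 2) * mu n i ^ 2))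
          + 4 * mu n i * (2 * (2 * P.y i ^ 2))) := by
        refine mul_le_mul_of_nonneg_left (add_le_add (hΔ.trans ?_) ?_) (by positivity)
        · gcongr
        · exact mul_le_mul_of_nonneg_right hLc (by positivity)
    _ = (2 / (33 / 100)) * (420 * (101 / 300) + 900 * P.y i + 900 / mu n i + 16 * P.y i ^ 2)
          * (1 / mm n i) := by field_simp; ring
    _ ≤ 2000 * (1 / mm n i) := by
        refine mul_le_mul_of_nonneg_right ?_ (by positivity)
        have : 900 / mu n i ≤ 9 := by rw [div_le_iff₀ hmu]; linarith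
        have : P.y i ^ 2 ≤ 1 / 10000 := by nlinarith
        linarith
    _ = _ := by ring

/-- One step changes the mean at `e` by the loss seen by its flags. -/
lemma abs_vv_change (hs : Small n P i) (hg : Good P i E) {e u : Finset (Fin n)} (he : e ∈ E)
    (hu : u ∈ FlagDrift.steps {e} E) :
    |vv (i + 1) (E \ sides u) e - vv i E e| ≤ 900 / mm n i +
      205 * ((P.y i / mu n i + 1 / mu n i ^ 2) / mu n i) *
        (∑ t ∈ (triAt E e).filter (fun t => Disjoint (sides t) (sides u)), ksum E e t u) +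
      9 * (P.y i ^ 2 / mu n i) * ((FlagDrift.lost (Uat e) (req e) E u).card : ℝ) := by
  obtain ⟨huT, heu⟩ := steps_single.1 hu
  have hmu := hs.mu_pos
  have hmb := hs.mu_big
  have hy := hs.y0
  set A := triAt E e
  set L : Finset (Fin n) → St n := FlagDrift.lost (Uat e) (req e) E with hL
  obtain ⟨hA1, hA2⟩ := triAt_card_bounds hs hg he
  have hsub : L u ⊆ A := by
    intro t ht; rw [hL, FlagDrift.lost, flags_at he] at ht; exact (mem_filter.1 ht).1
  have hLc : ((L u).card : ℝ) ≤ 3 := by exact_mod_cast lost_at_card hu he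
  have hhalf : 2 * ((L u).card : ℝ) ≤ A.card := by linarith
  have h := mean_step_le L (phi i E e) (fun u => phi (i + 1) (E \ sides u) e) u hsub hhalf
    (show 0 < 99 / 100 * mu n i by positivity) hA1
    (fun x hx => abs_centred_le (B := 2 * P.y i ^ 2) (by positivity)
      (fun a ha => by
        obtain ⟨ha1, ha2⟩ := mem_of_triAt ha
        exact abs_le.2 ⟨by linarith [(phi_mem hg ha1 ha2).1, sq_nonneg (P.y i)],
          (phi_mem hg ha1 ha2).2⟩) hx)
  have he' : e ∈ E \ sides u := mem_sdiff.2 ⟨he, heu⟩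
  rw [vv, vv, ← flags_at he', FlagDrift.flags_sdiff, flags_at he]
  refine h.trans ?_
  have hk : L u = FlagDrift.lost (Uat e) (req e) E u := rfl
  rw [hk, sdiff_lost_at he heu]
  set N := ∑ t ∈ A.filter (fun t => Disjoint (sides t) (sides u)), ksum E e t u
  have hΔ : ∑ t ∈ A.filter (fun t => Disjoint (sides t) (sides u)),
      |phi (i + 1) (E \ sides u) e t - phi i E e t| ≤
        420 / mm n i * (101 / 100 * mu n i) + 100 * (P.y i / mu n i + 1 / mu n i ^ 2) * N := by
    refine (sum_le_sum fun t ht => abs_phi_change_le hs hg (mem_of_triAt (mem_filter.1 ht).1).1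
      (mem_of_triAt (mem_filter.1 ht).1).2 huT (mem_filter.1 ht).2).trans ?_
    rw [sum_add_distrib, sum_const, nsmul_eq_mul, ← mul_sum]
    refine add_le_add ?_ le_rfl
    rw [mul_comm]
    refine mul_le_mul_of_nonneg_left ?_ (by have := hs.mm_ge; positivity)
    exact (Nat.cast_le.2 (card_le_card (filter_subset _ _))).trans hA2
  have hN0 : 0 ≤ N := sum_nonneg fun t _ => sum_nonneg fun g _ => Nat.cast_nonneg _
  have hm := hs.mm_ge
  calc _ ≤ 2 / (99 / 100 * mu n i) * (420 / mm n i * (101 / 100 * mu n i) +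
        100 * (P.y i / mu n i + 1 / mu n i ^ 2) * N + (L u).card * (2 * (2 * P.y i ^ 2))) :=
        mul_le_mul_of_nonneg_left (add_le_add hΔ le_rfl) (by positivity)
    _ = (2 * 420 * 101 / 99) * (1 / mm n i) + (20000 / 99) *
          ((P.y i / mu n i + 1 / mu n i ^ 2) / mu n i * N) +
          (800 / 99) * (P.y i ^ 2 / mu n i * (L u).card) := by field_simp; ring
    _ ≤ 900 * (1 / mm n i) + 205 * ((P.y i / mu n i + 1 / mu n i ^ 2) / mu n i * N) +
          9 * (P.y i ^ 2 / mu n i * (L u).card) := by gcongr <;> norm_num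
    _ = _ := by ring

/-- The flags at `e` are lost at most `4 mu ^ 2` times in all. -/
lemma sum_lost_le (hs : Small n P i) (hg : Good P i E) {e : Finset (Fin n)} (he : e ∈ E) :
    ∑ u ∈ FlagDrift.steps {e} E, ((FlagDrift.lost (Uat e) (req e) E u).card : ℝ) ≤
      4 * mu n i ^ 2 := by
  have hrw : ∀ u, (FlagDrift.lost (Uat e) (req e) E u).card =
      ∑ t ∈ triAt E e, if ¬ Disjoint (req e t) (sides u) then 1 else 0 := fun u => by
    rw [FlagDrift.lost, flags_at he, card_filter]
  simp only [hrw]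
  push_cast
  rw [sum_comm]
  refine (sum_le_card_nsmul _ _ (3 * mu n i) fun t ht => ?_).trans ?_
  · rw [sum_boole]
    obtain ⟨ht1, ht2⟩ := mem_of_triAt ht
    refine le_trans (Nat.cast_le.2 (card_le_card (t := (triangles E).filter
      fun u => ¬ Disjoint (sides u) (req e t)) fun u hu => ?_)) ?_
    · obtain ⟨h1, h2⟩ := mem_filter.1 hu
      exact mem_filter.2 ⟨(mem_filter.1 h1).1, fun h => h2 h.symm⟩
    · refine (FlagDrift.hit_upper E _).trans ((sum_le_card_nsmul _ _ (101 / 100 * mu n i)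
        fun f hf => (triAt_card_bounds hs hg (sides_sub ht1 (mem_of_mem_erase hf))).2).trans ?_)
      rw [card_erase_sides ht1 ht2, nsmul_eq_mul]
      push_cast
      linarith [hs.mu_pos]
  · rw [nsmul_eq_mul]
    nlinarith [(triAt_card_bounds hs hg he).2, hs.mu_pos]

lemma noise_sq (hs : Small n P i) (hg : Good P i E) {e : Finset (Fin n)}
    (he : e ∈ E) :
    Flags.sq {e} (fun k F => vc k F e) i E ≤ 100000000 * qV P n i := by
  have hmu := hs.mu_pos
  have hm := hs.mm_ge
  have hy := hs.y0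
  have ht1 := hs.tau1
  have hne := triangles_ne_empty hs hg
  set q := P.y i / mu n i + 1 / mu n i ^ 2 with hq
  have hq0 : 0 ≤ q := by positivity
  set N : Finset (Fin n) → ℝ := fun u =>
    ∑ t ∈ (triAt E e).filter (fun t => Disjoint (sides t) (sides u)), ksum E e t u with hN
  set L : Finset (Fin n) → ℝ := fun u => ((FlagDrift.lost (Uat e) (req e) E u).card : ℝ) with hLd
  have hbd : ∀ u ∈ FlagDrift.steps {e} E, |vc (i + 1) (E \ sides u) e - vc i E e| ≤
      2900 / mm n i + 205 * (q / mu n i) * N u + 9 * (P.y i ^ 2 / mu n i) * L u := by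
    intro u hu
    have h1 := abs_vv_change hs hg he hu
    have h2 := abs_vG_change hs hg (steps_single.1 hu).1
    have h3 : 2900 / mm n i = 900 / mm n i + 2000 / mm n i := by ring
    rw [vc, vc, show ∀ a b c d : ℝ, a - b - (c - d) = (a - c) - (b - d) from fun a b c d => by ring]
    refine (abs_sub _ _).trans ?_
    simp only [hN, hLd]
    linarith
  have hNb : ∀ u ∈ FlagDrift.steps {e} E, 0 ≤ N u ∧ N u ≤ 24 * P.tau i := fun u hu =>
    ⟨sum_nonneg fun t _ => sum_nonneg fun g _ => Nat.cast_nonneg _,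
      sum_ksum_at_le hs hg he (steps_single.1 hu).1 (steps_single.1 hu).2⟩
  have hLb : ∀ u ∈ FlagDrift.steps {e} E, 0 ≤ L u ∧ L u ≤ 3 := fun u hu =>
    ⟨Nat.cast_nonneg _, by simp only [hLd]; exact_mod_cast lost_at_card hu he⟩
  have hpt : ∀ u ∈ FlagDrift.steps {e} E, (vc (i + 1) (E \ sides u) e - vc i E e) ^ 2 ≤
      3 * (2900 / mm n i) ^ 2 + 3025800 * P.tau i * (q / mu n i) ^ 2 * N u
        + 729 * (P.y i ^ 2 / mu n i) ^ 2 * L u := by
    intro u hu
    obtain ⟨hN0, hN1⟩ := hNb u hu
    obtain ⟨hL0, hL1⟩ := hLb u hu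
    have h := pow_le_pow_left₀ (abs_nonneg _) (hbd u hu) 2
    rw [sq_abs] at h
    refine h.trans ?_
    have hq' : 0 ≤ q / mu n i := by positivity
    have hN2 : N u ^ 2 ≤ 24 * P.tau i * N u := by rw [pow_two]; exact mul_le_mul_of_nonneg_right hN1 hN0
    have hL2 : L u ^ 2 ≤ 3 * L u := by rw [pow_two]; exact mul_le_mul_of_nonneg_right hL1 hL0
    have h1 := mul_le_mul_of_nonneg_left hN2 (sq_nonneg (205 * (q / mu n i)))
    have h2 := mul_le_mul_of_nonneg_left hL2 (sq_nonneg (9 * (P.y i ^ 2 / mu n i)))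
    linarith [two_mul_le_add_sq (2900 / mm n i) (205 * (q / mu n i) * N u),
      two_mul_le_add_sq (2900 / mm n i) (9 * (P.y i ^ 2 / mu n i) * L u),
      two_mul_le_add_sq (205 * (q / mu n i) * N u) (9 * (P.y i ^ 2 / mu n i) * L u)]
  have hsq : Flags.sq {e} (fun k F => vc k F e) i E = rate i E *
      ∑ u ∈ FlagDrift.steps {e} E, (vc (i + 1) (E \ sides u) e - vc i E e) ^ 2 := by
    have h : ∀ (a b : ℝ), mm n i / 3 * (a / b) = mm n i / (3 * b) * a := fun a b => by ring
    rw [Flags.sq, avg, if_neg hne, h, rate, FlagDrift.steps, sum_filter]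
    congr 1
    refine sum_congr rfl fun u hu => ?_
    by_cases hd : Disjoint ({e} : St n) (sides u)
    · rw [if_pos (subset_sdiff.2 ⟨singleton_subset_iff.2 he, hd⟩), if_pos hd]
    · rw [if_neg fun h' => hd (subset_sdiff.1 h').2, if_neg hd]
  rw [hsq]
  have hNsum : ∑ u ∈ FlagDrift.steps {e} E, N u ≤ 7 * mu n i ^ 3 := by
    simp only [hN, sum_filter]
    rw [sum_comm]
    refine (sum_le_card_nsmul _ _ (6 * mu n i ^ 2) fun t ht => ?_).trans ?_
    · obtain ⟨ht1', ht2⟩ := mem_of_triAt ht
      rw [← sum_filter]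
      refine (sum_le_sum_of_subset_of_nonneg (fun u hu => ?_)
        fun u _ _ => sum_nonneg fun g _ => Nat.cast_nonneg _).trans (sum_ksum_le hs hg ht1' ht2)
      obtain ⟨h1, h2⟩ := mem_filter.1 hu
      exact mem_filter.2 ⟨(steps_single.1 h1).1, h2⟩
    · rw [nsmul_eq_mul]
      nlinarith [mul_le_mul_of_nonneg_right (triAt_card_bounds hs hg he).2 (pow_nonneg hmu.le 2),
        pow_nonneg hmu.le 3]
  have hLsum : ∑ u ∈ FlagDrift.steps {e} E, L u ≤ 4 * mu n i ^ 2 := sum_lost_le hs hg he
  have hQm : rate i E * ((FlagDrift.steps {e} E).card : ℝ) ≤ mm n i / 3 := by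
    rw [← rate_mul_card hs hg]
    exact mul_le_mul_of_nonneg_left (Nat.cast_le.2 (card_le_card (filter_subset _ _)))
      (rate_nonneg hs)
  have hr0 := rate_nonneg (E := E) hs
  have hrate := rate_le hs hg
  calc rate i E * ∑ u ∈ FlagDrift.steps {e} E, (vc (i + 1) (E \ sides u) e - vc i E e) ^ 2
      ≤ rate i E * ∑ u ∈ FlagDrift.steps {e} E, (3 * (2900 / mm n i) ^ 2 +
          3025800 * P.tau i * (q / mu n i) ^ 2 * N u + 729 * (P.y i ^ 2 / mu n i) ^ 2 * L u) :=
        mul_le_mul_of_nonneg_left (sum_le_sum hpt) hr0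
    _ = (rate i E * (FlagDrift.steps {e} E).card) * (3 * (2900 / mm n i) ^ 2) +
          rate i E * (3025800 * P.tau i * (q / mu n i) ^ 2 * ∑ u ∈ FlagDrift.steps {e} E, N u) +
          rate i E * (729 * (P.y i ^ 2 / mu n i) ^ 2 * ∑ u ∈ FlagDrift.steps {e} E, L u) := by
        simp only [sum_add_distrib, ← mul_sum, sum_const, nsmul_eq_mul]; ring
    _ ≤ (mm n i / 3) * (3 * (2900 / mm n i) ^ 2) +
          (102 / 100 / mu n i) * (3025800 * P.tau i * (q / mu n i) ^ 2 * (7 * mu n i ^ 3)) +
          (102 / 100 / mu n i) * (729 * (P.y i ^ 2 / mu n i) ^ 2 * (4 * mu n i ^ 2)) := by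
        have hN0 : 0 ≤ ∑ u ∈ FlagDrift.steps {e} E, N u := sum_nonneg fun u hu => (hNb u hu).1
        have hL0 : 0 ≤ ∑ u ∈ FlagDrift.steps {e} E, L u := sum_nonneg fun u hu => (hLb u hu).1
        have hc : 0 ≤ 102 / 100 / mu n i := by positivity
        have hcN : 0 ≤ 3025800 * P.tau i * (q / mu n i) ^ 2 := by positivity
        have hcL : 0 ≤ 729 * (P.y i ^ 2 / mu n i) ^ 2 := by positivity
        exact add_le_add (add_le_add (mul_le_mul_of_nonneg_right hQm (by positivity))
          (mul_le_mul hrate (mul_le_mul_of_nonneg_left hNsum hcN) (mul_nonneg hcN hN0) hc))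
          (mul_le_mul hrate (mul_le_mul_of_nonneg_left hLsum hcL) (mul_nonneg hcL hL0) hc)
    _ = 8410000 * (1 / mm n i) + 21604212 * (P.tau i * q ^ 2)
          + (74358 / 25) * (P.y i ^ 4 / mu n i) := by field_simp; ring
    _ ≤ _ := by
        have hq2 : q ^ 2 ≤ 2 * (P.y i ^ 2 / mu n i ^ 2) + 2 * (1 / mu n i ^ 4) := by
          have h2 := two_mul_le_add_sq (P.y i / mu n i) (1 / mu n i ^ 2)
          rw [hq, add_sq, show P.y i ^ 2 / mu n i ^ 2 = (P.y i / mu n i) ^ 2 by ring,
            show 1 / mu n i ^ 4 = (1 / mu n i ^ 2) ^ 2 by ring]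
          linarith
        have h := mul_le_mul_of_nonneg_left hq2 (show (0:ℝ) ≤ P.tau i by linarith)
        have a1 : 0 ≤ P.y i ^ 4 / mu n i := by positivity
        have a2 : 0 ≤ 1 / mm n i := by positivity
        have a3 : 0 ≤ P.tau i * (P.y i ^ 2 / mu n i ^ 2) := by positivity
        have a4 : 0 ≤ P.tau i * (1 / mu n i ^ 4) := by positivity
        have hQ : qV P n i = P.tau i * (P.y i ^ 2 / mu n i ^ 2) + P.tau i * (1 / mu n i ^ 4)
            + P.y i ^ 4 / mu n i + 1 / mm n i := by rw [qV]; ring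
        rw [hQ]
        linarith

lemma noise_jump (hs : Small n P i) (hg : Good P i E) {e : Finset (Fin n)}
    (he : e ∈ E) :
    JumpLE {e} (fun k F => vc k F e) i E (100000000 * jV P n i) := by
  have hmu := hs.mu_pos
  have hm := hs.mm_ge
  have hy := hs.y0
  have ht1 := hs.tau1
  have hne := triangles_ne_empty hs hg
  set q := P.y i / mu n i + 1 / mu n i ^ 2 with hq
  have hq0 : 0 ≤ q := by positivity
  set N : Finset (Fin n) → ℝ := fun u =>
    ∑ t ∈ (triAt E e).filter (fun t => Disjoint (sides t) (sides u)), ksum E e t u with hN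
  set L : Finset (Fin n) → ℝ := fun u => ((FlagDrift.lost (Uat e) (req e) E u).card : ℝ) with hLd
  have hbd : ∀ u ∈ FlagDrift.steps {e} E, |vc (i + 1) (E \ sides u) e - vc i E e| ≤
      2900 / mm n i + 205 * (q / mu n i) * N u + 9 * (P.y i ^ 2 / mu n i) * L u := by
    intro u hu
    have h1 := abs_vv_change hs hg he hu
    have h2 := abs_vG_change hs hg (steps_single.1 hu).1
    have h3 : 2900 / mm n i = 900 / mm n i + 2000 / mm n i := by ring
    rw [vc, vc, show ∀ a b c d : ℝ, a - b - (c - d) = (a - c) - (b - d) from fun a b c d => by ring]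
    refine (abs_sub _ _).trans ?_
    simp only [hN, hLd]
    linarith
  have hNb : ∀ u ∈ FlagDrift.steps {e} E, 0 ≤ N u ∧ N u ≤ 24 * P.tau i := fun u hu =>
    ⟨sum_nonneg fun t _ => sum_nonneg fun g _ => Nat.cast_nonneg _,
      sum_ksum_at_le hs hg he (steps_single.1 hu).1 (steps_single.1 hu).2⟩
  have hLb : ∀ u ∈ FlagDrift.steps {e} E, 0 ≤ L u ∧ L u ≤ 3 := fun u hu =>
    ⟨Nat.cast_nonneg _, by simp only [hLd]; exact_mod_cast lost_at_card hu he⟩
  have hmem : ∀ u ∈ triangles E, ({e} : St n) ⊆ E \ sides u ↔ u ∈ FlagDrift.steps {e} E :=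
    fun u hu => by simp [steps_single, hu, he]
  intro u hu hsub
  have hu' := (hmem u hu).1 hsub
  refine (hbd u hu').trans ?_
  have hq' : 0 ≤ 205 * (q / mu n i) := by positivity
  have hy' : 0 ≤ 9 * (P.y i ^ 2 / mu n i) := by positivity
  have h1 := mul_le_mul_of_nonneg_left (hNb u hu').2 hq'
  have h2 := mul_le_mul_of_nonneg_left (hLb u hu').2 hy'
  have hJ : jV P n i = q / mu n i * P.tau i + P.y i ^ 2 / mu n i + 1 / mm n i := by
    rw [jV, hq]; ring
  rw [hJ]
  have a1 : 0 ≤ q / mu n i * P.tau i := by positivity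
  have a2 : 0 ≤ 1 / mm n i := by positivity
  have h3 : 2900 / mm n i = 2900 * (1 / mm n i) := by ring
  linarith

theorem noiseV : Spec.NoiseV :=
  ⟨100000000, by norm_num, fun _ _ _ _ hs hg _ he => ⟨noise_sq hs hg he, noise_jump hs hg he⟩⟩

end Vale.Agent.P046.Flags.SecondOrder
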