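import Vale.Agent.P046.Flags.Defs

/-!
# The one step estimates, as propositions to be proved
-/

namespace Vale.Agent.P046.Flags.Spec

open Finset Chain

/-- Drift of the codegree deviation. -/
def DriftY : Prop := ∃ C : ℝ, 1 ≤ C ∧ ∀ (n i : ℕ) (P : Env) (E : St n), Small n P i → Good P i E →
  ∀ e ∈ E, |inc {e} (fun k F => yy k F e) i E| ≤
    C * (P.z i + P.y i ^ 2 + 1 / mu n i)

/-- Drift of the first averaged deviation. -/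
def DriftZ : Prop := ∃ C : ℝ, 1 ≤ C ∧ ∀ (n i : ℕ) (P : Env) (E : St n), Small n P i → Good P i E →
  ∀ e ∈ E, |inc {e} (fun k F => zc k F e) i E| ≤ C * (P.w i + P.v i + err P n i)

/-- Drift of the second averaged deviation. -/
def DriftW : Prop := ∃ C : ℝ, 1 ≤ C ∧ ∀ (n i : ℕ) (P : Env) (E : St n), Small n P i → Good P i E →
  ∀ e ∈ E, |inc {e} (fun k F => wc k F e) i E + 2 / (1 + gg i E) * avgE E (wc i E) e| ≤
    C * (P.v i + err P n i)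

/-- Drift of the second order average. -/
def DriftV : Prop := ∃ C : ℝ, 1 ≤ C ∧ ∀ (n i : ℕ) (P : Env) (E : St n), Small n P i → Good P i E →
  ∀ e ∈ E, |inc {e} (fun k F => vc k F e) i E| ≤ C * err P n i

/-- Drift of the vertex part. -/
def DriftU : Prop := ∃ C : ℝ, 1 ≤ C ∧ ∀ (n i : ℕ) (P : Env) (eta : ℕ → ℝ) (E : St n),
  Small n P i → GoodI P eta i E → eta i ≤ 1 / 100 →
  ∀ b : Fin n, |inc ∅ (fun k F => uc k F b) i E + (uc i E b + oc i E b) / (1 + gg i E)| ≤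
    C * (P.v i + err P n i)

/-- Second moments and jumps. -/
def NoiseY : Prop := ∃ C : ℝ, 1 ≤ C ∧ ∀ (n i : ℕ) (P : Env) (E : St n), Small n P i → Good P i E →
  ∀ e ∈ E, sq {e} (fun k F => yy k F e) i E ≤ C * qY P n i ∧
    JumpLE {e} (fun k F => yy k F e) i E (C * jY n i)

def NoiseZ : Prop := ∃ C : ℝ, 1 ≤ C ∧ ∀ (n i : ℕ) (P : Env) (E : St n), Small n P i → Good P i E →
  ∀ e ∈ E, sq {e} (fun k F => zc k F e) i E ≤ C * qZ P n i ∧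
    JumpLE {e} (fun k F => zc k F e) i E (C * jZ P n i)

def NoiseW : Prop := ∃ C : ℝ, 1 ≤ C ∧ ∀ (n i : ℕ) (P : Env) (E : St n), Small n P i → Good P i E →
  ∀ e ∈ E, sq {e} (fun k F => wc k F e) i E ≤ C * qW P n i ∧
    JumpLE {e} (fun k F => wc k F e) i E (C * jW P n i)

def NoiseV : Prop := ∃ C : ℝ, 1 ≤ C ∧ ∀ (n i : ℕ) (P : Env) (E : St n), Small n P i → Good P i E →
  ∀ e ∈ E, sq {e} (fun k F => vc k F e) i E ≤ C * qV P n i ∧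
    JumpLE {e} (fun k F => vc k F e) i E (C * jV P n i)

def NoiseU : Prop := ∃ C : ℝ, 1 ≤ C ∧ ∀ (n i : ℕ) (P : Env) (eta : ℕ → ℝ) (E : St n),
  Small n P i → GoodI P eta i E → eta i ≤ 1 / 100 →
  ∀ b : Fin n, sq ∅ (fun k F => uc k F b) i E ≤ C * qU P n i ∧
    JumpLE ∅ (fun k F => uc k F b) i E (C * jU P n i)

/-- The tracked rooted counts: relative drift, second moment and jump. -/
def TrackDeg : Prop := ∃ C : ℝ, 1 ≤ C ∧ ∀ (n i : ℕ) (P : Env) (eta : ℕ → ℝ) (E : St n),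
  Small n P i → GoodI P eta i E → eta i ≤ 1 / 100 → ∀ b : Fin n,
    let f : ℕ → St n → ℝ := fun k F => (degV F b : ℝ) / (n * pp n k) - 1
    |inc ∅ f i E| ≤ C * (P.y i + 1 / mu n i) ∧
    sq ∅ f i E ≤ C * (1 / (n * pp n i)) ∧ JumpLE ∅ f i E (C * (1 / (n * pp n i)))

def TrackWalk : Prop := ∃ C : ℝ, 1 ≤ C ∧ ∀ (n i : ℕ) (P : Env) (eta : ℕ → ℝ) (E : St n),
  Small n P i → GoodI P eta i E → eta i ≤ 1 / 100 → ∀ a x z : Fin n, {a, x} ∈ E → {a, z} ∈ E →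
    let f : ℕ → St n → ℝ := fun k F => (W3 F a x z : ℝ) / ((n:ℝ) ^ 2 * pp n k ^ 5) - 1
    let R : St n := {{a, x}, {a, z}}
    |inc R f i E| ≤ C * (P.y i + 1 / mu n i + P.tau i / ((n:ℝ) ^ 2 * pp n i ^ 5)) ∧
    sq R f i E ≤ C * (P.tau i / ((n:ℝ) ^ 2 * pp n i ^ 5)) ∧
    JumpLE R f i E (C * (P.tau i / ((n:ℝ) ^ 2 * pp n i ^ 5)))

def TrackPair : Prop := ∃ C : ℝ, 1 ≤ C ∧ ∀ (n i : ℕ) (P : Env) (eta : ℕ → ℝ) (E : St n),
  Small n P i → GoodI P eta i E → eta i ≤ 1 / 100 → ∀ b b' : Fin n, b ≠ b' →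
    let f : ℕ → St n → ℝ := fun k F => (L2 F b b' : ℝ) / ((n:ℝ) ^ 2 * pp n k ^ 5) - 1
    |inc ∅ f i E| ≤ C * (P.y i + 1 / mu n i + P.tau i / ((n:ℝ) ^ 2 * pp n i ^ 5)) ∧
    sq ∅ f i E ≤ C * (P.tau i / ((n:ℝ) ^ 2 * pp n i ^ 5)) ∧
    JumpLE ∅ f i E (C * (P.tau i / ((n:ℝ) ^ 2 * pp n i ^ 5)))

/-- Contraction of the centred averaging operators. -/
def Contract : Prop := ∃ C : ℝ, 1 ≤ C ∧ ∀ (n i : ℕ) (P : Env) (eta : ℕ → ℝ) (E : St n) (A : ℝ),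
  Small n P i → GoodI P eta i E → eta i ≤ 1 / 100 → 0 ≤ A → A ≤ 1 →
  C * (eta i + P.y i + 1 / mu n i) ≤ A ^ 3 →
  ∀ (j : ℕ) (f : Finset (Fin n) → ℝ), 2 ≤ j →
    (∑ e ∈ E, |avgE E f e - (∑ b ∈ e, avgS E f b) / 2| ^ (2 * j)
        ≤ C * 16 ^ (2 * j) * A ^ 2 * ∑ e ∈ E, |f e| ^ (2 * j)) ∧
    (n * pp n i * ∑ b : Fin n, |avgO E f b - avgG E f| ^ (2 * j)
        ≤ C * 16 ^ (2 * j) * A ^ 2 * ∑ e ∈ E, |f e| ^ (2 * j))

end Vale.Agent.P046.Flags.Spec
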