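import Vale.Agent.P046.Flags.Basic
import Vale.Agent.P046.Flags.PairLoss

/-!
# One step change of the squared deviation at a flag
-/

namespace Vale.Agent.P046.Flags.SecondOrder

open Finset Chain

variable {n : ℕ} {P : Env} {i : ℕ} {E : St n}

lemma deg_eq_card (E : St n) (e : Finset (Fin n)) : deg E e = (triAt E e).card := rfl

lemma mu_sq_le (hs : Small n P i) : mu n i ^ 2 ≤ 4 * mm n i := by
  have hn : (100 : ℝ) ≤ n := by exact_mod_cast hs.n_big
  have hp := hs.pp_pos
  have hp1 := hs.pp_le_one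
  have hc : (n.choose 2 : ℝ) = n * (n - 1) / 2 := Nat.cast_choose_two ℝ n
  have hc0 : (0 : ℝ) < (n.choose 2 : ℝ) := by rw [hc]; nlinarith
  have hmm : mm n i = pp n i * (n.choose 2 : ℝ) := by rw [pp]; field_simp
  have h4 : pp n i ^ 4 ≤ pp n i :=
    calc pp n i ^ 4 ≤ pp n i ^ 1 := pow_le_pow_of_le_one hp.le hp1 (by norm_num)
      _ = pp n i := pow_one _
  rw [hmm, hc, mu, show ((n:ℝ) * pp n i ^ 2) ^ 2 = (n:ℝ) ^ 2 * pp n i ^ 4 by ring]
  nlinarith [mul_le_mul_of_nonneg_left h4 (sq_nonneg (n:ℝ)),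
    mul_nonneg hp.le (show (0:ℝ) ≤ (n:ℝ) ^ 2 - 2 * n by nlinarith)]

lemma inv_mm_le (hs : Small n P i) : 1 / mm n i ≤ 4 / mu n i ^ 2 := by
  rw [div_le_div_iff₀ (by linarith [hs.mm_ge]) (pow_pos hs.mu_pos 2)]
  linarith [mu_sq_le hs]

/-- The ratio of consecutive mean codegrees. -/
noncomputable def ratio (n i : ℕ) : ℝ := mu n i / mu n (i + 1)

lemma mu_succ_pos (hs : Small n P i) : 0 < mu n (i + 1) := by
  have hm := hs.mm_ge
  have hn : (100 : ℝ) ≤ n := by exact_mod_cast hs.n_big
  have hc : (0 : ℝ) < (n.choose 2 : ℝ) := by rw [Nat.cast_choose_two]; nlinarith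
  have h : 0 < pp n (i + 1) := div_pos (by rw [mm] at hm ⊢; push_cast; linarith) hc
  rw [mu]
  positivity

lemma ratio_eq (hs : Small n P i) : ratio n i = (mm n i / (mm n i - 3)) ^ 2 := by
  have hn : (100 : ℝ) ≤ n := by exact_mod_cast hs.n_big
  have hc : (0 : ℝ) < (n.choose 2 : ℝ) := by rw [Nat.cast_choose_two]; nlinarith
  have hm := hs.mm_ge
  have hm3 : mm n i - 3 ≠ 0 := by linarith
  have he : mm n (i + 1) = mm n i - 3 := by simp only [mm]; push_cast; ring
  rw [ratio, mu, mu, pp, pp, he]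
  field_simp

lemma ratio_bounds (hs : Small n P i) :
    1 ≤ ratio n i ∧ ratio n i ≤ 4 ∧ ratio n i - 1 ≤ 24 / mm n i := by
  have hm := hs.mm_ge
  rw [ratio_eq hs, div_pow]
  have hd : 0 < (mm n i - 3) ^ 2 := pow_pos (by linarith) 2
  refine ⟨?_, ?_, ?_⟩
  · rw [le_div_iff₀ hd]; nlinarith
  · rw [div_le_iff₀ hd]; nlinarith
  · rw [div_sub_one hd.ne', div_le_div_iff₀ hd (by linarith)]; nlinarith

lemma dy_eq (hs : Small n P i) (u g : Finset (Fin n)) :
    yy (i + 1) (E \ sides u) g - yy i E g =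
      (1 + yy i E g) * (ratio n i - 1) - (Codeg.loss E g u : ℝ) * ratio n i / mu n i := by
  have h := Codeg.deg_sdiff E g u
  rw [deg_eq_card, deg_eq_card] at h
  have h' : ((triAt (E \ sides u) g).card : ℝ) = (triAt E g).card - Codeg.loss E g u := by
    have := congrArg (Nat.cast : ℕ → ℝ) h
    push_cast at this
    linarith
  have h1 := hs.mu_pos.ne'
  have h2 := (mu_succ_pos hs).ne'
  rw [yy, yy, h', ratio]
  field_simp
  ring

/-- The two deviations seen from `e` in `t`. -/
noncomputable def ysum (i : ℕ) (E : St n) (e t : Finset (Fin n)) : ℝ :=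
  ∑ g ∈ (sides t).erase e, yy i E g

/-- Their joint loss. -/
noncomputable def ksum (E : St n) (e t u : Finset (Fin n)) : ℝ :=
  ∑ g ∈ (sides t).erase e, (Codeg.loss E g u : ℝ)

/-- Their joint change. -/
noncomputable def dsum (i : ℕ) (E : St n) (e t u : Finset (Fin n)) : ℝ :=
  ∑ g ∈ (sides t).erase e, (yy (i + 1) (E \ sides u) g - yy i E g)

lemma phi_eq (i : ℕ) (E : St n) (e t : Finset (Fin n)) : phi i E e t = ysum i E e t ^ 2 / 2 := rfl

lemma phi_change (i : ℕ) (E : St n) (e t u : Finset (Fin n)) :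
    phi (i + 1) (E \ sides u) e t - phi i E e t =
      ysum i E e t * dsum i E e t u + dsum i E e t u ^ 2 / 2 := by
  rw [phi, phi_eq, dsum, sum_sub_distrib, ysum]
  ring

lemma dsum_eq (hs : Small n P i) {e t : Finset (Fin n)} (ht : t ∈ triangles E) (he : e ∈ sides t)
    (u : Finset (Fin n)) : dsum i E e t u =
      (2 + ysum i E e t) * (ratio n i - 1) - ksum E e t u * ratio n i / mu n i := by
  simp only [dsum, dy_eq hs, sum_sub_distrib, ← sum_mul, sum_add_distrib, sum_const,
    card_erase_sides ht he, nsmul_eq_mul, ← sum_div, ysum, ksum]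
  push_cast
  ring

lemma abs_ysum_le (hg : Good P i E) {e t : Finset (Fin n)} (ht : t ∈ triangles E)
    (he : e ∈ sides t) : |ysum i E e t| ≤ 2 * P.y i := by
  refine (abs_sum_le_sum_abs _ _).trans
    ((sum_le_card_nsmul _ _ (P.y i) fun g hg' => hg.y g (sides_sub ht (mem_of_mem_erase hg'))).trans ?_)
  rw [card_erase_sides ht he, nsmul_eq_mul]
  norm_num

lemma phi_mem (hg : Good P i E) {e t : Finset (Fin n)} (ht : t ∈ triangles E)
    (he : e ∈ sides t) : 0 ≤ phi i E e t ∧ phi i E e t ≤ 2 * P.y i ^ 2 := by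
  rw [phi_eq]
  have h := abs_le.1 (abs_ysum_le hg ht he)
  exact ⟨by positivity, by nlinarith⟩

lemma ksum_mem {e t u : Finset (Fin n)} (ht : t ∈ triangles E) (he : e ∈ sides t)
    (hu : u ∈ triangles E) (hd : Disjoint (sides t) (sides u)) :
    0 ≤ ksum E e t u ∧ ksum E e t u ≤ 6 := by
  refine ⟨sum_nonneg fun g _ => Nat.cast_nonneg _, (sum_le_card_nsmul _ _ 3 fun g hg => ?_).trans ?_⟩
  · exact_mod_cast Codeg.loss_le_three hu fun h => disjoint_left.1 hd (mem_of_mem_erase hg) h
  · rw [card_erase_sides ht he, nsmul_eq_mul]; norm_num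

lemma abs_phi_change_le (hs : Small n P i) (hg : Good P i E) {e t u : Finset (Fin n)}
    (ht : t ∈ triangles E) (he : e ∈ sides t) (hu : u ∈ triangles E)
    (hd : Disjoint (sides t) (sides u)) :
    |phi (i + 1) (E \ sides u) e t - phi i E e t| ≤
      420 / mm n i + 100 * (P.y i / mu n i + 1 / mu n i ^ 2) * ksum E e t u := by
  obtain ⟨hk0, hk6⟩ := ksum_mem ht he hu hd
  obtain ⟨hr1, hr4, hr24⟩ := ratio_bounds hs
  have hy := hs.y0
  have hy1 := hs.y1
  have hmu := hs.mu_pos
  have hm := hs.mm_ge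
  set k := ksum E e t u
  set s := ysum i E e t with hsdef
  have hsy := abs_ysum_le hg ht he
  have hs2 := abs_le.1 hsy
  have hd' : |dsum i E e t u| ≤ 50 / mm n i + 4 * k / mu n i := by
    rw [dsum_eq hs ht he]
    refine (abs_sub _ _).trans (add_le_add ?_ ?_)
    · rw [abs_mul, abs_of_nonneg (show 0 ≤ 2 + s by linarith), abs_of_nonneg (sub_nonneg.2 hr1)]
      calc (2 + s) * (ratio n i - 1) ≤ (25 / 12) * (24 / mm n i) :=
            mul_le_mul (by linarith) hr24 (sub_nonneg.2 hr1) (by norm_num)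
        _ = 50 / mm n i := by ring
    · rw [abs_of_nonneg (div_nonneg (mul_nonneg hk0 (by linarith)) hmu.le)]
      exact div_le_div_of_nonneg_right (by nlinarith) hmu.le
  set d := dsum i E e t u
  rw [phi_change]
  have ha : |s * d| ≤ 2 * P.y i * (50 / mm n i + 4 * k / mu n i) := by
    rw [abs_mul]; exact mul_le_mul hsy hd' (abs_nonneg _) (by linarith)
  have hb : d ^ 2 / 2 ≤ (50 / mm n i) ^ 2 + (4 * k / mu n i) ^ 2 := by
    have h2 := pow_le_pow_left₀ (abs_nonneg d) hd' 2
    rw [sq_abs] at h2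
    nlinarith [sq_nonneg (50 / mm n i - 4 * k / mu n i)]
  have hinv : 1 / mm n i ≤ 1 / 6 := one_div_le_one_div_of_le (by norm_num) hm
  have hb1 : (50 / mm n i) ^ 2 ≤ 417 / mm n i := by
    rw [show (50 / mm n i) ^ 2 = 2500 * (1 / mm n i) * (1 / mm n i) by ring,
      show 417 / mm n i = 417 * (1 / mm n i) by ring]
    exact mul_le_mul_of_nonneg_right (by linarith) (by positivity)
  have hb2 : (4 * k / mu n i) ^ 2 ≤ 96 * k * (1 / mu n i ^ 2) := by
    rw [div_pow, mul_one_div]
    exact div_le_div_of_nonneg_right (by nlinarith) (by positivity)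
  have hb3 : 2 * P.y i * (50 / mm n i) ≤ 3 / mm n i := by
    rw [← mul_div_assoc]; exact div_le_div_of_nonneg_right (by linarith) (by linarith)
  have hk1 : 0 ≤ k * (P.y i / mu n i) := by positivity
  have hk2 : 0 ≤ k * (1 / mu n i ^ 2) := by positivity
  have he2 : 2 * P.y i * (4 * k / mu n i) = 8 * (k * (P.y i / mu n i)) := by ring
  have h417 : 417 / mm n i + 3 / mm n i = 420 / mm n i := by ring
  refine (abs_add_le _ _).trans ?_
  rw [abs_of_nonneg (show 0 ≤ d ^ 2 / 2 by positivity)]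
  linarith

/-- All changes are at most a constant times `y / mu + 1 / mu ^ 2`. -/
lemma abs_phi_change_le' (hs : Small n P i) (hg : Good P i E) {e t u : Finset (Fin n)}
    (ht : t ∈ triangles E) (he : e ∈ sides t) (hu : u ∈ triangles E)
    (hd : Disjoint (sides t) (sides u)) :
    |phi (i + 1) (E \ sides u) e t - phi i E e t| ≤
      2500 * (P.y i / mu n i + 1 / mu n i ^ 2) := by
  refine (abs_phi_change_le hs hg ht he hu hd).trans ?_
  have h4 := inv_mm_le hs
  have hp : 0 ≤ P.y i / mu n i := div_nonneg hs.y0 hs.mu_pos.le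
  have hq : 0 ≤ 1 / mu n i ^ 2 := by positivity
  have hk := mul_le_mul_of_nonneg_left (ksum_mem ht he hu hd).2
    (show (0:ℝ) ≤ 100 * (P.y i / mu n i + 1 / mu n i ^ 2) by positivity)
  rw [show 420 / mm n i = 420 * (1 / mm n i) by ring]
  have h44 : 4 / mu n i ^ 2 = 4 * (1 / mu n i ^ 2) := by ring
  linarith

/-- The vertices and sides of a triangle at `e`. -/
lemma vertices {e t : Finset (Fin n)} (ht : t ∈ triangles E) (he : e ∈ sides t) :
    ∃ a b c, a ≠ b ∧ a ≠ c ∧ b ≠ c ∧ e = {a, b} ∧ t = insert c e ∧ c ∈ cn E a b ∧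
      (sides t).erase e = {{a, c}, {b, c}} ∧
      ({a, c} : Finset (Fin n)) ≠ {b, c} := by
  obtain ⟨hes, he2⟩ := mem_powersetCard.1 he
  have h3 : t.card = 3 := (mem_triangles_iff.1 ht).1
  obtain ⟨a, b, hab, rfl⟩ := card_eq_two.1 he2
  obtain ⟨c, hc⟩ : ∃ c, t \ {a, b} = {c} :=
    card_eq_one.1 (by rw [card_sdiff_of_subset hes, h3, card_pair hab])
  obtain ⟨hct, hce⟩ := mem_sdiff.1 (hc ▸ mem_singleton_self c)
  simp only [mem_insert, mem_singleton, not_or] at hce
  have hat : a ∈ t := hes (by simp)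
  have hbt : b ∈ t := hes (by simp)
  have hne : ({a, c} : Finset (Fin n)) ≠ {b, c} := fun h => by
    have : a ∈ ({b, c} : Finset (Fin n)) := h ▸ (by simp)
    simp [hab, Ne.symm hce.1] at this
  have hteq : t = insert c ({a, b} : Finset (Fin n)) := by
    refine (eq_of_subset_of_card_le (insert_subset hct hes) ?_).symm
    rw [h3, card_insert_of_notMem (by simp [hce.1, hce.2]), card_pair hab]
  refine ⟨a, b, c, hab, Ne.symm hce.1, Ne.symm hce.2, rfl, hteq, ?_, ?_, hne⟩
  · exact mem_filter.2 ⟨mem_univ _, (sides_edge ht hat hct (Ne.symm hce.1)).2,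
      (sides_edge ht hbt hct (Ne.symm hce.2)).2⟩
  · refine (eq_of_subset_of_card_le (fun g hg => ?_) (by rw [card_erase_sides ht he, card_pair hne])).symm
    simp only [mem_insert, mem_singleton] at hg
    rcases hg with rfl | rfl
    · refine mem_erase.2 ⟨fun h => ?_, (sides_edge ht hat hct (Ne.symm hce.1)).1⟩
      have : c ∈ ({a, b} : Finset (Fin n)) := h ▸ (by simp)
      simp [hce.1, hce.2] at this
    · refine mem_erase.2 ⟨fun h => ?_, (sides_edge ht hbt hct (Ne.symm hce.2)).1⟩
      have : c ∈ ({a, b} : Finset (Fin n)) := h ▸ (by simp)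
      simp [hce.1, hce.2] at this

/-- The second moment of the joint loss over the steps keeping the triangle. -/
lemma sum_ksum_sq (hs : Small n P i) (hg : Good P i E) {e t : Finset (Fin n)}
    (ht : t ∈ triangles E) (he : e ∈ sides t) :
    |∑ u ∈ FlagDrift.steps (sides t) E, ksum E e t u ^ 2 - 4 * mu n i ^ 2| ≤
      20 * P.y i * mu n i ^ 2 + 200 * P.tau i * mu n i + 20 * P.kap i := by
  obtain ⟨a, b, c, hab, hac, hbc, rfl, -, hcn, her, hne⟩ := vertices ht he
  obtain ⟨-, hcn1, hcn2⟩ := mem_filter.1 hcn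
  have h := pair_loss_sq hg.size.1 hg.tau hg.kap hs.mu_big hs.y1
    (fun f hf => triAt_near hs hg hf) hs.tau1 (sides_sub ht he) hcn1 hcn2
  have hsides : sides t = insert {a, b} {{a, c}, {b, c}} := by rw [← her, insert_erase he]
  convert h using 4
  · ext u
    simp only [FlagDrift.steps, mem_filter, hsides, disjoint_insert_left, disjoint_singleton_left]
  · rw [ksum, her, sum_pair hne]

/-- Few flags at `e` feel one step. -/
lemma sum_ksum_at_le (hs : Small n P i) (hg : Good P i E) {e u : Finset (Fin n)} (he : e ∈ E)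
    (hu : u ∈ triangles E) (heu : e ∉ sides u) :
    ∑ t ∈ (triAt E e).filter (fun t => Disjoint (sides t) (sides u)), ksum E e t u ≤
      24 * P.tau i := by
  obtain ⟨-, he2⟩ := mem_powersetCard.1 (hg.size.1 he)
  obtain ⟨a, b, hab, rfl⟩ := card_eq_two.1 he2
  have hu3 : u.card = 3 := (mem_triangles_iff.1 hu).1
  -- loss at one spoke
  have hloss : ∀ x c : Fin n, x ≠ c → ({x, c} : Finset (Fin n)) ∉ sides u →
      Codeg.loss E {x, c} u ≤
        (u.filter fun d => (c ∈ u ∨ x ∈ u) ∧ {x, d} ∈ E ∧ {c, d} ∈ E).card := by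
    intro x c hxc hg'
    refine (card_le_card (t := (u.filter fun d => (c ∈ u ∨ x ∈ u) ∧ {x, d} ∈ E ∧ {c, d} ∈ E).image
      (fun d => insert d ({x, c} : Finset (Fin n)))) fun v hv => ?_).trans card_image_le
    obtain ⟨hv1, hv2⟩ := mem_filter.1 hv
    obtain ⟨d, z, heq, hd, hz, hzu, hdu⟩ := exists_apex hv1 hv2 hg'
    have hcn := apex_mem_cn (mem_filter.1 hv1).1 heq hd
    obtain ⟨-, h1, h2⟩ := mem_filter.1 hcn
    simp only [mem_insert, mem_singleton] at hz
    refine mem_image.2 ⟨d, mem_filter.2 ⟨hdu, ?_, h1, h2⟩, heq.symm⟩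
    rcases hz with rfl | rfl
    · exact Or.inr hzu
    · exact Or.inl hzu
  -- summed over the apexes
  have hside : ∀ x y : Fin n, x ≠ y → ({x, y} : Finset (Fin n)) = {a, b} →
      (∑ c ∈ (cn E a b).filter (fun c => ({x, c} : Finset (Fin n)) ∉ sides u),
        (Codeg.loss E {x, c} u : ℝ)) ≤ 3 * (3 + P.tau i) := by
    intro x y hxy hxye
    have hcnxy : ∀ c ∈ cn E a b, x ≠ c ∧ ({y, c} : Finset (Fin n)) ∈ E := by
      intro c hc
      obtain ⟨-, h1, h2⟩ := mem_filter.1 hc
      have hx : x = a ∨ x = b := by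
        have : x ∈ ({a, b} : Finset (Fin n)) := hxye ▸ (by simp)
        simpa using this
      have hy : y = a ∨ y = b := by
        have : y ∈ ({a, b} : Finset (Fin n)) := hxye ▸ (by simp)
        simpa using this
      constructor
      · rcases hx with rfl | rfl
        · exact ne_of_edge hg.size.1 h1
        · exact ne_of_edge hg.size.1 h2
      · rcases hy with rfl | rfl
        · exact h1
        · exact h2
    calc ∑ c ∈ (cn E a b).filter (fun c => ({x, c} : Finset (Fin n)) ∉ sides u),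
          (Codeg.loss E {x, c} u : ℝ)
        ≤ ∑ c ∈ (cn E a b).filter (fun c => ({x, c} : Finset (Fin n)) ∉ sides u), ∑ d ∈ u,
            (if (c ∈ u ∨ x ∈ u) ∧ {x, d} ∈ E ∧ {c, d} ∈ E then (1:ℝ) else 0) := by
          refine sum_le_sum fun c hc => ?_
          rw [sum_boole]
          exact_mod_cast hloss x c (hcnxy c (mem_filter.1 hc).1).1 (mem_filter.1 hc).2
      _ = ∑ d ∈ u, ∑ c ∈ (cn E a b).filter (fun c => ({x, c} : Finset (Fin n)) ∉ sides u),
            (if (c ∈ u ∨ x ∈ u) ∧ {x, d} ∈ E ∧ {c, d} ∈ E then (1:ℝ) else 0) := sum_comm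
      _ ≤ ∑ _d ∈ u, (3 + P.tau i) := by
          refine sum_le_sum fun d hd => ?_
          rw [sum_boole]
          have ht1 := hs.tau1
          by_cases hx : x ∈ u ∧ ({x, d} : Finset (Fin n)) ∈ E
          · have hxd := ne_of_edge hg.size.1 hx.2
            have hyd : y ≠ d := by
              rintro rfl
              exact heu (hxye ▸ (sides_edge hu hx.1 hd hxy).1)
            refine (le_trans ?_ (hg.tau x y d hxy hxd hyd)).trans (by linarith)
            refine Nat.cast_le.2 (card_le_card fun c hc => ?_)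
            simp only [mem_filter] at hc ⊢
            obtain ⟨⟨hcn, -⟩, -, -, hcd⟩ := hc
            refine ⟨mem_univ _, ?_, (hcnxy c hcn).2, by rw [pair_comm]; exact hcd⟩
            obtain ⟨-, h1, h2⟩ := mem_filter.1 hcn
            have : x = a ∨ x = b := by
              have : x ∈ ({a, b} : Finset (Fin n)) := hxye ▸ (by simp)
              simpa using this
            rcases this with rfl | rfl
            · exact h1
            · exact h2
          · refine le_trans (Nat.cast_le.2 (card_le_card (t := u) fun c hc => ?_)) ?_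
            · simp only [mem_filter] at hc
              obtain ⟨-, hor, hxd, -⟩ := hc
              exact hor.resolve_right fun h => hx ⟨h, hxd⟩
            · rw [hu3]; push_cast; linarith
      _ = _ := by rw [sum_const, hu3, nsmul_eq_mul]; norm_num
  -- triangles to apexes
  set S := (triAt E {a, b}).filter (fun t => Disjoint (sides t) (sides u))
  set G : Fin n → ℝ := fun c =>
    (if ({a, c} : Finset (Fin n)) ∉ sides u then (Codeg.loss E {a, c} u : ℝ) else 0) +
      (if ({b, c} : Finset (Fin n)) ∉ sides u then (Codeg.loss E {b, c} u : ℝ) else 0) with hG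
  have hG0 : ∀ c, 0 ≤ G c := fun c => by simp only [hG]; split_ifs <;> positivity
  have hS : ∀ t ∈ S, ∃ c ∈ cn E a b, t = insert c {a, b} ∧ ksum E {a, b} t u = G c := by
    intro t ht
    obtain ⟨hta, htd⟩ := mem_filter.1 ht
    obtain ⟨htT, hte⟩ := mem_of_triAt hta
    obtain ⟨p, q, c, hpq, hpc, hqc, hab', hteq, hcn, her, hne⟩ := vertices htT hte
    have hp : (p = a ∧ q = b) ∨ (p = b ∧ q = a) := by
      have h1 : p ∈ ({a, b} : Finset (Fin n)) := hab' ▸ (by simp)
      have h2 : q ∈ ({a, b} : Finset (Fin n)) := hab' ▸ (by simp)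
      simp only [mem_insert, mem_singleton] at h1 h2
      rcases h1 with rfl | rfl <;> rcases h2 with rfl | rfl <;>
        first | exact absurd rfl hpq | exact Or.inl ⟨rfl, rfl⟩ | exact Or.inr ⟨rfl, rfl⟩
    have hnot : ∀ g ∈ (sides t).erase {a, b}, g ∉ sides u := fun g hg' h =>
      disjoint_left.1 htd (mem_of_mem_erase hg') h
    rcases hp with ⟨rfl, rfl⟩ | ⟨rfl, rfl⟩
    · refine ⟨c, hcn, hteq, ?_⟩
      rw [ksum, her, sum_pair hne]
      simp only [hG, if_pos (hnot _ (by rw [her]; simp : ({p, c} : Finset (Fin n)) ∈ _)),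
        if_pos (hnot _ (by rw [her]; simp : ({q, c} : Finset (Fin n)) ∈ _))]
    · refine ⟨c, ?_, hteq, ?_⟩
      · simp only [cn, mem_filter] at hcn ⊢
        tauto
      · rw [ksum, her, sum_pair hne]
        simp only [hG, if_pos (hnot _ (by rw [her]; simp : ({p, c} : Finset (Fin n)) ∈ _)),
          if_pos (hnot _ (by rw [her]; simp : ({q, c} : Finset (Fin n)) ∈ _))]
        ring
  calc ∑ t ∈ S, ksum E {a, b} t u
      ≤ ∑ t ∈ (cn E a b).image (fun c => insert c ({a, b} : Finset (Fin n))),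
          ∑ c ∈ (cn E a b).filter (fun c => insert c ({a, b} : Finset (Fin n)) = t), G c := by
        refine (sum_le_sum fun t ht => ?_).trans
          (sum_le_sum_of_subset_of_nonneg (fun t ht => ?_) fun t _ _ => sum_nonneg fun c _ => hG0 c)
        · obtain ⟨c, hc, hteq, hk⟩ := hS t ht
          rw [hk]
          exact single_le_sum (fun c _ => hG0 c) (mem_filter.2 ⟨hc, hteq.symm⟩)
        · obtain ⟨c, hc, hteq, -⟩ := hS t ht
          exact mem_image.2 ⟨c, hc, hteq.symm⟩
    _ = ∑ c ∈ cn E a b, G c :=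
        sum_fiberwise_of_maps_to (fun c hc => mem_image_of_mem _ hc) G
    _ ≤ 3 * (3 + P.tau i) + 3 * (3 + P.tau i) := by
        simp only [hG, sum_add_distrib, ← sum_filter]
        exact add_le_add (hside a b hab rfl) (hside b a hab.symm (pair_comm b a))
    _ ≤ 24 * P.tau i := by linarith [hs.tau1]

end Vale.Agent.P046.Flags.SecondOrder
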