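import Vale.Agent.P046.Flags.Spec
import Vale.Agent.P046.Codeg

/-!
# The tracked link walks and common-neighbourhood edges

Both counts are counts of ordered vertex pairs requiring five distinct edges. One step removes
about `5 mu / Q` of them, as does the normalisation, and at most six triple codegrees at once.
-/

set_option linter.unusedSectionVars false

namespace Vale.Agent.P046.Flags.Track

open Finset Chain FlagDrift

variable {n : ℕ}

/-- The normalisation of a count with two free vertices and five edges. -/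
noncomputable def nrm (n k : ℕ) : ℝ := (n : ℝ) ^ 2 * pp n k ^ 5

/-- An edge of a state has two ends. -/
lemma ne_of_pair_mem {E : St n} (hE : E ⊆ complete n) {u v : Fin n} (h : ({u, v} : Finset (Fin n)) ∈ E) :
    u ≠ v := by
  rintro rfl
  have := hE h
  simp [complete, mem_powersetCard] at this

/-- The size quantities. -/
lemma sizes {i : ℕ} {P : Env} (hs : Small n P i) :
    6 ≤ mm n i ∧ 0 < pp n i ∧ pp n i ≤ 1 ∧ mu n i ≤ mm n i ∧ 0 < nrm n i ∧
      nrm n i ≤ 3 * mm n i := by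
  have hn : (100 : ℝ) ≤ n := by exact_mod_cast hs.n_big
  have hroom : (3 : ℝ) * i + 6 ≤ (n.choose 2 : ℝ) := by exact_mod_cast hs.room
  have hm : 6 ≤ mm n i := by unfold mm; linarith
  have hi : (0 : ℝ) ≤ i := Nat.cast_nonneg i
  have hMpos : (0 : ℝ) < n.choose 2 := by linarith
  have hM : ((n.choose 2 : ℕ) : ℝ) = (n : ℝ) * ((n : ℝ) - 1) / 2 := Nat.cast_choose_two ℝ n
  have hp : 0 < pp n i := div_pos (by linarith) hMpos
  have hp1 : pp n i ≤ 1 := by
    rw [pp, div_le_one hMpos]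
    unfold mm
    linarith
  have hmm : mm n i = (n.choose 2 : ℝ) * pp n i := by
    rw [pp, mul_div_cancel₀ _ hMpos.ne']
  have hnp : 0 < (n : ℝ) * pp n i := mul_pos (by linarith) hp
  refine ⟨hm, hp, hp1, ?_, mul_pos (by positivity) (pow_pos hp 5), ?_⟩
  · rw [hmm, hM, mu]
    calc (n : ℝ) * pp n i ^ 2 ≤ (n : ℝ) * pp n i := by
          gcongr
          calc pp n i ^ 2 ≤ pp n i ^ 1 := pow_le_pow_of_le_one hp.le hp1 (by norm_num)
            _ = pp n i := pow_one _
      _ ≤ (n : ℝ) * ((n : ℝ) - 1) / 2 * pp n i := by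
          refine mul_le_mul_of_nonneg_right ?_ hp.le
          nlinarith
  · rw [hmm, hM, nrm]
    calc (n : ℝ) ^ 2 * pp n i ^ 5 ≤ (n : ℝ) ^ 2 * pp n i := by
          gcongr
          calc pp n i ^ 5 ≤ pp n i ^ 1 := pow_le_pow_of_le_one hp.le hp1 (by norm_num)
            _ = pp n i := pow_one _
      _ ≤ 3 * ((n : ℝ) * ((n : ℝ) - 1) / 2) * pp n i := by
          refine mul_le_mul_of_nonneg_right ?_ hp.le
          nlinarith
      _ = 3 * ((n : ℝ) * ((n : ℝ) - 1) / 2 * pp n i) := by ring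

/-- The growth of the inverse normalisation in one step. -/
lemma ratio_bounds {m : ℝ} (hm : 6 ≤ m) :
    0 ≤ (m / (m - 3)) ^ 5 - 1 ∧ (m / (m - 3)) ^ 5 - 1 ≤ 186 / m ∧ (m / (m - 3)) ^ 5 ≤ 32 ∧
      |(m / (m - 3)) ^ 5 - 1 - 15 / m| ≤ 1026 / m ^ 2 := by
  have h3 : 0 < m - 3 := by linarith
  have hm0 : 0 < m := by linarith
  set x := 3 / (m - 3) with hx
  have hk : m / (m - 3) = 1 + x := by rw [hx]; field_simp; ring
  have hx0 : 0 ≤ x := by positivity
  have hx1 : x ≤ 1 := by rw [hx, div_le_one h3]; linarith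
  have hx6 : x ≤ 6 / m := by
    rw [hx, div_le_div_iff₀ h3 hm0]; linarith
  have hxe : x = 3 / m + 3 * x / m := by rw [hx]; field_simp; ring
  have h2 : x ^ 2 ≤ 36 / m ^ 2 := by
    calc x ^ 2 ≤ (6 / m) ^ 2 := pow_le_pow_left₀ hx0 hx6 2
      _ = 36 / m ^ 2 := by ring
  have e : (1 + x) ^ 5 - 1 - 5 * x = x ^ 2 * (10 + 10 * x + 5 * x ^ 2 + x ^ 3) := by ring
  have hlo : 0 ≤ (1 + x) ^ 5 - 1 - 5 * x := by rw [e]; positivity
  have hhi : (1 + x) ^ 5 - 1 - 5 * x ≤ 26 * x ^ 2 := by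
    rw [e, mul_comm 26]
    refine mul_le_mul_of_nonneg_left ?_ (sq_nonneg x)
    have h22 : x ^ 2 ≤ 1 := pow_le_one₀ hx0 hx1
    have h33 : x ^ 3 ≤ 1 := pow_le_one₀ hx0 hx1
    linarith
  have h5 : 0 ≤ 5 * x - 15 / m ∧ 5 * x - 15 / m ≤ 90 / m ^ 2 := by
    have h' : 5 * x - 15 / m = 15 * x / m := by
      conv_lhs => rw [hxe]
      ring
    rw [h']
    refine ⟨by positivity, ?_⟩
    calc 15 * x / m ≤ 15 * (6 / m) / m := by gcongr
      _ = 90 / m ^ 2 := by ring
  have hmain : |(1 + x) ^ 5 - 1 - 15 / m| ≤ 1026 / m ^ 2 := by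
    rw [abs_le]
    have hpos : 0 ≤ 1026 / m ^ 2 := by positivity
    have hsum : 26 * (36 / m ^ 2) + 90 / m ^ 2 = 1026 / m ^ 2 := by ring
    constructor
    · linarith [h5.1]
    · linarith [h5.2]
  rw [hk]
  refine ⟨?_, ?_, ?_, hmain⟩
  · linarith [one_le_pow₀ (by linarith : (1 : ℝ) ≤ 1 + x) (n := 5)]
  · have h := (abs_le.1 hmain).2
    have : 1026 / m ^ 2 ≤ 171 / m := by
      rw [div_le_div_iff₀ (by positivity) hm0]
      nlinarith
    have : 15 / m + 171 / m = 186 / m := by ring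
    linarith
  · calc (1 + x) ^ 5 ≤ 2 ^ 5 := pow_le_pow_left₀ (by linarith) (by linarith) 5
      _ = 32 := by norm_num

/-- The number of triangles and the codegrees in a good state. -/
lemma counts {i : ℕ} {P : Env} {E : St n} (hs : Small n P i) (hsize : Size i E)
    (hy : ∀ e ∈ E, |yy i E e| ≤ P.y i) :
    (∀ e ∈ E, |(deg E e : ℝ) - mu n i| ≤ P.y i * mu n i) ∧
      |3 * ((triangles E).card : ℝ) - mm n i * mu n i| ≤ P.y i * (mm n i * mu n i) ∧
      0 < (triangles E).card := by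
  have hmu : 0 < mu n i := lt_of_lt_of_le (by norm_num) hs.mu_big
  have hE : (E.card : ℝ) = mm n i := by
    have h := congrArg (Nat.cast : ℕ → ℝ) hsize.2
    push_cast at h
    unfold mm
    linarith
  have hd : ∀ e ∈ E, |(deg E e : ℝ) - mu n i| ≤ P.y i * mu n i := by
    intro e he
    have h := hy e he
    have e1 : (deg E e : ℝ) - mu n i = yy i E e * mu n i := by
      rw [yy, sub_mul, one_mul, div_mul_cancel₀ _ hmu.ne']
      rfl
    rw [e1, abs_mul, abs_of_pos hmu]
    exact mul_le_mul_of_nonneg_right h hmu.le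
  have hQ : |3 * ((triangles E).card : ℝ) - mm n i * mu n i| ≤ P.y i * (mm n i * mu n i) := by
    rw [← Codeg.sum_deg, ← hE, ← nsmul_eq_mul, ← sum_const, ← sum_sub_distrib]
    refine (abs_sum_le_sum_abs _ _).trans ((sum_le_sum hd).trans_eq ?_)
    rw [sum_const, nsmul_eq_mul, sum_const, nsmul_eq_mul]
    ring
  refine ⟨hd, hQ, ?_⟩
  have h1 := (abs_le.1 hQ).1
  have h2 := hs.y1
  have hm := (sizes hs).1
  have : (0 : ℝ) < (triangles E).card := by
    have : 0 < mm n i * mu n i := mul_pos (by linarith) hmu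
    nlinarith
  exact_mod_cast this

variable {ι : Type*} [DecidableEq ι]

/-- Counting pairs of a flag and a step losing it in two ways. -/
lemma sum_lost_eq_sum_hits (U : Finset ι) (req : ι → St n) (R E : St n) :
    ∑ t ∈ steps R E, ((lost U req E t).card : ℝ) =
      ∑ a ∈ flags U req E, (hits (steps R E) (lost U req E) a : ℝ) := by
  have h : ∑ t ∈ steps R E, (lost U req E t).card =
      ∑ a ∈ flags U req E, hits (steps R E) (lost U req E) a := by
    simp only [hits, card_filter]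
    rw [sum_comm]
    refine sum_congr rfl fun t _ => ?_
    rw [← card_filter]
    congr 1
    ext a
    simp only [lost, mem_filter]
    tauto
  exact_mod_cast h

/-- The normalisation one step later. -/
lemma nrm_succ {i : ℕ} (hm : 6 ≤ mm n i) (hp : 0 < pp n i) :
    nrm n (i + 1) = nrm n i / (mm n i / (mm n i - 3)) ^ 5 := by
  have hM : (n.choose 2 : ℝ) ≠ 0 := by
    intro h0
    rw [pp, h0, div_zero] at hp
    exact lt_irrefl _ hp
  have h1 : mm n (i + 1) = mm n i - 3 := by rw [mm, mm]; push_cast; ring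
  have h3 : mm n i - 3 ≠ 0 := by linarith
  have h0 : mm n i ≠ 0 := by linarith
  rw [nrm, nrm, pp, pp, h1]
  field_simp

/-- The change of the normalised count in one step. -/
lemma change_eq {N W L k : ℝ} (hN : N ≠ 0) :
    (W - L) / (N / k) - 1 - (W / N - 1) = (W * (k - 1) - L * k) / N := by
  rw [div_div_eq_mul_div]
  field_simp
  ring

/-- The average over the steps sparing the root. -/
lemma avg_steps {R E : St n} (hR : R ⊆ E) (hne : triangles E ≠ ∅) (φ : St n → ℝ) :
    avg (fun F => if R ⊆ F then φ F else 0) E =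
      (∑ t ∈ steps R E, φ (E \ sides t)) / (triangles E).card := by
  rw [avg, if_neg hne, steps, sum_filter]
  congr 1
  refine sum_congr rfl fun t _ => ?_
  by_cases h : Disjoint R (sides t)
  · rw [if_pos (subset_sdiff.2 ⟨hR, h⟩), if_pos h]
  · rw [if_neg fun h' => h (subset_sdiff.1 h').2, if_neg h]

/-- The drift, in real numbers. -/
lemma drift_real {m u y N W Q s H k : ℝ} (hm0 : 0 < m) (hu0 : 0 < u) (hmum : u ≤ m) (hy0 : 0 ≤ y)
    (hN : 0 < N) (hW0 : 0 ≤ W) (hW : W ≤ 2 * N) (hQ0 : 0 < Q)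
    (hQlo : m * u * (99 / 100) ≤ 3 * Q) (hQhi : Q ≤ m * u / 2)
    (hQ : |3 * Q - m * u| ≤ y * (m * u)) (hsQ : s ≤ Q) (hs3 : Q - s ≤ 3 * u)
    (hHm : |H - 5 * u * W| ≤ W * (5 * u * y + 30)) (hk1 : 1 ≤ k) (hk32 : k ≤ 32)
    (hr1 : k - 1 ≤ 186 / m) (hr2 : |k - 1 - 15 / m| ≤ 1026 / m ^ 2) :
    |m / (3 * Q) * ((s * (W * (k - 1)) - H * k) / N)| ≤ 400000 * (y + 1 / u) := by
  have hr0 : 0 ≤ k - 1 := by linarith
  have hkey : |s * (W * (k - 1)) - H * k| ≤ W * u * (165 * y + 2961 / u) := by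
    have e2 : s * (W * (k - 1)) - H * k =
        -((H - 5 * u * W) * k) - 5 * u * W * (k - 1) + W * (s * (k - 1) - 5 * u) := by ring
    have a1 : |(H - 5 * u * W) * k| ≤ W * (5 * u * y + 30) * 32 := by
      rw [abs_mul, abs_of_nonneg (by linarith : 0 ≤ k)]
      exact mul_le_mul hHm hk32 (by linarith) (by positivity)
    have a2 : 5 * u * W * (k - 1) ≤ 5 * u * W * (186 / m) :=
      mul_le_mul_of_nonneg_left hr1 (by positivity)
    have a3 : |s * (k - 1) - 5 * u| ≤
        3 * u * (186 / m) + m * u / 2 * (1026 / m ^ 2) + 5 * u * y := by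
      have e3 : s * (k - 1) - 5 * u =
          -((Q - s) * (k - 1)) + Q * (k - 1 - 15 / m) + (15 * Q / m - 5 * u) := by ring
      have b1 : |(Q - s) * (k - 1)| ≤ 3 * u * (186 / m) := by
        rw [abs_mul, abs_of_nonneg (by linarith : 0 ≤ Q - s), abs_of_nonneg hr0]
        exact mul_le_mul hs3 hr1 hr0 (by linarith)
      have b2 : |Q * (k - 1 - 15 / m)| ≤ m * u / 2 * (1026 / m ^ 2) := by
        rw [abs_mul, abs_of_pos hQ0]
        exact mul_le_mul hQhi hr2 (abs_nonneg _) (by positivity)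
      have b3 : |15 * Q / m - 5 * u| ≤ 5 * u * y := by
        rw [show 15 * Q / m - 5 * u = 5 / m * (3 * Q - m * u) by field_simp; ring, abs_mul,
          abs_of_nonneg (by positivity : 0 ≤ 5 / m)]
        refine (mul_le_mul_of_nonneg_left hQ (by positivity)).trans_eq ?_
        field_simp
      rw [e3]
      rw [abs_le] at b1 b2 b3 ⊢
      constructor <;> linarith [b1.1, b1.2, b2.1, b2.2, b3.1, b3.2]
    have a4 : |W * (s * (k - 1) - 5 * u)| ≤
        W * (3 * u * (186 / m) + m * u / 2 * (1026 / m ^ 2) + 5 * u * y) := by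
      rw [abs_mul, abs_of_nonneg hW0]
      exact mul_le_mul_of_nonneg_left a3 hW0
    have a5 : W * u * (1 / m) ≤ W * u * (1 / u) :=
      mul_le_mul_of_nonneg_left (one_div_le_one_div_of_le hu0 hmum) (by positivity)
    have e5 : W * (5 * u * y + 30) * 32 + 5 * u * W * (186 / m) +
        W * (3 * u * (186 / m) + m * u / 2 * (1026 / m ^ 2) + 5 * u * y) =
        W * u * (165 * y) + 960 * W + 2001 * (W * u * (1 / m)) := by
      field_simp
      ring
    have e6 : W * u * (165 * y + 2961 / u) =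
        W * u * (165 * y) + 2961 * (W * u * (1 / u)) := by ring
    have e7 : W * u * (1 / u) = W := by field_simp
    have hpos : 0 ≤ 5 * u * W * (k - 1) := by positivity
    rw [abs_le] at a1 a4
    rw [e2, abs_le]
    constructor <;> linarith [a1.1, a1.2, a4.1, a4.2]
  have hcoef : m / (3 * Q) ≤ 2 / u := by
    rw [div_le_div_iff₀ (by linarith) hu0]
    nlinarith
  have hWN : W / N ≤ 2 := by rw [div_le_iff₀ hN]; linarith
  rw [abs_mul, abs_div, abs_div, abs_of_pos hm0, abs_of_pos hN,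
    abs_of_pos (by linarith : 0 < 3 * Q)]
  have hpos : 0 ≤ 165 * y + 2961 / u := by positivity
  calc m / (3 * Q) * (|s * (W * (k - 1)) - H * k| / N)
      ≤ 2 / u * (W * u * (165 * y + 2961 / u) / N) := by gcongr
    _ = 2 * (W / N) * (165 * y + 2961 / u) := by field_simp
    _ ≤ 2 * 2 * (165 * y + 2961 / u) := by gcongr
    _ ≤ 400000 * (y + 1 / u) := by
        have : 0 ≤ 1 / u := by positivity
        have e : 2961 / u = 2961 * (1 / u) := by ring
        linarith

/-- The normalisation outweighs the deterministic change. -/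
lemma one_div_m_le {m N B : ℝ} (hm0 : 0 < m) (hN : 0 < N) (hN3 : N ≤ 3 * m) (hB1 : 1 ≤ B) :
    1 / m ≤ 3 * (B / N) := by
  rw [← mul_div_assoc, div_le_div_iff₀ hm0 hN, one_mul]
  nlinarith

/-- One change, in real numbers. -/
lemma jump_real {m N W B L k : ℝ} (hm0 : 0 < m) (hN : 0 < N) (hN3 : N ≤ 3 * m) (hW0 : 0 ≤ W)
    (hW : W ≤ 2 * N) (hB1 : 1 ≤ B) (hk1 : 1 ≤ k) (hk32 : k ≤ 32) (hr1 : k - 1 ≤ 186 / m)
    (hL0 : 0 ≤ L) (hLB : L ≤ B) :
    |(W * (k - 1) - L * k) / N| ≤ 400000 * (B / N) := by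
  have hr0 : 0 ≤ k - 1 := by linarith
  have hWr : W * (k - 1) / N ≤ 372 * (1 / m) := by
    calc W * (k - 1) / N ≤ 2 * N * (186 / m) / N := by gcongr
      _ = 372 * (1 / m) := by field_simp; ring
  have h2 : L * k / N ≤ 32 * (B / N) := by
    calc L * k / N ≤ B * 32 / N := by gcongr
      _ = 32 * (B / N) := by ring
  have h4 : 0 ≤ L * k / N := by positivity
  have h5 : 0 ≤ W * (k - 1) / N := by positivity
  have hBN : 0 ≤ B / N := div_nonneg (by linarith) hN.le
  have h1m := one_div_m_le hm0 hN hN3 hB1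
  rw [sub_div, abs_le]
  constructor <;> linarith

/-- The second moment, in real numbers. -/
lemma sq_real {τ : Type*} {m u N W Q B k : ℝ} (hm0 : 0 < m) (hu0 : 0 < u) (hN : 0 < N)
    (hN3 : N ≤ 3 * m) (hW0 : 0 ≤ W) (hW : W ≤ 2 * N) (hQ0 : 0 < Q)
    (hQlo : m * u * (99 / 100) ≤ 3 * Q) (hB1 : 1 ≤ B) (hk1 : 1 ≤ k) (hk32 : k ≤ 32)
    (hr1 : k - 1 ≤ 186 / m) (T : Finset τ) (L : τ → ℝ) (hL0 : ∀ t ∈ T, 0 ≤ L t)
    (hLB : ∀ t ∈ T, L t ≤ B) (hsQ : (T.card : ℝ) ≤ Q) (hH6 : ∑ t ∈ T, L t ≤ 6 * u * W) :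
    m / (3 * Q) * ∑ t ∈ T, ((W * (k - 1) - L t * k) / N) ^ 2 ≤ 400000 * (B / N) := by
  have hr0 : 0 ≤ k - 1 := by linarith
  have hWr : W * (k - 1) / N ≤ 372 / m := by
    calc W * (k - 1) / N ≤ 2 * N * (186 / m) / N := by gcongr
      _ = 372 / m := by field_simp; ring
  have hBN : 0 ≤ B / N := div_nonneg (by linarith) hN.le
  have hone : ∀ t ∈ T, ((W * (k - 1) - L t * k) / N) ^ 2 ≤
      2 * (372 / m) ^ 2 + 2 * 32 ^ 2 * B / N ^ 2 * L t := by
    intro t ht
    have hl0 := hL0 t ht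
    have hlB := hLB t ht
    have h1 : (W * (k - 1) / N) ^ 2 ≤ (372 / m) ^ 2 := pow_le_pow_left₀ (by positivity) hWr 2
    have h2 : (L t * k / N) ^ 2 ≤ 32 ^ 2 * B / N ^ 2 * L t := by
      calc (L t * k / N) ^ 2 = L t * L t * k ^ 2 / N ^ 2 := by ring
        _ ≤ L t * B * 32 ^ 2 / N ^ 2 := by gcongr
        _ = 32 ^ 2 * B / N ^ 2 * L t := by ring
    have e3 : 2 * 32 ^ 2 * B / N ^ 2 * L t = 2 * (32 ^ 2 * B / N ^ 2 * L t) := by ring
    rw [sub_div, e3]
    nlinarith [sq_nonneg (W * (k - 1) / N + L t * k / N)]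
  have h2 : ∑ t ∈ T, ((W * (k - 1) - L t * k) / N) ^ 2 ≤
      Q * (2 * (372 / m) ^ 2) + 2 * 32 ^ 2 * B / N ^ 2 * (6 * u * W) := by
    refine (sum_le_sum hone).trans ?_
    rw [sum_add_distrib, sum_const, nsmul_eq_mul, ← mul_sum]
    gcongr
  have hcoef : m / (3 * Q) ≤ 2 / u := by
    rw [div_le_div_iff₀ (by linarith) hu0]
    nlinarith
  have hWN : W / N ≤ 2 := by rw [div_le_iff₀ hN]; linarith
  have h1m := one_div_m_le hm0 hN hN3 hB1
  calc m / (3 * Q) * ∑ t ∈ T, ((W * (k - 1) - L t * k) / N) ^ 2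
      ≤ m / (3 * Q) * (Q * (2 * (372 / m) ^ 2)) +
          m / (3 * Q) * (2 * 32 ^ 2 * B / N ^ 2 * (6 * u * W)) := by
        rw [← mul_add]
        exact mul_le_mul_of_nonneg_left h2 (by positivity)
    _ ≤ 92256 * (1 / m) + 2 / u * (2 * 32 ^ 2 * B / N ^ 2 * (6 * u * W)) := by
        refine add_le_add (le_of_eq ?_) (mul_le_mul_of_nonneg_right hcoef ?_)
        · field_simp
          ring
        · have : 0 ≤ B := by linarith
          positivity
    _ = 92256 * (1 / m) + 24576 * (B / N) * (W / N) := by field_simp; ring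
    _ ≤ 92256 * (3 * (B / N)) + 24576 * (B / N) * 2 := by gcongr
    _ ≤ 400000 * (B / N) := by linarith

/-- **The generic step**: drift, second moment and jump of a normalised count. -/
theorem track {i : ℕ} {P : Env} {E : St n} (hs : Small n P i) (hsize : Size i E)
    (hy : ∀ e ∈ E, |yy i E e| ≤ P.y i) (U : Finset ι) (req : ι → St n) (R : St n)
    (hR : R ⊆ E) (hR2 : R.card ≤ 2)
    (h5 : ∀ a ∈ flags U req E, (req a).card = 5 ∧ Disjoint (req a) R)
    (hW : ((flags U req E).card : ℝ) ≤ 2 * nrm n i) {B : ℝ} (hB1 : 1 ≤ B)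
    (hB : ∀ t ∈ triangles E, ((lost U req E t).card : ℝ) ≤ B)
    (f : ℕ → St n → ℝ) (hf : ∀ k F, f k F = ((flags U req F).card : ℝ) / nrm n k - 1) :
    |inc R f i E| ≤ 400000 * (P.y i + 1 / mu n i) ∧
      sq R f i E ≤ 400000 * (B / nrm n i) ∧ JumpLE R f i E (400000 * (B / nrm n i)) := by
  obtain ⟨hm6, hp, -, hmum, hN, hN3⟩ := sizes hs
  obtain ⟨hd, hQ, hQpos⟩ := counts hs hsize hy
  have hy0 := hs.y0
  have hy1 := hs.y1
  have hmu100 := hs.mu_big
  set m := mm n i with hmdef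
  set u := mu n i with hu
  set y := P.y i
  set N := nrm n i with hNdef
  set W := ((flags U req E).card : ℝ) with hWdef
  set Q := ((triangles E).card : ℝ) with hQdef
  set T := steps R E with hT
  set s := (T.card : ℝ) with hsdef
  set H := ∑ t ∈ T, ((lost U req E t).card : ℝ) with hH
  obtain ⟨hr0, hr1, hk32, hr2⟩ := ratio_bounds hm6
  set k := (m / (m - 3)) ^ 5 with hk
  set r := k - 1 with hr
  have hk1 : 1 ≤ k := by linarith
  have hu0 : 0 < u := by linarith
  have hm0 : 0 < m := by linarith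
  have hW0 : 0 ≤ W := Nat.cast_nonneg _
  have hQ0 : 0 < Q := Nat.cast_pos.2 hQpos
  have hne : triangles E ≠ ∅ := nonempty_iff_ne_empty.1 (card_pos.1 hQpos)
  have hmu2 : 0 < m * u := mul_pos hm0 hu0
  have hQhi : 3 * Q ≤ m * u * (101 / 100) := by
    have := (abs_le.1 hQ).2
    nlinarith
  have hQlo : m * u * (99 / 100) ≤ 3 * Q := by
    have := (abs_le.1 hQ).1
    nlinarith
  -- the hit counts
  have hHm : |H - 5 * u * W| ≤ W * (5 * u * y + 30) := by
    rw [hH, sum_lost_eq_sum_hits]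
    have hone : ∀ a ∈ flags U req E,
        |(hits (steps R E) (lost U req E) a : ℝ) - 5 * u| ≤ 5 * u * y + 30 := by
      intro a ha
      obtain ⟨h5c, hdis⟩ := h5 a ha
      have h1 := hits_near U req R E ha hdis
      have hsub : req a ⊆ E := (mem_filter.1 ha).2
      have h2 : |(∑ e ∈ req a, (deg E e : ℝ)) - 5 * u| ≤ 5 * u * y := by
        have e5 : (5 : ℝ) * u = ∑ e ∈ req a, u := by
          rw [sum_const, nsmul_eq_mul, h5c]; norm_num
        rw [e5, ← sum_sub_distrib]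
        refine (abs_sum_le_sum_abs _ _).trans ((sum_le_sum fun e he => hd e (hsub he)).trans_eq ?_)
        simp only [sum_const, nsmul_eq_mul, h5c]
        ring
      have h3 : ((req a).card : ℝ) * (((req a).card : ℝ) - 1) + (req a).card * R.card ≤ 30 := by
        have : (R.card : ℝ) ≤ 2 := by exact_mod_cast hR2
        rw [h5c]
        push_cast
        linarith
      rw [abs_le] at h1 h2 ⊢
      constructor <;> linarith [h1.1, h1.2, h2.1, h2.2]
    have e1 : (5 : ℝ) * u * W = ∑ a ∈ flags U req E, 5 * u := by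
      rw [sum_const, nsmul_eq_mul, hWdef]; ring
    rw [e1, ← sum_sub_distrib]
    refine (abs_sum_le_sum_abs _ _).trans ((sum_le_sum hone).trans_eq ?_)
    rw [sum_const, nsmul_eq_mul]
  have hH0 : 0 ≤ H := sum_nonneg fun t _ => Nat.cast_nonneg _
  have hH6 : H ≤ 6 * u * W := by
    have h1 := (abs_le.1 hHm).2
    have h2 : 5 * u * y + 30 ≤ u := by nlinarith
    nlinarith [mul_le_mul_of_nonneg_left h2 hW0]
  -- the steps
  have hsQ : s ≤ Q := by
    rw [hsdef, hQdef]
    exact_mod_cast card_le_card (filter_subset _ _)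
  have hs3 : Q - s ≤ 3 * u := by
    have h1 : ((((triangles E).filter fun t => ¬ Disjoint (sides t) R).card : ℕ) : ℝ) = Q - s := by
      have h := card_filter_add_card_filter_not (s := triangles E) (fun t => Disjoint R (sides t))
      have h' : (((triangles E).filter fun t => ¬ Disjoint (sides t) R)) =
          (triangles E).filter fun t => ¬ Disjoint R (sides t) :=
        filter_congr fun t _ => by rw [disjoint_comm]
      have h'' := congrArg (Nat.cast : ℕ → ℝ) h
      push_cast at h''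
      rw [h', hsdef, hQdef, hT, steps]
      linarith
    rw [← h1]
    refine (hit_upper E R).trans ?_
    calc ∑ e ∈ R, (deg E e : ℝ) ≤ ∑ _e ∈ R, (3 / 2 * u) := sum_le_sum fun e he => by
            have := (abs_le.1 (hd e (hR he))).2
            nlinarith
      _ = (R.card : ℝ) * (3 / 2 * u) := by rw [sum_const, nsmul_eq_mul]
      _ ≤ 2 * (3 / 2 * u) := by
          refine mul_le_mul_of_nonneg_right ?_ (by linarith)
          exact_mod_cast hR2
      _ = 3 * u := by ring
  -- one step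
  have hnext : nrm n (i + 1) = N / k := nrm_succ (sizes hs).1 (sizes hs).2.1
  have hΔ : ∀ t ∈ triangles E, f (i + 1) (E \ sides t) - f i E =
      (W * r - ((lost U req E t).card : ℝ) * k) / N := by
    intro t _
    have hsub : lost U req E t ⊆ flags U req E := filter_subset _ _
    have hle : (lost U req E t).card ≤ (flags U req E).card := card_le_card hsub
    rw [hf, hf, flags_sdiff, card_sdiff_of_subset hsub, Nat.cast_sub hle, hnext, ← hNdef,
      ← hWdef]
    exact change_eq hN.ne'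
  have hsum : ∀ φ : ℝ → ℝ, m / 3 * avg (fun F => if R ⊆ F then φ (f (i + 1) F - f i E) else 0) E =
      m / (3 * Q) * ∑ t ∈ T, φ ((W * r - ((lost U req E t).card : ℝ) * k) / N) := by
    intro φ
    rw [avg_steps hR hne (fun F => φ (f (i + 1) F - f i E)),
      sum_congr rfl (fun t ht => by rw [hΔ t (mem_filter.1 ht).1])]
    rw [← hQdef, ← hT]
    ring
  refine ⟨?_, ?_, ?_⟩
  · rw [inc, hsum (fun x => x), ← sum_div, sum_sub_distrib, sum_const, nsmul_eq_mul, ← sum_mul]
    exact drift_real hm0 hu0 hmum hy0 hN hW0 hW hQ0 hQlo (by linarith) hQ hsQ hs3 hHm hk1 hk32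
      hr1 hr2
  · rw [sq, hsum (fun x => x ^ 2)]
    exact sq_real hm0 hu0 hN hN3 hW0 hW hQ0 hQlo hB1 hk1 hk32 hr1 T
      (fun t => ((lost U req E t).card : ℝ)) (fun _ _ => Nat.cast_nonneg _)
      (fun t ht => hB t (mem_filter.1 ht).1) hsQ hH6
  · intro t ht _
    rw [hΔ t ht]
    exact jump_real hm0 hN hN3 hW0 hW hB1 hk1 hk32 hr1 (Nat.cast_nonneg _) (hB t ht)

/-- Fewer than six triple codegrees are lost, if the counted pairs through a vertex are few. -/
lemma lost_le (U : Finset (Fin n × Fin n)) (req : Fin n × Fin n → St n) (E : St n) {τ : ℝ}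
    (hmeet : ∀ q ∈ flags U req E, ∀ e ∈ req q, q.1 ∈ e ∨ q.2 ∈ e)
    (h1 : ∀ v : Fin n, (((flags U req E).filter fun q => q.1 = v).card : ℝ) ≤ τ)
    (h2 : ∀ v : Fin n, (((flags U req E).filter fun q => q.2 = v).card : ℝ) ≤ τ)
    {t : Finset (Fin n)} (ht : t ∈ triangles E) :
    ((lost U req E t).card : ℝ) ≤ 6 * τ := by
  have ht3 : t.card = 3 := by
    simp only [triangles, mem_filter, mem_powersetCard] at ht
    exact ht.1.2
  have hsub : lost U req E t ⊆ t.biUnion (fun v => (flags U req E).filter fun q => q.1 = v) ∪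
      t.biUnion (fun v => (flags U req E).filter fun q => q.2 = v) := by
    intro q hq
    obtain ⟨hqf, hnd⟩ := mem_filter.1 hq
    obtain ⟨e, he, het⟩ := not_disjoint_iff.1 hnd
    have hsub' : e ⊆ t := (mem_powersetCard.1 het).1
    rcases hmeet q hqf e he with h | h
    · exact mem_union_left _ (mem_biUnion.2 ⟨q.1, hsub' h, mem_filter.2 ⟨hqf, rfl⟩⟩)
    · exact mem_union_right _ (mem_biUnion.2 ⟨q.2, hsub' h, mem_filter.2 ⟨hqf, rfl⟩⟩)
  have h := (card_le_card hsub).trans
    ((card_union_le _ _).trans (Nat.add_le_add card_biUnion_le card_biUnion_le))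
  have h' := (Nat.cast_le (α := ℝ)).2 h
  push_cast at h'
  have b1 := sum_le_sum (s := t) fun v _ => h1 v
  have b2 := sum_le_sum (s := t) fun v _ => h2 v
  rw [sum_const, nsmul_eq_mul, ht3] at b1 b2
  push_cast at b1 b2
  linarith

/-- The five edges of a link walk. -/
def walkReq (a x z : Fin n) (q : Fin n × Fin n) : St n :=
  {{a, q.1}, {a, q.2}, {x, q.1}, {q.1, q.2}, {q.2, z}}

/-- The admissible middles of a link walk. -/
def walkU (x z : Fin n) : Finset (Fin n × Fin n) :=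
  univ.filter fun q => q.1 ≠ z ∧ q.2 ≠ x

/-- The five edges of an edge in a common neighbourhood. -/
def pairReq (b b' : Fin n) (q : Fin n × Fin n) : St n :=
  {{b, q.1}, {b, q.2}, {b', q.1}, {b', q.2}, {q.1, q.2}}

lemma W3_eq (F : St n) (a x z : Fin n) :
    W3 F a x z = (flags (walkU x z) (walkReq a x z) F).card := by
  unfold W3 flags walkU walkReq
  rw [filter_filter]
  congr 1
  refine filter_congr fun q _ => ?_
  simp only [insert_subset_iff, singleton_subset_iff]
  tauto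

lemma L2_eq (F : St n) (b b' : Fin n) :
    L2 F b b' = (flags (univ : Finset (Fin n × Fin n)) (pairReq b b') F).card := by
  unfold L2 flags pairReq
  congr 1
  refine filter_congr fun q _ => ?_
  simp only [insert_subset_iff, singleton_subset_iff]

/-- Two pairs differ if some end of the first is not in the second. -/
lemma pair_ne {u v w w' : Fin n} (h1 : u ≠ w) (h2 : u ≠ w') :
    ({u, v} : Finset (Fin n)) ≠ {w, w'} := by
  intro h
  have : u ∈ ({w, w'} : Finset (Fin n)) := h ▸ mem_insert_self u {v}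
  simp only [mem_insert, mem_singleton] at this
  tauto

/-- Two pairs differ if the second end of the first is not in the second. -/
lemma pair_ne' {u v w w' : Fin n} (h1 : v ≠ w) (h2 : v ≠ w') :
    ({u, v} : Finset (Fin n)) ≠ {w, w'} := by
  rw [pair_comm u v]
  exact pair_ne h1 h2

/-- The common neighbours of three vertices bound a fibre. -/
lemma fibre_le {E : St n} {τ : ℝ} (hτ : 0 ≤ τ)
    (htau : ∀ a b d : Fin n, a ≠ b → a ≠ d → b ≠ d → (T3 E a b d : ℝ) ≤ τ)
    (s : Finset (Fin n × Fin n)) (p : Fin n × Fin n → Fin n) {a b d : Fin n}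
    (hinj : Set.InjOn p s)
    (hdist : ∀ q ∈ s, a ≠ b ∧ a ≠ d ∧ b ≠ d)
    (hmem : ∀ q ∈ s, {a, p q} ∈ E ∧ {b, p q} ∈ E ∧ {d, p q} ∈ E) :
    (s.card : ℝ) ≤ τ := by
  rcases s.eq_empty_or_nonempty with rfl | ⟨q, hq⟩
  · simpa using hτ
  · obtain ⟨h1, h2, h3⟩ := hdist q hq
    refine le_trans ?_ (htau a b d h1 h2 h3)
    exact_mod_cast card_le_card_of_injOn p
      (fun r hr => mem_filter.2 ⟨mem_univ _, hmem r hr⟩) hinj

end Vale.Agent.P046.Flags.Track

namespace Vale.Agent.P046.Flags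

open Finset Chain FlagDrift Track

/-- The tracked link walks. -/
theorem trackWalk : Spec.TrackWalk := by
  refine ⟨2400000, by norm_num, fun n i P eta E hs hg heta a x z hax haz => ?_⟩
  obtain ⟨hsub, -⟩ := hg.good.size
  have hax' := ne_of_pair_mem hsub hax
  have haz' := ne_of_pair_mem hsub haz
  have hτ : (0 : ℝ) ≤ P.tau i := zero_le_one.trans hs.tau1
  have hN := (sizes hs).2.2.2.2.1
  have hfacts : ∀ q ∈ flags (walkU x z) (walkReq a x z) E,
      ({a, q.1} ∈ E ∧ {a, q.2} ∈ E ∧ {x, q.1} ∈ E ∧ {q.1, q.2} ∈ E ∧ {q.2, z} ∈ E) ∧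
        (a ≠ q.1 ∧ a ≠ q.2 ∧ x ≠ q.1 ∧ q.1 ≠ q.2 ∧ q.2 ≠ z ∧ q.1 ≠ z ∧ q.2 ≠ x) := by
    intro q hq
    simp only [flags, walkU, walkReq, mem_filter, mem_univ, true_and, insert_subset_iff,
      singleton_subset_iff] at hq
    obtain ⟨⟨hz, hx⟩, h1, h2, h3, h4, h5⟩ := hq
    exact ⟨⟨h1, h2, h3, h4, h5⟩, ne_of_pair_mem hsub h1, ne_of_pair_mem hsub h2,
      ne_of_pair_mem hsub h3, ne_of_pair_mem hsub h4, ne_of_pair_mem hsub h5, hz, hx⟩
  have h5 : ∀ q ∈ flags (walkU x z) (walkReq a x z) E, (walkReq a x z q).card = 5 ∧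
      Disjoint (walkReq a x z q) ({{a, x}, {a, z}} : St n) := by
    intro q hq
    obtain ⟨-, ha1, ha2, hx1, h12, h2z, h1z, h2x⟩ := hfacts q hq
    have e12 : ({a, q.1} : Finset (Fin n)) ≠ {a, q.2} := pair_ne' ha1.symm h12
    have e13 : ({a, q.1} : Finset (Fin n)) ≠ {x, q.1} := pair_ne hax' ha1
    have e14 : ({a, q.1} : Finset (Fin n)) ≠ {q.1, q.2} := pair_ne ha1 ha2
    have e15 : ({a, q.1} : Finset (Fin n)) ≠ {q.2, z} := pair_ne ha2 haz'
    have e23 : ({a, q.2} : Finset (Fin n)) ≠ {x, q.1} := pair_ne hax' ha1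
    have e24 : ({a, q.2} : Finset (Fin n)) ≠ {q.1, q.2} := pair_ne ha1 ha2
    have e25 : ({a, q.2} : Finset (Fin n)) ≠ {q.2, z} := pair_ne ha2 haz'
    have e34 : ({x, q.1} : Finset (Fin n)) ≠ {q.1, q.2} := pair_ne hx1 h2x.symm
    have e35 : ({x, q.1} : Finset (Fin n)) ≠ {q.2, z} := pair_ne' h12 h1z
    have e45 : ({q.1, q.2} : Finset (Fin n)) ≠ {q.2, z} := pair_ne h12 h1z
    refine ⟨?_, ?_⟩
    · rw [walkReq, card_insert_of_notMem (by simp [e12, e13, e14, e15]),
        card_insert_of_notMem (by simp [e23, e24, e25]),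
        card_insert_of_notMem (by simp [e34, e35]), card_insert_of_notMem (by simp [e45]),
        card_singleton]
    · have f1 : ({a, q.1} : Finset (Fin n)) ≠ {a, x} := pair_ne' ha1.symm hx1.symm
      have f1' : ({a, q.1} : Finset (Fin n)) ≠ {a, z} := pair_ne' ha1.symm h1z
      have f2 : ({a, q.2} : Finset (Fin n)) ≠ {a, x} := pair_ne' ha2.symm h2x
      have f2' : ({a, q.2} : Finset (Fin n)) ≠ {a, z} := pair_ne' ha2.symm h2z
      have f3 : ({x, q.1} : Finset (Fin n)) ≠ {a, x} := pair_ne' ha1.symm hx1.symm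
      have f3' : ({x, q.1} : Finset (Fin n)) ≠ {a, z} := pair_ne' ha1.symm h1z
      have f4 : ({q.1, q.2} : Finset (Fin n)) ≠ {a, x} := pair_ne ha1.symm hx1.symm
      have f4' : ({q.1, q.2} : Finset (Fin n)) ≠ {a, z} := pair_ne ha1.symm h1z
      have f5 : ({q.2, z} : Finset (Fin n)) ≠ {a, x} := pair_ne ha2.symm h2x
      have f5' : ({q.2, z} : Finset (Fin n)) ≠ {a, z} := pair_ne ha2.symm h2z
      rw [disjoint_left]
      intro e he
      simp only [walkReq, mem_insert, mem_singleton] at he ⊢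
      rcases he with rfl | rfl | rfl | rfl | rfl <;>
        simp [f1, f1', f2, f2', f3, f3', f4, f4', f5, f5']
  have hW : ((flags (walkU x z) (walkReq a x z) E).card : ℝ) ≤ 2 * nrm n i := by
    rw [← W3_eq]
    have h := (abs_le.1 (hg.walk a x z hax haz)).2
    have h2 : eta i * nrm n i ≤ 1 / 100 * nrm n i := mul_le_mul_of_nonneg_right heta hN.le
    unfold nrm at *
    linarith
  have hB : ∀ t ∈ triangles E,
      ((lost (walkU x z) (walkReq a x z) E t).card : ℝ) ≤ 6 * P.tau i := by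
    intro t ht
    refine lost_le _ _ E ?_ ?_ ?_ ht
    · intro q _ e he
      simp only [walkReq, mem_insert, mem_singleton] at he
      rcases he with rfl | rfl | rfl | rfl | rfl <;> simp
    · intro v
      refine fibre_le hτ hg.good.tau _ (fun q => q.2) (a := a) (b := v) (d := z) ?_ ?_ ?_
      · intro q hq r hr h
        simp only [coe_filter, Set.mem_ofPred_eq] at hq hr
        exact Prod.ext (hq.2.trans hr.2.symm) h
      · intro q hq
        obtain ⟨hqf, rfl⟩ := mem_filter.1 hq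
        obtain ⟨-, ha1, -, -, -, -, h1z, -⟩ := hfacts q hqf
        exact ⟨ha1, haz', h1z⟩
      · intro q hq
        obtain ⟨hqf, rfl⟩ := mem_filter.1 hq
        obtain ⟨⟨-, g2, -, g4, g5⟩, -⟩ := hfacts q hqf
        exact ⟨g2, g4, pair_comm q.2 z ▸ g5⟩
    · intro v
      refine fibre_le hτ hg.good.tau _ (fun q => q.1) (a := a) (b := v) (d := x) ?_ ?_ ?_
      · intro q hq r hr h
        simp only [coe_filter, Set.mem_ofPred_eq] at hq hr
        exact Prod.ext h (hq.2.trans hr.2.symm)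
      · intro q hq
        obtain ⟨hqf, rfl⟩ := mem_filter.1 hq
        obtain ⟨-, -, ha2, -, -, -, -, h2x⟩ := hfacts q hqf
        exact ⟨ha2, hax', h2x⟩
      · intro q hq
        obtain ⟨hqf, rfl⟩ := mem_filter.1 hq
        obtain ⟨⟨g1, -, g3, g4, -⟩, -⟩ := hfacts q hqf
        exact ⟨g1, pair_comm q.1 q.2 ▸ g4, g3⟩
  have hR : ({{a, x}, {a, z}} : St n) ⊆ E := by
    simp [insert_subset_iff, hax, haz]
  intro f R
  obtain ⟨h1, h2, h3⟩ := track hs hg.good.size hg.good.y (walkU x z) (walkReq a x z) _ hR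
    card_le_two h5 hW (B := 6 * P.tau i) (by linarith [hs.tau1]) hB f
    (fun k F => by simp only [f, W3_eq]; rfl)
  have hT : 0 ≤ P.tau i / nrm n i := div_nonneg hτ hN.le
  have e : 6 * P.tau i / nrm n i = 6 * (P.tau i / nrm n i) := by ring
  have hsum : 0 ≤ P.y i + 1 / mu n i := by
    have := hs.y0
    have : 0 ≤ 1 / mu n i := by have := hs.mu_big; positivity
    linarith
  rw [e] at h2 h3
  refine ⟨?_, ?_, fun t ht hRt => ?_⟩
  · change _ ≤ 2400000 * (P.y i + 1 / mu n i + P.tau i / nrm n i)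
    linarith
  · change _ ≤ 2400000 * (P.tau i / nrm n i)
    linarith
  · change _ ≤ 2400000 * (P.tau i / nrm n i)
    linarith [h3 t ht hRt]

/-- The tracked edges in common neighbourhoods. -/
theorem trackPair : Spec.TrackPair := by
  refine ⟨2400000, by norm_num, fun n i P eta E hs hg heta b b' hbb => ?_⟩
  obtain ⟨hsub, -⟩ := hg.good.size
  have hτ : (0 : ℝ) ≤ P.tau i := zero_le_one.trans hs.tau1
  have hN := (sizes hs).2.2.2.2.1
  have hfacts : ∀ q ∈ flags (univ : Finset (Fin n × Fin n)) (pairReq b b') E,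
      ({b, q.1} ∈ E ∧ {b, q.2} ∈ E ∧ {b', q.1} ∈ E ∧ {b', q.2} ∈ E ∧ {q.1, q.2} ∈ E) ∧
        (b ≠ q.1 ∧ b ≠ q.2 ∧ b' ≠ q.1 ∧ b' ≠ q.2 ∧ q.1 ≠ q.2) := by
    intro q hq
    simp only [flags, pairReq, mem_filter, mem_univ, true_and, insert_subset_iff,
      singleton_subset_iff] at hq
    obtain ⟨h1, h2, h3, h4, h5⟩ := hq
    exact ⟨⟨h1, h2, h3, h4, h5⟩, ne_of_pair_mem hsub h1, ne_of_pair_mem hsub h2,
      ne_of_pair_mem hsub h3, ne_of_pair_mem hsub h4, ne_of_pair_mem hsub h5⟩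
  have h5 : ∀ q ∈ flags (univ : Finset (Fin n × Fin n)) (pairReq b b') E,
      (pairReq b b' q).card = 5 ∧ Disjoint (pairReq b b' q) (∅ : St n) := by
    intro q hq
    obtain ⟨-, hb1, hb2, hc1, hc2, h12⟩ := hfacts q hq
    have e12 : ({b, q.1} : Finset (Fin n)) ≠ {b, q.2} := pair_ne' hb1.symm h12
    have e13 : ({b, q.1} : Finset (Fin n)) ≠ {b', q.1} := pair_ne hbb hb1
    have e14 : ({b, q.1} : Finset (Fin n)) ≠ {b', q.2} := pair_ne hbb hb2
    have e15 : ({b, q.1} : Finset (Fin n)) ≠ {q.1, q.2} := pair_ne hb1 hb2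
    have e23 : ({b, q.2} : Finset (Fin n)) ≠ {b', q.1} := pair_ne hbb hb1
    have e24 : ({b, q.2} : Finset (Fin n)) ≠ {b', q.2} := pair_ne hbb hb2
    have e25 : ({b, q.2} : Finset (Fin n)) ≠ {q.1, q.2} := pair_ne hb1 hb2
    have e34 : ({b', q.1} : Finset (Fin n)) ≠ {b', q.2} := pair_ne' hc1.symm h12
    have e35 : ({b', q.1} : Finset (Fin n)) ≠ {q.1, q.2} := pair_ne hc1 hc2
    have e45 : ({b', q.2} : Finset (Fin n)) ≠ {q.1, q.2} := pair_ne hc1 hc2
    refine ⟨?_, disjoint_empty_right _⟩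
    rw [pairReq, card_insert_of_notMem (by simp [e12, e13, e14, e15]),
      card_insert_of_notMem (by simp [e23, e24, e25]),
      card_insert_of_notMem (by simp [e34, e35]), card_insert_of_notMem (by simp [e45]),
      card_singleton]
  have hW : ((flags (univ : Finset (Fin n × Fin n)) (pairReq b b') E).card : ℝ) ≤
      2 * nrm n i := by
    rw [← L2_eq]
    have h := (abs_le.1 (hg.pair b b' hbb)).2
    have h2 : eta i * nrm n i ≤ 1 / 100 * nrm n i := mul_le_mul_of_nonneg_right heta hN.le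
    unfold nrm at *
    linarith
  have hB : ∀ t ∈ triangles E,
      ((lost (univ : Finset (Fin n × Fin n)) (pairReq b b') E t).card : ℝ) ≤ 6 * P.tau i := by
    intro t ht
    refine lost_le _ _ E ?_ ?_ ?_ ht
    · intro q _ e he
      simp only [pairReq, mem_insert, mem_singleton] at he
      rcases he with rfl | rfl | rfl | rfl | rfl <;> simp
    · intro v
      refine fibre_le hτ hg.good.tau _ (fun q => q.2) (a := b) (b := b') (d := v) ?_ ?_ ?_
      · intro q hq r hr h
        simp only [coe_filter, Set.mem_ofPred_eq] at hq hr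
        exact Prod.ext (hq.2.trans hr.2.symm) h
      · intro q hq
        obtain ⟨hqf, rfl⟩ := mem_filter.1 hq
        obtain ⟨-, hb1, -, hc1, -, -⟩ := hfacts q hqf
        exact ⟨hbb, hb1, hc1⟩
      · intro q hq
        obtain ⟨hqf, rfl⟩ := mem_filter.1 hq
        obtain ⟨⟨-, g2, -, g4, g5⟩, -⟩ := hfacts q hqf
        exact ⟨g2, g4, g5⟩
    · intro v
      refine fibre_le hτ hg.good.tau _ (fun q => q.1) (a := b) (b := b') (d := v) ?_ ?_ ?_
      · intro q hq r hr h
        simp only [coe_filter, Set.mem_ofPred_eq] at hq hr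
        exact Prod.ext h (hq.2.trans hr.2.symm)
      · intro q hq
        obtain ⟨hqf, rfl⟩ := mem_filter.1 hq
        obtain ⟨-, -, hb2, -, hc2, -⟩ := hfacts q hqf
        exact ⟨hbb, hb2, hc2⟩
      · intro q hq
        obtain ⟨hqf, rfl⟩ := mem_filter.1 hq
        obtain ⟨⟨g1, -, g3, -, g5⟩, -⟩ := hfacts q hqf
        exact ⟨g1, g3, pair_comm q.1 q.2 ▸ g5⟩
  intro f
  obtain ⟨h1, h2, h3⟩ := track hs hg.good.size hg.good.y (univ : Finset (Fin n × Fin n))
    (pairReq b b') ∅ (empty_subset E) (by simp) h5 hW (B := 6 * P.tau i)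
    (by linarith [hs.tau1]) hB f (fun k F => by simp only [f, L2_eq]; rfl)
  have hT : 0 ≤ P.tau i / nrm n i := div_nonneg hτ hN.le
  have e : 6 * P.tau i / nrm n i = 6 * (P.tau i / nrm n i) := by ring
  have hsum : 0 ≤ P.y i + 1 / mu n i := by
    have := hs.y0
    have : 0 ≤ 1 / mu n i := by have := hs.mu_big; positivity
    linarith
  rw [e] at h2 h3
  refine ⟨?_, ?_, fun t ht hRt => ?_⟩
  · change _ ≤ 2400000 * (P.y i + 1 / mu n i + P.tau i / nrm n i)
    linarith
  · change _ ≤ 2400000 * (P.tau i / nrm n i)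
    linarith
  · change _ ≤ 2400000 * (P.tau i / nrm n i)
    linarith [h3 t ht hRt]

end Vale.Agent.P046.Flags
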