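import Vale.Agent.P046.Flags.VertexBasic

/-!
# Degrees stay near their trajectory
-/

namespace Vale.Agent.P046.Flags

open Finset Chain VB

variable {n : ℕ}

lemma degV_sdiff {E : St n} (hE : E ⊆ complete n) {t : Finset (Fin n)} (ht : t ∈ triangles E)
    (b : Fin n) :
    (degV (E \ sides t) b : ℝ) = degV E b - if b ∈ t then 2 else 0 := by
  have h1 : edgesAt (E \ sides t) b = edgesAt E b \ (sides t).filter fun g => b ∈ g := by
    ext g
    simp only [edgesAt, mem_filter, mem_sdiff]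
    tauto
  have hsub : (sides t).filter (fun g => b ∈ g) ⊆ edgesAt E b := fun g hg =>
    mem_filter.2 ⟨(mem_filter.1 ht).2 (mem_filter.1 hg).1, (mem_filter.1 hg).2⟩
  rw [← card_edgesAt hE, ← card_edgesAt (sdiff_subset.trans hE), h1, card_sdiff_of_subset hsub,
    Nat.cast_sub (card_le_card hsub)]
  congr 1
  split_ifs with hb
  · rw [card_spokes (card_of_mem_triangles ht) hb]; norm_num
  · rw [filter_eq_empty_iff.2 fun g hg hbg => hb (mem_of_side hg hbg)]
    simp

lemma inc_arith {d m μ Q T N np y : ℝ} (hm : 0 < m) (hμ : 0 < μ) (hy : 0 ≤ y) (hd : 0 ≤ d)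
    (hd2 : d ≤ 101 / 100 * np) (hN : np / 2 ≤ N) (hnp : 0 < np)
    (hQlo : 99 / 100 * (m * μ) ≤ 3 * Q) (hQ : |3 * Q - m * μ| ≤ y * (m * μ))
    (hT : |2 * T - d * μ| ≤ y * (d * μ)) :
    |(3 * Q * d - 2 * T * m) / (3 * Q * N)| ≤ 9 * y := by
  have hmμ : 0 < m * μ := mul_pos hm hμ
  have hN0 : 0 < N := by linarith
  have hQ0 : 0 < 3 * Q := by linarith
  have hnum : |3 * Q * d - 2 * T * m| ≤ 2 * y * (d * (m * μ)) := by
    rw [show 3 * Q * d - 2 * T * m = d * (3 * Q - m * μ) - m * (2 * T - d * μ) by ring]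
    refine (abs_sub _ _).trans ?_
    rw [abs_mul, abs_mul, abs_of_nonneg hd, abs_of_pos hm]
    linarith [mul_le_mul_of_nonneg_left hQ hd, mul_le_mul_of_nonneg_left hT hm.le]
  rw [abs_div, abs_of_pos (mul_pos hQ0 hN0), div_le_iff₀ (mul_pos hQ0 hN0)]
  refine hnum.trans ?_
  calc 2 * y * (d * (m * μ)) ≤ 2 * y * (101 / 100 * np * (m * μ)) :=
        mul_le_mul_of_nonneg_left (mul_le_mul_of_nonneg_right hd2 hmμ.le) (by linarith)
    _ ≤ 9 * y * (99 / 100 * (m * μ) * (np / 2)) := by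
        nlinarith [mul_nonneg (mul_nonneg hy hmμ.le) hnp.le]
    _ ≤ _ := mul_le_mul_of_nonneg_left (mul_le_mul hQlo hN (by linarith) hQ0.le) (by linarith)

lemma sq_arith {d m μ Q T N np y : ℝ} (hm : 0 < m) (hμ : 0 < μ) (hy1 : y ≤ 1 / 100) (hd : 0 ≤ d)
    (hd2 : d ≤ 101 / 100 * np) (hdm : d ≤ m) (hN : np / 2 ≤ N) (hnp : 0 < np)
    (hQlo : 99 / 100 * (m * μ) ≤ 3 * Q) (hT : |2 * T - d * μ| ≤ y * (d * μ)) :
    (6 * d ^ 2 / m + 8 * T * m / (3 * Q)) / N ^ 2 ≤ 100 * (1 / np) := by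
  have hmμ : 0 < m * μ := mul_pos hm hμ
  have hN0 : 0 < N := by linarith
  have h2 : 6 * d ^ 2 / m ≤ 6 * d := by
    rw [div_le_iff₀ hm]; nlinarith
  have h3 : 8 * T * m / (3 * Q) ≤ 8 * d := by
    rw [div_le_iff₀ (by linarith)]
    have a2 : 2 * T ≤ 101 / 100 * (d * μ) := by
      linarith [(abs_le.1 hT).2, mul_le_mul_of_nonneg_right hy1 (mul_nonneg hd hμ.le)]
    have a1 := mul_le_mul_of_nonneg_left hQlo hd
    have a3 := mul_le_mul_of_nonneg_left a2 hm.le
    linarith [mul_nonneg hd hmμ.le]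
  rw [div_le_iff₀ (by positivity)]
  calc 6 * d ^ 2 / m + 8 * T * m / (3 * Q) ≤ 25 * np := by linarith
    _ = 100 * (1 / np) * (np / 2) ^ 2 := by field_simp; ring
    _ ≤ _ := mul_le_mul_of_nonneg_left (pow_le_pow_left₀ (by linarith) hN 2) (by positivity)

lemma mean_arith {d m Q T N : ℝ} (hm : m ≠ 0) (hQ : Q ≠ 0) :
    m / 3 * ((Q * (3 * d / m) - 2 * T) / N / Q) = (3 * Q * d - 2 * T * m) / (3 * Q * N) := by
  field_simp

lemma sq_mean_arith {d m Q T N : ℝ} (hm : m ≠ 0) (hQ : Q ≠ 0) :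
    m / 3 * ((Q * (18 * d ^ 2 / m ^ 2) + 4 * (2 * T)) / N ^ 2 / Q) =
      (6 * d ^ 2 / m + 8 * T * m / (3 * Q)) / N ^ 2 := by
  field_simp
  ring

theorem trackDeg : Spec.TrackDeg := by
  refine ⟨100, by norm_num, fun n i P eta E hs hG he b => ?_⟩
  intro f
  set d : ℝ := (degV E b : ℝ) with hd
  set m := mm n i with hm
  set Q : ℝ := ((triangles E).card : ℝ) with hQ
  set T : ℝ := ((triV E b).card : ℝ) with hT
  set N : ℝ := n * pp n (i + 1) with hN
  set np : ℝ := n * pp n i with hnp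
  have hm6 := mm_ge hs
  have hnp100 := np_ge hs
  have hnm := np_le_mm hs
  have hQ0 := Q_pos hs hG.good
  have hmu := mu_pos hs
  obtain ⟨hd1, hd2⟩ := deg_bounds hs hG he b
  have hd0 : 0 ≤ d := Nat.cast_nonneg _
  have hNeq : N = np * (1 - 3 / m) := by
    have hc := choose_pos hs
    simp only [hN, hnp, hm, pp, mm] at hm6 ⊢
    have : (n.choose 2 : ℝ) - 3 * i ≠ 0 := by linarith
    push_cast
    field_simp
    ring
  have hN2 : np / 2 ≤ N := by
    have : 3 / m ≤ 1 / 2 := by rw [div_le_iff₀ (by linarith)]; linarith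
    rw [hNeq]; nlinarith
  have hN0 : 0 < N := by linarith
  have hdiff : ∀ t ∈ triangles E,
      f (i + 1) (E \ sides t) - f i E = (3 * d / m - if b ∈ t then 2 else 0) / N := by
    intro t ht
    have hm0 : m ≠ 0 := by linarith
    have hnp0 : np ≠ 0 := by linarith
    have hm3 : m - 3 ≠ 0 := by linarith
    simp only [f, degV_sdiff hG.good.size.1 ht b, ← hd, ← hN, ← hnp]
    generalize (if b ∈ t then (2:ℝ) else 0) = χ
    rw [hNeq]
    field_simp
    ring
  have hne := triangles_ne hs hG.good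
  have hcount : ∑ t ∈ triangles E, (if b ∈ t then (2:ℝ) else 0) = 2 * T := by
    rw [← sum_filter, sum_const, nsmul_eq_mul, hT, triV, mul_comm]
  have hm0 : 0 < m := by linarith
  have hy := hs.y0
  have hinv : 0 ≤ 1 / mu n i := one_div_nonneg.2 hmu.le
  refine ⟨?_, ?_, ?_⟩
  · have hinc : inc ∅ f i E = (3 * Q * d - 2 * T * m) / (3 * Q * N) := by
      rw [inc, avg_eq hne]
      simp only [empty_subset, if_true]
      rw [sum_congr rfl hdiff, ← sum_div, sum_sub_distrib, hcount, sum_const, nsmul_eq_mul]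
      exact mean_arith hm0.ne' hQ0.ne'
    rw [hinc]
    have := inc_arith hm0 hmu hy hd0 hd2 hN2 (by linarith) (three_Q_ge hs hG.good)
      (three_Q_near hs hG.good) (two_triV_near hs hG.good b)
    linarith
  · have hsq : ∀ t ∈ triangles E, (f (i + 1) (E \ sides t) - f i E) ^ 2 ≤
        (18 * d ^ 2 / m ^ 2 + 4 * if b ∈ t then 2 else 0) / N ^ 2 := by
      intro t ht
      rw [hdiff t ht, div_pow]
      refine div_le_div_of_nonneg_right ?_ (sq_nonneg _)
      rw [show 18 * d ^ 2 / m ^ 2 = 2 * (3 * d / m) ^ 2 by ring]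
      split_ifs <;> nlinarith [sq_nonneg (3 * d / m + 2), sq_nonneg (3 * d / m)]
    refine le_trans ?_ (sq_arith hm0 hmu hs.y1 hd0 hd2 (by linarith) hN2 (by linarith)
      (three_Q_ge hs hG.good) (two_triV_near hs hG.good b))
    rw [Flags.sq, avg_eq hne]
    simp only [empty_subset, if_true]
    refine (mul_le_mul_of_nonneg_left (div_le_div_of_nonneg_right (sum_le_sum hsq) hQ0.le)
      (by linarith)).trans (le_of_eq ?_)
    rw [← sum_div, sum_add_distrib, ← mul_sum, hcount, sum_const, nsmul_eq_mul]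
    exact sq_mean_arith hm0.ne' hQ0.ne'
  · intro t ht _
    rw [hdiff t ht, abs_div, abs_of_pos hN0, div_le_iff₀ hN0]
    have h1 : 3 * d / m ≤ 1 := by rw [div_le_iff₀ (by linarith)]; nlinarith
    have h0 : 0 ≤ 3 * d / m := div_nonneg (by linarith) (by linarith)
    have h2 : 100 * (1 / np) * N ≥ 50 := by
      calc (50:ℝ) = 100 * (1 / np) * (np / 2) := by
            have : np ≠ 0 := (by linarith : (0:ℝ) < np).ne'
            field_simp
            ring
        _ ≤ _ := mul_le_mul_of_nonneg_left hN2 (by positivity)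
    rw [abs_le]
    constructor <;> split_ifs <;> linarith

end Vale.Agent.P046.Flags
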