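import Vale.Agent.P046.Flags.Spec
import Vale.Agent.P046.Codeg

/-!
# Sizes at a vertex, and the shape of a step, from the bounds `Good`
-/

namespace Vale.Agent.P046.Flags.VB

open Finset Chain

variable {n i : ℕ} {P : Env} {E : St n}

/-- The edges at a vertex. -/
def edgesAt (E : St n) (b : Fin n) : St n := E.filter fun g => b ∈ g

lemma card_edgesAt (hE : E ⊆ complete n) (b : Fin n) : (edgesAt E b).card = degV E b := by
  refine (card_bij (fun c _ => ({b, c} : Finset (Fin n))) ?_ ?_ ?_).symm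
  · intro c hc
    exact mem_filter.2 ⟨(mem_filter.1 hc).2, mem_insert_self _ _⟩
  · intro c hc c' _ h
    have hne : b ≠ c := fun hbc => by
      have := hE (mem_filter.1 hc).2
      simp [complete, hbc] at this
    have : c ∈ ({b, c'} : Finset (Fin n)) := by rw [← h]; simp
    simp only [mem_insert, mem_singleton] at this
    exact this.resolve_left hne.symm
  · intro g hg
    obtain ⟨h1, h2⟩ := mem_filter.1 hg
    have h3 : g.card = 2 := (mem_powersetCard.1 (hE h1)).2
    obtain ⟨x, y, hxy, rfl⟩ := card_eq_two.1 h3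
    simp only [mem_insert, mem_singleton] at h2
    rcases h2 with rfl | rfl
    · exact ⟨y, mem_filter.2 ⟨mem_univ _, h1⟩, rfl⟩
    · exact ⟨x, mem_filter.2 ⟨mem_univ _, by rwa [Finset.pair_comm] at h1⟩, Finset.pair_comm _ _⟩

/-- A triangle at `b` has two spokes at `b`. -/
lemma card_spokes {t : Finset (Fin n)} (ht : t.card = 3) {b : Fin n} (hb : b ∈ t) :
    ((sides t).filter fun g => b ∈ g).card = 2 := by
  have : (sides t).filter (fun g => b ∈ g) = (t.erase b).image fun c => ({b, c} : Finset (Fin n)) := by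
    ext g
    simp only [sides, mem_filter, mem_powersetCard, mem_image, mem_erase]
    constructor
    · rintro ⟨⟨h1, h2⟩, h3⟩
      obtain ⟨x, y, hxy, rfl⟩ := card_eq_two.1 h2
      simp only [insert_subset_iff, singleton_subset_iff] at h1
      simp only [mem_insert, mem_singleton] at h3
      rcases h3 with rfl | rfl
      · exact ⟨y, ⟨hxy.symm, h1.2⟩, rfl⟩
      · exact ⟨x, ⟨hxy, h1.1⟩, Finset.pair_comm _ _⟩
    · rintro ⟨c, ⟨hc1, hc2⟩, rfl⟩
      exact ⟨⟨insert_subset_iff.2 ⟨hb, singleton_subset_iff.2 hc2⟩, card_pair hc1.symm⟩, by simp⟩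
  rw [this, card_image_of_injOn, card_erase_of_mem hb, ht]
  intro c hc c' _ h
  simp only at h
  have : c ∈ ({b, c'} : Finset (Fin n)) := by rw [← h]; simp
  simp only [mem_insert, mem_singleton] at this
  exact this.resolve_left (mem_erase.1 (mem_coe.1 hc)).1

lemma card_of_mem_triangles {t : Finset (Fin n)} (ht : t ∈ triangles E) : t.card = 3 :=
  (mem_powersetCard.1 (mem_filter.1 ht).1).2

lemma mem_of_side {t g : Finset (Fin n)} (hg : g ∈ sides t) {b : Fin n} (hb : b ∈ g) : b ∈ t :=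
  (mem_powersetCard.1 hg).1 hb

/-- Double counting of the spokes; `S` may contain edges that lie in no triangle. -/
lemma sum_spokes (S : St n) (b : Fin n) (hS : edgesAt E b ⊆ S) (hSb : ∀ g ∈ S, b ∈ g)
    (F : Finset (Fin n) → ℝ) :
    ∑ u ∈ triV E b, ∑ g ∈ (sides u).filter (fun g => b ∈ g), F g =
      ∑ g ∈ S, ((triAt E g).card : ℝ) * F g := by
  rw [sum_comm' (t' := S) (s' := fun g => triAt E g)]
  · exact sum_congr rfl fun g _ => by rw [sum_const, nsmul_eq_mul]
  · intro u g
    simp only [triV, triAt, mem_filter]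
    constructor
    · rintro ⟨⟨h1, -⟩, h3, h4⟩
      exact ⟨⟨h1, h3⟩, hS (mem_filter.2 ⟨(mem_filter.1 h1).2 h3, h4⟩)⟩
    · rintro ⟨⟨h1, h2⟩, h3⟩
      exact ⟨⟨h1, mem_of_side h2 (hSb g h3)⟩, h2, hSb g h3⟩

/-- Twice the triangles at `b` is the sum of the codegrees at `b`. -/
lemma two_card_triV (S : St n) (b : Fin n) (hS : edgesAt E b ⊆ S) (hSb : ∀ g ∈ S, b ∈ g) :
    2 * ((triV E b).card : ℝ) = ∑ g ∈ S, ((triAt E g).card : ℝ) := by
  have h := sum_spokes S b hS hSb fun _ => (1:ℝ)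
  simp only [mul_one, sum_const, nsmul_eq_mul] at h
  rw [← h, sum_congr rfl fun u hu => by
    rw [card_spokes (card_of_mem_triangles (mem_filter.1 hu).1) (mem_filter.1 hu).2], sum_const,
    nsmul_eq_mul]
  push_cast
  ring

lemma avgS_eq (S : St n) (b : Fin n) (hS : edgesAt E b ⊆ S) (hSb : ∀ g ∈ S, b ∈ g)
    (f : Finset (Fin n) → ℝ) :
    avgS E f b = (∑ g ∈ S, ((triAt E g).card : ℝ) * f g) /
      ∑ g ∈ S, ((triAt E g).card : ℝ) := by
  rw [← two_card_triV S b hS hSb, ← sum_spokes S b hS hSb f, avgS, FlagDrift.mean, ← sum_div,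
    div_div]

lemma mu_pos (h : Small n P i) : 0 < mu n i := by linarith [h.mu_big]

lemma mm_ge (h : Small n P i) : 6 ≤ mm n i := by
  have : ((3 * i + 6 : ℕ) : ℝ) ≤ (n.choose 2 : ℝ) := by exact_mod_cast h.room
  push_cast at this
  simp only [mm]; linarith

lemma choose_pos (h : Small n P i) : (0:ℝ) < (n.choose 2 : ℝ) :=
  Nat.cast_pos.2 (Nat.choose_pos (by linarith [h.n_big]))

lemma pp_pos (h : Small n P i) : 0 < pp n i :=
  div_pos (by linarith [mm_ge h]) (choose_pos h)

lemma pp_le_one (h : Small n P i) : pp n i ≤ 1 := by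
  rw [pp, div_le_one (choose_pos h), mm]
  linarith [(Nat.cast_nonneg i : (0:ℝ) ≤ i)]

lemma np_ge (h : Small n P i) : 100 ≤ n * pp n i := by
  refine h.mu_big.trans ?_
  rw [mu, pow_two, ← mul_assoc]
  exact mul_le_of_le_one_right (mul_nonneg (Nat.cast_nonneg n) (pp_pos h).le) (pp_le_one h)

lemma np_le_mm (h : Small n P i) : 49 * (n * pp n i) ≤ mm n i := by
  have hn : (100:ℝ) ≤ n := by exact_mod_cast h.n_big
  have hc : (n.choose 2 : ℝ) = n * (n - 1) / 2 := Nat.cast_choose_two ℝ n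
  have e : mm n i = (n.choose 2 : ℝ) * pp n i := by
    rw [pp, mul_div_cancel₀ _ (choose_pos h).ne']
  rw [e, hc]
  nlinarith [mul_nonneg (mul_nonneg (Nat.cast_nonneg n) (pp_pos h).le) (by linarith : (0:ℝ) ≤ n - 99)]

lemma card_E (hG : Good P i E) : (E.card : ℝ) = mm n i := by
  have : ((E.card + 3 * i : ℕ) : ℝ) = (n.choose 2 : ℝ) := congrArg (Nat.cast : ℕ → ℝ) hG.size.2
  push_cast at this
  simp only [mm]; linarith

lemma triAt_near (h : Small n P i) (hG : Good P i E) {g : Finset (Fin n)} (hg : g ∈ E) :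
    |((triAt E g).card : ℝ) - mu n i| ≤ P.y i * mu n i := by
  have hm := mu_pos h
  have e : ((triAt E g).card : ℝ) - mu n i = yy i E g * mu n i := by
    rw [yy, sub_mul, div_mul_cancel₀ _ hm.ne', one_mul]
  rw [e, abs_mul, abs_of_pos hm]
  exact mul_le_mul_of_nonneg_right (hG.y g hg) hm.le

lemma triAt_le (h : Small n P i) (hG : Good P i E) {g : Finset (Fin n)} (hg : g ∈ E) :
    ((triAt E g).card : ℝ) ≤ 101 / 100 * mu n i := by
  have := mul_le_mul_of_nonneg_right h.y1 (mu_pos h).le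
  linarith [(abs_le.1 (triAt_near h hG hg)).2]

lemma three_Q_near (h : Small n P i) (hG : Good P i E) :
    |3 * ((triangles E).card : ℝ) - mm n i * mu n i| ≤ P.y i * (mm n i * mu n i) := by
  rw [← Codeg.sum_deg E, ← card_E hG]
  calc |(∑ e ∈ E, (deg E e : ℝ)) - E.card * mu n i|
      = |∑ e ∈ E, ((deg E e : ℝ) - mu n i)| := by
        rw [sum_sub_distrib, sum_const, nsmul_eq_mul]
    _ ≤ ∑ e ∈ E, P.y i * mu n i :=
        (abs_sum_le_sum_abs _ _).trans (sum_le_sum fun e he => triAt_near h hG he)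
    _ = _ := by rw [sum_const, nsmul_eq_mul]; ring

lemma three_Q_ge (h : Small n P i) (hG : Good P i E) :
    99 / 100 * (mm n i * mu n i) ≤ 3 * ((triangles E).card : ℝ) := by
  have h0 : 0 ≤ mm n i * mu n i := mul_nonneg (by linarith [mm_ge h]) (mu_pos h).le
  have := mul_le_mul_of_nonneg_right h.y1 h0
  linarith [(abs_le.1 (three_Q_near h hG)).1]

lemma Q_pos (h : Small n P i) (hG : Good P i E) : (0:ℝ) < (triangles E).card := by
  have : 0 < mm n i * mu n i := mul_pos (by linarith [mm_ge h]) (mu_pos h)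
  linarith [three_Q_ge h hG]

lemma triangles_ne (h : Small n P i) (hG : Good P i E) : triangles E ≠ ∅ := fun he => by
  simpa [he] using Q_pos h hG

lemma two_triV_near (h : Small n P i) (hG : Good P i E) (b : Fin n) :
    |2 * ((triV E b).card : ℝ) - degV E b * mu n i| ≤ P.y i * (degV E b * mu n i) := by
  rw [two_card_triV (edgesAt E b) b subset_rfl fun g hg => (mem_filter.1 hg).2,
    ← card_edgesAt hG.size.1 b]
  calc |(∑ g ∈ edgesAt E b, ((triAt E g).card : ℝ)) - (edgesAt E b).card * mu n i|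
      = |∑ g ∈ edgesAt E b, (((triAt E g).card : ℝ) - mu n i)| := by
        rw [sum_sub_distrib, sum_const, nsmul_eq_mul]
    _ ≤ ∑ g ∈ edgesAt E b, P.y i * mu n i := (abs_sum_le_sum_abs _ _).trans
        (sum_le_sum fun g hg => triAt_near h hG (mem_filter.1 hg).1)
    _ = _ := by rw [sum_const, nsmul_eq_mul]; ring

lemma deg_bounds {eta : ℕ → ℝ} (h : Small n P i) (hG : GoodI P eta i E) (he : eta i ≤ 1 / 100)
    (b : Fin n) : 99 / 100 * (n * pp n i) ≤ (degV E b : ℝ) ∧
      (degV E b : ℝ) ≤ 101 / 100 * (n * pp n i) := by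
  have hnp : 0 ≤ (n:ℝ) * pp n i := mul_nonneg (Nat.cast_nonneg n) (pp_pos h).le
  have := mul_le_mul_of_nonneg_right he hnp
  obtain ⟨h1, h2⟩ := abs_le.1 (hG.deg b)
  constructor <;> linarith

lemma two_triV_ge {eta : ℕ → ℝ} (h : Small n P i) (hG : GoodI P eta i E) (he : eta i ≤ 1 / 100)
    (b : Fin n) : 98 / 100 * (n * pp n i * mu n i) ≤ 2 * ((triV E b).card : ℝ) := by
  have h1 := (deg_bounds h hG he b).1
  have hm := mu_pos h
  have h2 := (abs_le.1 (two_triV_near h hG.good b)).1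
  have h3 : P.y i * (degV E b * mu n i) ≤ 1 / 100 * (degV E b * mu n i) :=
    mul_le_mul_of_nonneg_right h.y1 (mul_nonneg (Nat.cast_nonneg _) hm.le)
  have h4 := mul_le_mul_of_nonneg_right h1 hm.le
  have h5 : 0 ≤ (n:ℝ) * pp n i * mu n i :=
    mul_nonneg (mul_nonneg (Nat.cast_nonneg n) (pp_pos h).le) hm.le
  nlinarith

lemma triV_sdiff (E : St n) (t : Finset (Fin n)) (b : Fin n) :
    triV (E \ sides t) b = (triV E b).filter fun u => Disjoint (sides u) (sides t) := by
  rw [triV, triV, triangles_sdiff, filter_comm]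

lemma triAt_sdiff_subset (E : St n) (t g : Finset (Fin n)) :
    triAt (E \ sides t) g ⊆ triAt E g := by
  intro u hu
  simp only [triAt, triangles_sdiff, mem_filter] at hu ⊢
  exact ⟨hu.1.1, hu.2⟩

/-- An average over the steps out of `E`. -/
lemma avg_eq (hne : triangles E ≠ ∅) (f : St n → ℝ) :
    avg f E = (∑ t ∈ triangles E, f (E \ sides t)) / (triangles E).card := by
  rw [Chain.avg, if_neg hne]

end Vale.Agent.P046.Flags.VB
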